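import Crest.Agent.R155.Cube

/-!
# Amplification by the three lines theorem
-/

set_option linter.unusedSectionVars false

namespace Crest.Agent.R155

open scoped ComplexOrder MatrixOrder ComplexConjugate Matrix.Norms.L2Operator Matrix
open Finset GA Equiv

/-! ### entire functions bounded on the strip -/

/-- Entire and bounded on the closed strip `0 ≤ re ≤ 1`. -/
def AmpGood (h : ℂ → ℂ) : Prop :=
  Differentiable ℂ h ∧ ∃ C : ℝ, ∀ s : ℂ, 0 ≤ s.re → s.re ≤ 1 → ‖h s‖ ≤ C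

theorem AmpGood.const (c : ℂ) : AmpGood fun _ => c :=
  ⟨differentiable_const c, ‖c‖, fun _ _ _ => le_rfl⟩

theorem AmpGood.add {f g : ℂ → ℂ} (hf : AmpGood f) (hg : AmpGood g) :
    AmpGood fun s => f s + g s := by
  obtain ⟨h1, C, hC⟩ := hf
  obtain ⟨h2, C', hC'⟩ := hg
  exact ⟨h1.add h2, C + C', fun s h0 h1 =>
    (norm_add_le _ _).trans (add_le_add (hC s h0 h1) (hC' s h0 h1))⟩

theorem AmpGood.mul {f g : ℂ → ℂ} (hf : AmpGood f) (hg : AmpGood g) :
    AmpGood fun s => f s * g s := by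
  obtain ⟨h1, C, hC⟩ := hf
  obtain ⟨h2, C', hC'⟩ := hg
  refine ⟨h1.mul h2, C * C', fun s h0 h1 => ?_⟩
  rw [norm_mul]
  exact mul_le_mul (hC s h0 h1) (hC' s h0 h1) (norm_nonneg _) ((norm_nonneg _).trans (hC s h0 h1))

theorem AmpGood.sum {α : Type*} (t : Finset α) {f : α → ℂ → ℂ} (h : ∀ i, AmpGood (f i)) :
    AmpGood fun s => ∑ i ∈ t, f i s := by
  classical
  induction t using Finset.induction_on with
  | empty => simpa using AmpGood.const 0
  | insert i t hi ih => simpa [sum_insert hi] using (h i).add ih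

theorem AmpGood.prod {α : Type*} (t : Finset α) {f : α → ℂ → ℂ} (h : ∀ i, AmpGood (f i)) :
    AmpGood fun s => ∏ i ∈ t, f i s := by
  classical
  induction t using Finset.induction_on with
  | empty => simpa using AmpGood.const 1
  | insert i t hi ih => simpa [prod_insert hi] using (h i).mul ih

theorem AmpGood.exp (a : ℝ) (b : ℂ) (n : ℕ) :
    AmpGood fun s => Complex.exp ((b + a * s) * n) := by
  refine ⟨by fun_prop, Real.exp ((b.re + |a|) * n), fun s h0 h1 => ?_⟩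
  rw [Complex.norm_exp]
  refine Real.exp_le_exp.2 ?_
  have e1 : ((b + a * s) * n).re = (b.re + a * s.re) * n := by simp
  rw [e1]
  refine mul_le_mul_of_nonneg_right ?_ (Nat.cast_nonneg n)
  have h2 : a * s.re ≤ |a| * s.re := mul_le_mul_of_nonneg_right (le_abs_self a) h0
  nlinarith [abs_nonneg a]

section goodGA

variable {G K : Type} [Group G] [Fintype G] [DecidableEq G] [Group K] [Fintype K] [DecidableEq K]

/-- All coefficients are entire and bounded on the strip. -/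
def AmpGoodGA (f : ℂ → GA G) : Prop := ∀ g, AmpGood fun s => f s g

theorem AmpGoodGA.const (a : GA G) : AmpGoodGA fun _ => a := fun _ => AmpGood.const _

theorem AmpGoodGA.mul {f f' : ℂ → GA G} (h : AmpGoodGA f) (h' : AmpGoodGA f') :
    AmpGoodGA fun s => f s * f' s := fun g =>
  AmpGood.sum univ fun k => (h k).mul (h' (k⁻¹ * g))

theorem AmpGoodGA.listProd {α : Type*} (l : List α) {f : α → ℂ → GA G}
    (h : ∀ i, AmpGoodGA (f i)) : AmpGoodGA fun s => (l.map fun i => f i s).prod := by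
  induction l with
  | nil => simpa using AmpGoodGA.const 1
  | cons a l ih => simpa using (h a).mul ih

theorem AmpGoodGA.push (φ : K →* G) {f : ℂ → GA K} (h : AmpGoodGA f) :
    AmpGoodGA fun s => push φ (f s) := fun g => by
  simp only [push_apply]
  refine AmpGood.sum univ fun k => ?_
  by_cases hk : g = φ k
  · simpa [hk] using h k
  · simpa [hk] using AmpGood.const 0

theorem AmpGoodGA.tens {κ : Type} [Fintype κ] [DecidableEq κ] {f : ℂ → GA K} (h : AmpGoodGA f) :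
    AmpGoodGA fun s => tens fun _ : κ => f s := fun g =>
  AmpGood.prod univ fun k => h (g k)

theorem AmpGoodGA.phi {ι : Type} [Fintype ι] [DecidableEq ι] (a : ℝ) (b : ℂ) :
    AmpGoodGA fun s => (phi (b + a * s) : GA (Perm ι)) := fun g => by
  simp only [R155.phi, cen, GA.sum_apply, GA.smul_apply]
  exact AmpGood.sum _ fun χ => (AmpGood.exp a b _).mul (AmpGood.const _)

/-- The three lines theorem in a representation. -/
theorem AmpGoodGA.three_lines {f : ℂ → GA G} (h : AmpGoodGA f) {χ : G → ℂ} (hχ : IsIrr χ)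
    {a b : ℝ} (ha : ∀ y : ℝ, opn χ (f (y * Complex.I)) ≤ a)
    (hb : ∀ y : ℝ, opn χ (f (1 + y * Complex.I)) ≤ b) {t : ℝ} (h0 : 0 ≤ t) (h1 : t ≤ 1) :
    opn χ (f t) ≤ a ^ (1 - t) * b ^ t := by
  obtain ⟨r, rfl⟩ := hχ
  simp only [r.opn_eq] at ha hb ⊢
  have hd : Differentiable ℂ fun s => lift r.ρ (f s) := by
    simp only [lift_apply]
    exact Differentiable.fun_sum fun g _ => (h g).1.smul_const _
  choose C hC using fun g => (h g).2
  have := Complex.HadamardThreeLines.norm_le_interp_of_mem_verticalClosedStrip₀₁'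
    (fun s => lift r.ρ (f s)) (z := t) (a := a) (b := b) ⟨by simpa using h0, by simpa using h1⟩
    hd.diffContOnCl ⟨∑ g, C g * ‖r.ρ g‖, by
      rintro _ ⟨s, hs, rfl⟩
      simp only [Function.comp_apply, lift_apply]
      refine (norm_sum_le _ _).trans (sum_le_sum fun g _ => ?_)
      rw [norm_smul]
      exact mul_le_mul_of_nonneg_right (hC g s hs.1 hs.2) (norm_nonneg _)⟩
    (fun z hz => by
      have e : z = z.im * Complex.I := Complex.ext (by simpa using hz) (by simp)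
      rw [e]; exact ha _)
    (fun z hz => by
      have e : z = 1 + z.im * Complex.I := Complex.ext (by simpa using hz) (by simp)
      rw [e]; exact hb _)
  simpa using this

end goodGA

/-! ### the central weight -/

section phi

variable {ι : Type} [Fintype ι] [DecidableEq ι]

theorem amp_phi_zero : (phi 0 : GA (Perm ι)) = 1 := by
  simp [phi, cen_one]

theorem amp_phi_add (z w : ℂ) : (phi (z + w) : GA (Perm ι)) = phi z * phi w := by
  simp only [phi, cen_mul, add_mul, Complex.exp_add]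

theorem amp_phi_star (y : ℝ) :
    star (phi (y * Complex.I) : GA (Perm ι)) = phi (-(y * Complex.I)) := by
  rw [phi, phi, star_cen]
  refine cen_congr fun χ _ => ?_
  rw [← Complex.exp_conj]
  simp

theorem amp_phi_unit (y : ℝ) :
    star (phi (y * Complex.I) : GA (Perm ι)) * phi (y * Complex.I) = 1 := by
  rw [amp_phi_star, ← amp_phi_add, neg_add_cancel, amp_phi_zero]

theorem amp_phi_unit' (y : ℝ) :
    (phi (y * Complex.I) : GA (Perm ι)) * star (phi (y * Complex.I)) = 1 := by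
  rw [amp_phi_star, ← amp_phi_add, add_neg_cancel, amp_phi_zero]

end phi

/-! ### partial products as trees -/

section tree

variable {ℓ : ℕ} {x₀ : GA (Perm (Fin ℓ → Bool))} {d : ℕ}

/-- `Y` is the lift of a tree operator on the directions `[a, a + m)`. -/
def AmpT (x₀ : GA (Perm (Fin ℓ → Bool))) (d a m : ℕ) (Y : GA (Perm (Fin d → Bool))) : Prop :=
  ∃ (h : a + m ≤ d) (X : GA (Perm (Fin m → Bool))), Tree ℓ x₀ m X ∧ cubeLift (iv a m d h) X = Y

theorem AmpT.right_two {a m : ℕ} {Y : GA (Perm (Fin d → Bool))} (H : AmpT x₀ d a m Y)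
    (h : a + (m + 2) ≤ d) : AmpT x₀ d a (m + 2) (Y * seg d (a + m) 2) := by
  obtain ⟨h', X, hX, rfl⟩ := H
  refine ⟨h, _, Tree.right (splitE _ _ (iv_compl_right m 2)) isCol4_Qd hX, ?_⟩
  rw [blockLift_splitE, blockLift_splitE', cubeLift_mul, cubeLift_cubeLift, cubeLift_cubeLift,
    iv_trans, iv_trans, cubeLift_Qd]
  rfl

theorem AmpT.left_two {a m : ℕ} {Y : GA (Perm (Fin d → Bool))} (H : AmpT x₀ d (a + 2) m Y) :
    AmpT x₀ d a (m + 2) (seg d a 2 * Y) := by
  obtain ⟨h', X, hX, rfl⟩ := H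
  refine ⟨by omega, _, Tree.left (splitE _ _ (iv_compl_left m 2)) isCol4_Qd hX, ?_⟩
  rw [blockLift_splitE, blockLift_splitE', cubeLift_mul, cubeLift_cubeLift, cubeLift_cubeLift,
    iv_trans, iv_trans, cubeLift_Qd]
  rfl

theorem AmpT.right {a m : ℕ} {Y : GA (Perm (Fin d → Bool))} (H : AmpT x₀ d a m Y) (k : ℕ)
    (h : a + (m + 2 * k) ≤ d) : AmpT x₀ d a (m + 2 * k) (Y * seg d (a + m) (2 * k)) := by
  induction k with
  | zero => simpa using H
  | succ k ih =>
    have := (ih (by omega)).right_two (by omega)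
    rw [mul_assoc, ← add_assoc a, ← seg_add] at this
    exact this

theorem AmpT.left {a m : ℕ} {Y : GA (Perm (Fin d → Bool))} (k : ℕ)
    (H : AmpT x₀ d (a + 2 * k) m Y) : AmpT x₀ d a (m + 2 * k) (seg d a (2 * k) * Y) := by
  induction k generalizing a with
  | zero => simpa using H
  | succ k ih =>
    have := (ih (a := a + 2) (by rw [show a + 2 + 2 * k = a + 2 * (k + 1) by ring]; exact H)).left_two
    rw [← mul_assoc, ← seg_add, add_comm 2] at this
    exact this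

theorem AmpT.unit_right {a m b : ℕ} {Y : GA (Perm (Fin d → Bool))} (H : AmpT x₀ d a m Y)
    (hab : a ≤ b) (hb : b + ℓ ≤ a + m) (hd : b + ℓ ≤ d) {u : GA (Perm (Fin ℓ → Bool))}
    (hu : u * star u = 1) : AmpT x₀ d a m (Y * cubeLift (iv b ℓ d hd) u) := by
  obtain ⟨h', X, hX, rfl⟩ := H
  obtain ⟨c, rfl⟩ := Nat.exists_eq_add_of_le hab
  refine ⟨h', _, Tree.unit (u := 1) (v := cubeLift (iv c ℓ m (by omega)) u) (by simp) ?_ hX, ?_⟩
  · rw [← cubeLift_star, ← cubeLift_mul, hu, cubeLift_one]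
  · rw [one_mul, cubeLift_mul, cubeLift_cubeLift, iv_trans]

theorem AmpT.unit_left {a m b : ℕ} {Y : GA (Perm (Fin d → Bool))} (H : AmpT x₀ d a m Y)
    (hab : a ≤ b) (hb : b + ℓ ≤ a + m) (hd : b + ℓ ≤ d) {u : GA (Perm (Fin ℓ → Bool))}
    (hu : star u * u = 1) : AmpT x₀ d a m (cubeLift (iv b ℓ d hd) u * Y) := by
  obtain ⟨h', X, hX, rfl⟩ := H
  obtain ⟨c, rfl⟩ := Nat.exists_eq_add_of_le hab
  refine ⟨h', _, Tree.unit (v := 1) (u := cubeLift (iv c ℓ m (by omega)) u) ?_ (by simp) hX, ?_⟩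
  · rw [← cubeLift_star, ← cubeLift_mul, hu, cubeLift_one]
  · rw [mul_one, cubeLift_mul, cubeLift_cubeLift, iv_trans]

theorem AmpT.tree {Y : GA (Perm (Fin d → Bool))} (H : AmpT x₀ d 0 d Y) : Tree ℓ x₀ d Y := by
  obtain ⟨h', X, hX, rfl⟩ := H
  rwa [cubeLift_of_eq fun i => Fin.ext (by simp)]

theorem AmpT.cast {a m a' m' : ℕ} {Y Y' : GA (Perm (Fin d → Bool))} (H : AmpT x₀ d a m Y)
    (ha : a = a') (hm : m = m') (hY : Y = Y') : AmpT x₀ d a' m' Y' := by
  subst ha hm hY; exact H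

end tree

/-! ### the analytic family -/

/-- The weighted window number `j`, followed by the gap. -/
noncomputable def ampB (ℓ d j : ℕ) (z : ℂ) : GA (Perm (Fin d → Bool)) :=
  (if h : j * (ℓ + ℓ % 2) + ℓ ≤ d then cubeLift (iv (j * (ℓ + ℓ % 2)) ℓ d h) (Qd ℓ * phi z) else 1) *
    seg d (j * (ℓ + ℓ % 2) + ℓ) (ℓ % 2)

/-- The windows `[a, a + k)`. -/
noncomputable def ampH (ℓ d : ℕ) (z : ℕ → ℂ) (a k : ℕ) : GA (Perm (Fin d → Bool)) :=
  ((List.range' a k).map fun j => ampB ℓ d j (z j)).prod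

/-- The weighted pass. -/
noncomputable def ampF (ℓ d J : ℕ) (z : ℕ → ℂ) : GA (Perm (Fin d → Bool)) :=
  ampH ℓ d z 0 J * seg d (J * (ℓ + ℓ % 2)) (d - J * (ℓ + ℓ % 2))

theorem ampH_succ (ℓ d : ℕ) (z : ℕ → ℂ) (a k : ℕ) :
    ampH ℓ d z a (k + 1) = ampH ℓ d z a k * ampB ℓ d (a + k) (z (a + k)) := by
  simp [ampH, List.range'_1_concat]

theorem ampH_succ' (ℓ d : ℕ) (z : ℕ → ℂ) (a k : ℕ) :
    ampH ℓ d z a (k + 1) = ampB ℓ d a (z a) * ampH ℓ d z (a + 1) k := by
  simp [ampH, List.range'_succ]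

theorem amp_win_le {ℓ d J j : ℕ} (hJd : J * (ℓ + 1) ≤ d) (hj : j < J) :
    j * (ℓ + ℓ % 2) + (ℓ + ℓ % 2) ≤ d := by
  have h1 : (j + 1) * (ℓ + ℓ % 2) ≤ J * (ℓ + 1) := Nat.mul_le_mul hj (by omega)
  rw [add_mul, one_mul] at h1
  omega

theorem ampF_zero {ℓ d J : ℕ} (hJd : J * (ℓ + 1) ≤ d) : ampF ℓ d J (fun _ => 0) = Qd d := by
  have key : ∀ k, k ≤ J → ampH ℓ d (fun _ => 0) 0 k = seg d 0 (k * (ℓ + ℓ % 2)) := by
    intro k
    induction k with
    | zero => simp [ampH]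
    | succ k ih =>
      intro hk
      have h1 := amp_win_le hJd (Nat.lt_of_succ_le hk)
      rw [ampH_succ, ih (by omega), zero_add, ampB, dif_pos (by omega), amp_phi_zero, mul_one,
        cubeLift_Qd, ← seg_add, add_mul, one_mul, seg_add d 0, zero_add]
  have h2 : J * (ℓ + ℓ % 2) ≤ d := (Nat.mul_le_mul_left _ (by omega)).trans hJd
  have h3 := seg_add d 0 (J * (ℓ + ℓ % 2)) (d - J * (ℓ + ℓ % 2))
  rw [zero_add, Nat.add_sub_cancel' h2] at h3
  rw [ampF, key J le_rfl, ← seg_eq_Qd, h3]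

theorem ampF_good (ℓ d J : ℕ) (a : ℕ → ℝ) (b : ℕ → ℂ) :
    AmpGoodGA fun s => ampF ℓ d J fun j => b j + a j * s := by
  refine AmpGoodGA.mul (AmpGoodGA.listProd _ (f := fun j s => ampB ℓ d j (b j + a j * s))
    fun j => AmpGoodGA.mul ?_ (AmpGoodGA.const _)) (AmpGoodGA.const _)
  split_ifs with h
  · exact AmpGoodGA.push _ (AmpGoodGA.tens ((AmpGoodGA.const _).mul (AmpGoodGA.phi _ _)))
  · exact AmpGoodGA.const _

theorem ampF_contr {ℓ d J : ℕ} {c₀ : ℝ}
    (hW : ∀ χ' : Perm (Fin ℓ → Bool) → ℂ, IsIrr χ' → opn χ' (Qd ℓ) ≤ Real.exp (-(c₀ * lev χ')))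
    {z : ℕ → ℂ} (hz : ∀ j, (z j).re = c₀) : star (ampF ℓ d J z) * ampF ℓ d J z ≤ 1 := by
  refine star_mul_le_one_mul (star_mul_le_one_listProd _ fun x hx => ?_) (seg_contr _ _ _)
  obtain ⟨j, -, rfl⟩ := List.mem_map.1 hx
  refine star_mul_le_one_mul ?_ (seg_contr _ _ _)
  split_ifs with h
  · refine cubeLift_contr _ ?_
    have := star_mul_le_of_opn (a := Qd ℓ * phi (z j)) (c := 1) fun χ hχ => by
      rw [phi, hχ.opn_mul_cen, Complex.norm_exp]
      have e1 : (z j * (lev χ : ℕ)).re = c₀ * lev χ := by simp [hz]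
      rw [e1]
      calc Real.exp (c₀ * lev χ) * opn χ (Qd ℓ)
          ≤ Real.exp (c₀ * lev χ) * Real.exp (-(c₀ * lev χ)) :=
            mul_le_mul_of_nonneg_left (hW χ hχ) (Real.exp_pos _).le
        _ = 1 := by rw [← Real.exp_add, add_neg_cancel, Real.exp_zero]
    simpa using this
  · simp

theorem ampF_tree {ℓ d J : ℕ} (hpar : ℓ % 2 = d % 2) (hJd : J * (ℓ + 1) ≤ d) {j₀ : ℕ}
    (hj₀ : j₀ < J) (w : ℂ) (y : ℕ → ℝ) {z : ℕ → ℂ} (hz₀ : z j₀ = w + y j₀ * Complex.I)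
    (hz : ∀ j, j ≠ j₀ → z j = y j * Complex.I) : Tree ℓ (Qd ℓ * phi w) d (ampF ℓ d J z) := by
  obtain ⟨p, hp⟩ : ∃ p, ℓ + ℓ % 2 = 2 * p := ⟨(ℓ + ℓ % 2) / 2, by omega⟩
  set L := ℓ + ℓ % 2 with hL
  have hwin : ∀ j, j < J → j * L + L ≤ d := fun j hj => amp_win_le hJd hj
  have right : ∀ k, j₀ + 1 + k ≤ J → ∃ Y, AmpT (Qd ℓ * phi w) d (j₀ * L) (k * L + ℓ) Y ∧
      ampH ℓ d z j₀ (k + 1) = Y * seg d ((j₀ + k) * L + ℓ) (ℓ % 2) := by
    intro k
    induction k with
    | zero =>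
      intro _
      have h1 := hwin j₀ hj₀
      have h2 : j₀ * L + ℓ ≤ d := by omega
      have h3 : AmpT (Qd ℓ * phi w) d (j₀ * L) ℓ (cubeLift (iv _ ℓ d h2) (Qd ℓ * phi w)) :=
        ⟨h2, _, Tree.base, rfl⟩
      refine ⟨_, (h3.unit_right le_rfl le_rfl h2 (amp_phi_unit' (y j₀))).cast rfl (by simp) rfl, ?_⟩
      rw [ampH_succ, add_zero, ampB, dif_pos h2, hz₀, amp_phi_add, ← mul_assoc, ← cubeLift_mul]
      simp [ampH, hL, mul_assoc]
    | succ k ih =>
      intro hk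
      obtain ⟨Y, hY, e⟩ := ih (by omega)
      have h1 := hwin (j₀ + (k + 1)) (by omega)
      have h2 : (j₀ + (k + 1)) * L + ℓ ≤ d := by omega
      have e1 : (j₀ + (k + 1)) * L = j₀ * L + k * L + L := by ring
      have h3 := (hY.right p (by omega)).unit_right (b := (j₀ + (k + 1)) * L) (by omega)
        (by omega) h2 (amp_phi_unit' (y (j₀ + (k + 1))))
      refine ⟨_, h3.cast rfl (by rw [← hp]; ring) rfl, ?_⟩
      rw [ampH_succ, e, ampB, dif_pos h2, hz _ (by omega), cubeLift_mul, cubeLift_Qd, ← hp,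
        show seg d (j₀ * L + (k * L + ℓ)) L = seg d ((j₀ + k) * L + ℓ) (ℓ % 2 + ℓ) by
          congr 1
          · ring
          · omega,
        seg_add, show (j₀ + k) * L + ℓ + ℓ % 2 = (j₀ + (k + 1)) * L by
          rw [add_assoc, ← hL]; ring]
      simp only [mul_assoc, hL]
  have hJL : J * L ≤ d := (Nat.mul_le_mul_left _ (by omega)).trans hJd
  have left : ∀ k, k ≤ j₀ → AmpT (Qd ℓ * phi w) d ((j₀ - k) * L) (d - (j₀ - k) * L)
      (ampH ℓ d z (j₀ - k) (J - (j₀ - k)) * seg d (J * L) (d - J * L)) := by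
    intro k
    induction k with
    | zero =>
      intro _
      obtain ⟨n, rfl⟩ : ∃ n, J = j₀ + 1 + n := ⟨J - (j₀ + 1), by omega⟩
      obtain ⟨Y, hY, e⟩ := right n le_rfl
      have e1 : (j₀ + 1 + n) * L = j₀ * L + n * L + L := by ring
      have e2 : j₀ * L = 2 * (j₀ * p) := by rw [hp]; ring
      have e3 : n * L = 2 * (n * p) := by rw [hp]; ring
      obtain ⟨q, hq⟩ : ∃ q, ℓ % 2 + (d - (j₀ + 1 + n) * L) = 2 * q :=
        ⟨(ℓ % 2 + (d - (j₀ + 1 + n) * L)) / 2, by omega⟩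
      refine (hY.right q (by omega)).cast (by simp) (by simp only [Nat.sub_zero]; omega) ?_
      rw [Nat.sub_zero, show j₀ + 1 + n - j₀ = n + 1 by omega, e, ← hq, seg_add, mul_assoc]
      congr 3
      · ring
      · omega
    | succ k ih =>
      intro hk
      obtain ⟨i, rfl⟩ : ∃ i, j₀ = i + (k + 1) := ⟨j₀ - (k + 1), by omega⟩
      have h0 := ih (by omega)
      rw [show i + (k + 1) - k = i + 1 by omega] at h0
      rw [show i + (k + 1) - (k + 1) = i by omega]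
      have h1 := hwin i (by omega)
      have h2 : i * L + ℓ ≤ d := by omega
      have e1 : (i + 1) * L = i * L + 2 * p := by rw [← hp]; ring
      have h3 := (AmpT.left p (h0.cast e1 rfl rfl)).unit_left (b := i * L) le_rfl (by omega) h2
        (amp_phi_unit (y i))
      refine h3.cast rfl (by omega) ?_
      rw [show J - i = J - (i + 1) + 1 by omega, ampH_succ', ampB, dif_pos h2, hz _ (by omega),
        phi, ← cen_comm, cubeLift_mul, cubeLift_Qd, ← hp,
        show seg d (i * L) L = _ from seg_add d (i * L) ℓ (ℓ % 2)]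
      simp only [mul_assoc, hL]
  exact ((left j₀ le_rfl).cast (by simp) (by simp) (by simp [ampF, hL])).tree

/-- Uniform bound on the tube over the real point `x`. -/
def AmpBd (ℓ d J : ℕ) (χ : Perm (Fin d → Bool) → ℂ) (c : ℝ) (x : ℕ → ℝ) : Prop :=
  ∀ y : ℕ → ℝ, opn χ (ampF ℓ d J fun j => x j + y j * Complex.I) ≤ c

theorem AmpBd.interp {ℓ d J : ℕ} {χ : Perm (Fin d → Bool) → ℂ} (hχ : IsIrr χ) {x x' : ℕ → ℝ}
    {a b : ℝ} (ha : AmpBd ℓ d J χ a x) (hb : AmpBd ℓ d J χ b x') {t : ℝ} (h0 : 0 ≤ t)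
    (h1 : t ≤ 1) : AmpBd ℓ d J χ (a ^ (1 - t) * b ^ t) (fun j => (1 - t) * x j + t * x' j) := by
  intro y
  have e0 : ∀ s : ℝ, (fun j => (x j + y j * Complex.I : ℂ) + (x' j - x j : ℝ) * (s * Complex.I)) =
      fun j => (x j : ℂ) + (y j + (x' j - x j) * s : ℝ) * Complex.I := fun s => by
    funext j; push_cast; ring
  have e1 : ∀ s : ℝ,
      (fun j => (x j + y j * Complex.I : ℂ) + (x' j - x j : ℝ) * (1 + s * Complex.I)) =
      fun j => (x' j : ℂ) + (y j + (x' j - x j) * s : ℝ) * Complex.I := fun s => by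
    funext j; push_cast; ring
  have e2 : (fun j => (x j + y j * Complex.I : ℂ) + (x' j - x j : ℝ) * (t : ℂ)) =
      fun j => (((1 - t) * x j + t * x' j : ℝ) : ℂ) + y j * Complex.I := by
    funext j; push_cast; ring
  have := (ampF_good ℓ d J (fun j => x' j - x j)
    (fun j => x j + y j * Complex.I)).three_lines hχ (a := a) (b := b)
    (fun s => by rw [e0]; exact ha _) (fun s => by rw [e1]; exact hb _) h0 h1
  rwa [e2] at this

theorem amp_convex {ℓ d J : ℕ} {χ : Perm (Fin d → Bool) → ℂ} (hχ : IsIrr χ) {δ : ℝ}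
    (hδ : 0 < δ) : Convex ℝ {x | AmpBd ℓ d J χ δ x} := by
  intro x hx x' hx' a b ha hb hab
  have := AmpBd.interp hχ hx hx' hb (by linarith)
  rw [← Real.rpow_add hδ, sub_add_cancel, Real.rpow_one] at this
  have e : a • x + b • x' = fun j => (1 - b) * x j + b * x' j := by
    funext j; simp [← hab]
  rw [e]
  exact this

theorem ampF_congr {ℓ d J : ℕ} {z z' : ℕ → ℂ} (h : ∀ j, j < J → z j = z' j) :
    ampF ℓ d J z = ampF ℓ d J z' := by
  rw [ampF, ampF, ampH, ampH, List.map_congr_left fun j hj => by rw [h j (by simpa using hj)]]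

theorem amp {ℓ d J : ℕ} (hℓ : 1 ≤ ℓ) (hpar : ℓ % 2 = d % 2) (hJ : 1 ≤ J) (hJd : J * (ℓ + 1) ≤ d)
    {c₀ M δ : ℝ} (hc : 0 < c₀) (hM : 0 ≤ M) (hδ : 0 < δ)
    (hW : ∀ χ' : Perm (Fin ℓ → Bool) → ℂ, IsIrr χ' → opn χ' (Qd ℓ) ≤ Real.exp (-(c₀ * lev χ')))
    {χ : Perm (Fin d → Bool) → ℂ} (hχ : IsIrr χ)
    (hT : ∀ X, Tree ℓ (Qd ℓ * phi (-(M : ℂ))) d X → opn χ X ≤ δ) :
    opn χ (Qd d) ≤ δ ^ (J * c₀ / (M + J * c₀)) := by
  have _ := hℓ
  have hJ' : (0 : ℝ) < J := by exact_mod_cast hJ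
  have h1 : ∀ j₀ ∈ range J,
      (fun j => if j = j₀ then -M else 0) ∈ {x | AmpBd ℓ d J χ δ x} := by
    intro j₀ hj₀ y
    refine hT _ (ampF_tree hpar hJd (mem_range.1 hj₀) _ y (by simp) fun j hj => by simp [hj])
  have h2 : AmpBd ℓ d J χ δ _ := (amp_convex hχ hδ).sum_mem (t := range J)
    (w := fun _ => (J : ℝ)⁻¹) (fun _ _ => by positivity) (by simp [hJ'.ne']) h1
  have h3 : AmpBd ℓ d J χ 1 (fun _ => c₀) := fun y =>
    opn_le_one (ampF_contr hW fun j => by simp) χ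
  have hden : 0 < M + J * c₀ := by positivity
  have h4 := h3.interp hχ h2 (t := J * c₀ / (M + J * c₀)) (by positivity)
    (by rw [div_le_one hden]; linarith) fun _ => 0
  rw [Real.one_rpow, one_mul] at h4
  rw [← ampF_zero hJd]
  refine le_of_eq_of_le (congrArg _ (ampF_congr fun j hj => ?_)) h4
  have e : (∑ i ∈ range J, (J : ℝ)⁻¹ • fun j => if j = i then -M else (0 : ℝ)) j = -M / J := by
    rw [Finset.sum_apply]
    simp [hj, div_eq_inv_mul]
  have e2 : (1 - J * c₀ / (M + J * c₀)) * c₀ + J * c₀ / (M + J * c₀) * (-M / J) = 0 := by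
    field_simp; ring
  simp only [e, e2]
  simp

end Crest.Agent.R155
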