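import Crest.Agent.R155.Lev

/-!
# The two base cases of the recursion
-/

set_option linter.unusedSectionVars false

namespace Crest.Agent.R155

open scoped ComplexOrder MatrixOrder ComplexConjugate Matrix.Norms.L2Operator Matrix
open Finset GA Equiv

variable {ι : Type} [Fintype ι] [DecidableEq ι]

theorem tv_pull_avgTw {G : Type} [Group G] [Fintype G] [DecidableEq G] {H S : Subgroup G}
    [Fintype H] (hS : S ≤ H) (σ : G → ℂ) :
    pull H.subtype (avgTw S σ) = avgTw (S.subgroupOf H) (fun h => σ h) := by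
  ext h
  have hc : Nat.card (S.subgroupOf H) = Nat.card S :=
    Nat.card_congr (Subgroup.subgroupOfEquivOfLe hS).toEquiv
  rw [pull_apply]
  by_cases hh : (h : G) ∈ S
  · rw [avgTw_of_mem _ (show H.subtype h ∈ S from hh),
      avgTw_of_mem _ (Subgroup.mem_subgroupOf.2 hh), hc]
    rfl
  · rw [avgTw_of_notMem _ (show H.subtype h ∉ S from hh),
      avgTw_of_notMem _ fun h' => hh (Subgroup.mem_subgroupOf.1 h')]

theorem tv_dtil_mul (p : Pat ι) (α : patGrp p → ℂ) : dtil p α * (nStar p).factorial =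
    ((Fintype.card ι).factorial : ℝ) / (Fintype.card (patGrp p) : ℝ) * dim α := by
  have h1 : (0 : ℝ) < Fintype.card (patGrp p) := by exact_mod_cast Fintype.card_pos
  have h2 : (0 : ℝ) < (nStar p).factorial := by exact_mod_cast Nat.factorial_pos _
  unfold dtil
  field_simp

theorem tv_dtil_mul_le {p : Pat ι} {α : patGrp p → ℂ} (hα : IsIrr α) {T : Finset ι}
    (hT : ∀ i ∈ T, p i = some false) (h : ev α (res p (symz T)) ≠ 0) :
    dtil p α * (nStar p).factorial ≤ (Fintype.card ι : ℝ) ^ (Fintype.card ι - T.card) := by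
  have hle := suppGrp_le_patGrp hT
  rw [res, symz, avgSub, tv_pull_avgTw hle] at h
  have h1 := hα.dim_mul_card_le (isChar_one _) h
  rw [Nat.card_congr (Subgroup.subgroupOfEquivOfLe hle).toEquiv, card_suppGrp] at h1
  have h2 : (0 : ℝ) < Fintype.card (patGrp p) := by exact_mod_cast Fintype.card_pos
  have h3 : (0 : ℝ) < (T.card).factorial := by exact_mod_cast Nat.factorial_pos _
  have h4 := card_le_univ T
  have h5 := Nat.factorial_mul_descFactorial (n := Fintype.card ι) (k := Fintype.card ι - T.card)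
    (Nat.sub_le _ _)
  rw [Nat.sub_sub_self h4] at h5
  have h6 := Nat.descFactorial_le_pow (Fintype.card ι) (Fintype.card ι - T.card)
  have h7 : ((Fintype.card ι).factorial : ℝ) ≤
      (T.card).factorial * (Fintype.card ι : ℝ) ^ (Fintype.card ι - T.card) := by
    rw [← h5]; exact_mod_cast Nat.mul_le_mul_left _ h6
  rw [tv_dtil_mul, div_mul_eq_mul_div, div_le_iff₀ h2]
  have h8 := hα.dim_pos
  calc ((Fintype.card ι).factorial : ℝ) * dim α
      ≤ (T.card).factorial * (Fintype.card ι : ℝ) ^ (Fintype.card ι - T.card) * dim α := by gcongr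
    _ = (Fintype.card ι : ℝ) ^ (Fintype.card ι - T.card) * (dim α * (T.card).factorial) := by ring
    _ ≤ _ := by gcongr

theorem KeffLe.dtil_mul_le [Nonempty ι] {p : Pat ι} {α : patGrp p → ℂ} (hα : IsIrr α) {k : ℕ}
    (h : KeffLe p α k) : dtil p α * (nStar p).factorial ≤ (Fintype.card ι : ℝ) ^ k := by
  obtain ⟨T, h1, h2, h3⟩ := h
  refine (tv_dtil_mul_le hα h1 h3).trans (pow_le_pow_right₀ ?_ (by omega))
  exact_mod_cast Fintype.card_pos

theorem tv_sq_le_one {G : Type} [Group G] [Fintype G] [DecidableEq G] {y : GA G} (h0 : 0 ≤ y)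
    (h1 : y ≤ 1) : y ^ 2 ≤ 1 := by
  obtain ⟨b, hb, rfl⟩ := exists_star_mul_self h0
  have := star_left_conjugate_le_conjugate h1 b
  rw [hb, mul_one] at this
  refine le_trans (le_of_eq ?_) (this.trans h1)
  simp only [pow_two, mul_assoc]

theorem tv_sq_nonneg {G : Type} [Group G] [Fintype G] [DecidableEq G] (x : GA G) :
    0 ≤ (star x * x) ^ 2 := by
  have : (star x * x) ^ 2 = star (star x * x) * (star x * x) := by
    rw [star_mul, star_star, pow_two]
  rw [this]
  exact star_mul_self_nonneg _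

theorem tv_indP_le {p : Pat ι} {α : patGrp p → ℂ} (hα : IsIrr α) {F : GA (Perm ι)}
    (hF : F ≤ 1) : (indP p α F).re ≤ dtil p α * (nStar p).factorial := by
  have h1 := (Complex.le_def.1 ((isTr_indP hα).mono hF)).1
  rw [indP, ind_one (patGrp p).subtype_injective, ev_one, ← hα.coe_dim, Fintype.card_perm] at h1
  rw [tv_dtil_mul]
  refine h1.trans (le_of_eq ?_)
  rw [← Complex.ofReal_natCast, ← Complex.ofReal_natCast, ← Complex.ofReal_div,
    ← Complex.ofReal_mul, Complex.ofReal_re]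

theorem tv_weight_le {p : Pat ι} {α : patGrp p → ℂ} (hα : IsIrr α) {F : GA (Perm ι)}
    (hF : F ≤ 1) {M : ℝ} (hM : dtil p α * (nStar p).factorial ≤ M) :
    dtil p α ^ (1 / 16 : ℝ) * (indP p α F).re ≤ M ^ (17 / 16 : ℝ) := by
  have h0 := dtil_pos hα
  have h1 : (1 : ℝ) ≤ (nStar p).factorial := by exact_mod_cast Nat.factorial_pos _
  have h2 : dtil p α ≤ M := le_trans (le_mul_of_one_le_right h0.le h1) hM
  have hM0 : 0 < M := h0.trans_le h2
  calc _ ≤ dtil p α ^ (1 / 16 : ℝ) * M :=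
        mul_le_mul_of_nonneg_left ((tv_indP_le hα hF).trans hM) (by positivity)
    _ ≤ M ^ (1 / 16 : ℝ) * M := by gcongr
    _ = _ := by rw [← Real.rpow_add_one hM0.ne']; norm_num

theorem tv_one_le_fact (u : ℕ) : (1 : ℝ) ≤ (u.factorial : ℝ) ^ (9 / 20 : ℝ) :=
  Real.one_le_rpow (by exact_mod_cast Nat.factorial_pos _) (by norm_num)

/-- The trivial bound for a contraction. -/
theorem hyp_triv [Nonempty ι] {x : GA (Perm ι)} (hx : star x * x ≤ 1) (q k : ℕ) :
    Hyp q k ((Fintype.card ι : ℝ) ^ (17 / 16 * k : ℝ)) x := by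
  intro p α hα _ hk
  refine (tv_weight_le hα (tv_sq_le_one (star_mul_self_nonneg x) hx) (hk.dtil_mul_le hα)).trans ?_
  rw [← Real.rpow_natCast, ← Real.rpow_mul (Nat.cast_nonneg _), mul_comm (k : ℝ)]
  exact le_mul_of_one_le_left (by positivity) (tv_one_le_fact _)

/-- A constituent of the induced character bounds the effective level. -/
theorem tv_keffLe_of_mult {q : ℕ} {p : Pat ι} {α : patGrp p → ℂ} (hα : IsIrr α) (ha : Adm q p α)
    {χ : Perm ι → ℂ} (hχ : IsIrr χ) (hm : mult (patGrp p).subtype α χ ≠ 0) :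
    KeffLe p α (lev χ + q + nStar p) := by
  obtain ⟨T, hT, hT'⟩ := exists_lev hχ
  obtain ⟨r, rfl⟩ := hχ
  have hA : lift r.ρ (push (patGrp p).subtype (eI α)) ≠ 0 := by
    rw [← r.ev_ne_zero_iff (push_nonneg _ (isStarProjection_eI hα).nonneg), ev_push_eI]
    exact mul_ne_zero hα.one_ne_zero hm
  rw [r.ev_ne_zero_iff (isStarProjection_symz T).nonneg] at hT'
  obtain ⟨g, hg⟩ := r.exists_mul_ne_zero hA hT'
  have h1 : lift r.ρ (push (patGrp p).subtype (eI α)) *
      lift r.ρ (symz (T.map g.toEmbedding)) ≠ 0 := by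
    intro h0
    apply hg
    rw [← relab_symz, relab_eq_conj, map_mul, map_mul, lift_dl, lift_dl] at h0
    have := congrArg (· * r.ρ g) h0
    simpa only [mul_assoc, ← map_mul, inv_mul_cancel, map_one, mul_one, zero_mul] using this
  have key : ∀ (T' : Finset ι) (b : Bool), T' ⊆ T.map g.toEmbedding → (∀ i ∈ T', p i = some b) →
      ev α (res p (symz T')) ≠ 0 := by
    intro T' b hsub hb h0
    apply h1
    have hle := suppGrp_le_patGrp hb
    have e1 : eI α * res p (symz T') = 0 :=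
      (eI_mul_eq_zero_iff hα (isStarProjection_res_avgTw hle (isChar_one _)).nonneg).2 h0
    have e2 : push (patGrp p).subtype (res p (symz T')) = symz T' := push_res_avgTw hle _
    rw [← symz_mul_symz_of_subset hsub, ← map_mul, ← mul_assoc, ← e2, ← map_mul, e1]
    simp
  let T₀ := (T.map g.toEmbedding).filter fun i => p i = some false
  let T₁ := (T.map g.toEmbedding).filter fun i => p i = some true
  let T₂ := (T.map g.toEmbedding).filter fun i => p i = none
  have c1 : T₁.card ≤ q := by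
    by_contra hlt
    exact key T₁ true (filter_subset _ _) (fun i hi => (mem_filter.1 hi).2)
      (ha.ev_symz_eq_zero hα (fun i hi => (mem_filter.1 hi).2) (not_le.1 hlt))
  have c2 : T₂.card ≤ nStar p :=
    card_le_card fun i hi => mem_filter.2 ⟨mem_univ _, (mem_filter.1 hi).2⟩
  have c3 : T.card ≤ T₀.card + T₁.card + T₂.card := by
    rw [← card_map g.toEmbedding]
    refine le_trans (card_le_card (t := T₀ ∪ T₁ ∪ T₂) fun i hi => ?_)
      ((card_union_le _ _).trans (Nat.add_le_add_right (card_union_le _ _) _))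
    simp only [T₀, T₁, T₂, mem_union, mem_filter, hi, true_and]
    rcases p i with _ | _ | _ <;> simp
  exact ⟨T₀, fun i hi => (mem_filter.1 hi).2, by omega,
    key T₀ false (filter_subset _ _) fun i hi => (mem_filter.1 hi).2⟩

theorem tv_mult_le_dim {G K : Type} [Group G] [Fintype G] [DecidableEq G] [Group K] [Fintype K]
    [DecidableEq K] (φ : K →* G) {α : K → ℂ} (hα : IsIrr α) {χ : G → ℂ} (hχ : IsIrr χ) {m : ℕ}
    (hm : mult φ α χ = m) : (m : ℝ) ≤ dim χ := by
  have h1 := ev_push_expand φ hχ 1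
  rw [map_one, ev_one] at h1
  have h2 : mult φ α χ * ev α 1 ≤ ∑ β ∈ Irr K, mult φ β χ * ev β 1 := by
    refine single_le_sum (f := fun β => mult φ β χ * ev β 1) (fun β hβ => ?_) (mem_Irr.2 hα)
    obtain ⟨n, hn⟩ := exists_mult_eq_nat φ (mem_Irr.1 hβ) hχ
    rw [hn, ev_one]
    exact _root_.mul_nonneg (Nat.cast_nonneg _) (i2_one_nonneg (mem_Irr.1 hβ))
  rw [← h1, hm, ev_one, ← hα.coe_dim, ← hχ.coe_dim, ← Complex.ofReal_natCast,
    ← Complex.ofReal_mul, Complex.real_le_real] at h2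
  exact le_trans (le_mul_of_one_le_right (Nat.cast_nonneg _) hα.one_le_dim) h2

theorem tv_pow_le_fact (w : ℝ) (hw : 0 ≤ w) (u : ℕ) : w ^ u ≤ u.factorial * Real.exp w := by
  have := Real.pow_div_factorial_le_exp w hw u
  rwa [div_le_iff₀ (by exact_mod_cast Nat.factorial_pos _), mul_comm] at this

theorem tv_star_cost (n : ℝ) (hn : 1 ≤ n) (u : ℕ) :
    (n ^ u / u.factorial) ^ (1 / 16 : ℝ) ≤
      (u.factorial : ℝ) ^ (9 / 20 : ℝ) * Real.exp (n ^ (1 / 8 : ℝ)) := by
  have hu : (0 : ℝ) < u.factorial := by exact_mod_cast Nat.factorial_pos _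
  have hn0 : 0 < n := one_pos.trans_le hn
  have h1 := tv_pow_le_fact (n ^ (5 / 41 : ℝ)) (by positivity) u
  have h2 : ((n ^ (5 / 41 : ℝ)) ^ u) ^ (41 / 80 : ℝ) = (n ^ u) ^ (1 / 16 : ℝ) := by
    rw [← Real.rpow_natCast, ← Real.rpow_natCast, ← Real.rpow_mul hn0.le, ← Real.rpow_mul hn0.le,
      ← Real.rpow_mul hn0.le]
    congr 1; ring
  have h3 : (n ^ u) ^ (1 / 16 : ℝ) ≤
      (u.factorial : ℝ) ^ (41 / 80 : ℝ) * Real.exp (n ^ (1 / 8 : ℝ)) := by
    rw [← h2]
    refine (Real.rpow_le_rpow (by positivity) h1 (by norm_num)).trans ?_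
    rw [Real.mul_rpow hu.le (Real.exp_pos _).le, ← Real.exp_mul]
    refine mul_le_mul_of_nonneg_left (Real.exp_le_exp.2 ?_) (by positivity)
    have : n ^ (5 / 41 : ℝ) ≤ n ^ (1 / 8 : ℝ) := Real.rpow_le_rpow_of_exponent_le hn (by norm_num)
    have h0 : 0 ≤ n ^ (5 / 41 : ℝ) := by positivity
    linarith
  rw [Real.div_rpow (by positivity) hu.le, div_le_iff₀ (by positivity)]
  refine h3.trans (le_of_eq ?_)
  rw [mul_right_comm, ← Real.rpow_add hu]
  norm_num

theorem tv_sum_le [Nonempty ι] :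
    ∑ χ ∈ Irr (Perm ι), dim χ * ((((Fintype.card ι : ℝ) + 1) ^ 2)⁻¹) ^ lev χ ≤ 2 := by
  have hn : (1 : ℝ) ≤ Fintype.card ι := by exact_mod_cast Fintype.card_pos
  rw [← sum_fiberwise_of_maps_to (s := Irr (Perm ι)) (t := range (Fintype.card ι + 1)) (g := lev)
    (fun χ _ => mem_range.2 (Nat.lt_succ_of_le (lev_le_card χ)))]
  refine le_trans (sum_le_sum fun l _ => ?_) (sum_geometric_two_le (Fintype.card ι + 1))
  rw [sum_congr rfl (g := fun χ => dim χ * ((((Fintype.card ι : ℝ) + 1) ^ 2)⁻¹) ^ l)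
    (fun χ hχ => by rw [(mem_filter.1 hχ).2]), ← sum_mul]
  calc _ ≤ (Fintype.card ι : ℝ) ^ l * ((((Fintype.card ι : ℝ) + 1) ^ 2)⁻¹) ^ l :=
        mul_le_mul_of_nonneg_right (sum_dim_lev_le l) (by positivity)
    _ = ((Fintype.card ι : ℝ) * (((Fintype.card ι : ℝ) + 1) ^ 2)⁻¹) ^ l := by rw [mul_pow]
    _ ≤ _ := by
        refine pow_le_pow_left₀ (by positivity) ?_ l
        rw [← div_eq_mul_inv, div_le_iff₀ (by positivity)]
        nlinarith

/-- The base case for operators that are strongly damped according to the level. -/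
theorem hyp_trivB {x : GA (Perm ι)}
    (hx : (star x * x) ^ 2 ≤ cen fun χ => (((Fintype.card ι + 1 : ℕ) : ℂ) ^ (4 * lev χ))⁻¹)
    {q : ℕ} (hq : 1 ≤ q) (k : ℕ) :
    Hyp q k (((Fintype.card ι : ℝ) + 1) ^ (2 * q)
      * Real.exp ((Fintype.card ι : ℝ) ^ (1 / 8 : ℝ))) x := by
  intro p α hα ha _
  rcases isEmpty_or_nonempty ι with hι | hι
  · have h0 : Fintype.card ι = 0 := Fintype.card_eq_zero
    simp only [h0, zero_add, Nat.cast_one, one_pow, inv_one, cen_one] at hx
    have h1 := tv_dtil_mul_le hα (T := ∅) (by simp) (by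
      rw [symz_empty, res, pull_one (patGrp p).subtype_injective, ev_one]
      exact hα.one_ne_zero)
    rw [h0, Nat.zero_sub, pow_zero] at h1
    refine (tv_weight_le hα hx h1).trans ?_
    rw [h0, Real.one_rpow]
    simpa using tv_one_le_fact (nStar p)
  obtain ⟨n, hn⟩ : ∃ n : ℝ, n = Fintype.card ι := ⟨_, rfl⟩
  have hn1 : 1 ≤ n := by rw [hn]; exact_mod_cast Fintype.card_pos
  have hu : (0 : ℝ) < (nStar p).factorial := by exact_mod_cast Nat.factorial_pos _
  have hD := dtil_pos hα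
  have h1 := (Complex.le_def.1 ((isTr_indP hα).mono hx)).1
  rw [indP, ind_ev_expand _ hα (cen _), Complex.re_sum] at h1
  have h2 : ∀ χ ∈ Irr (Perm ι), dtil p α ^ (1 / 16 : ℝ) * (mult (patGrp p).subtype α χ *
      ev χ (cen fun χ => (((Fintype.card ι + 1 : ℕ) : ℂ) ^ (4 * lev χ))⁻¹)).re ≤
      (n + 1) ^ q * (n ^ nStar p / (nStar p).factorial) ^ (1 / 16 : ℝ) *
        (dim χ * (((n + 1) ^ 2)⁻¹) ^ lev χ) := by
    intro χ hχ
    rw [mem_Irr] at hχ
    have hd := hχ.dim_pos
    obtain ⟨m, hm⟩ := exists_mult_eq_nat (patGrp p).subtype hα hχ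
    have e1 := hχ.ev_cen_mul (fun χ => (((Fintype.card ι + 1 : ℕ) : ℂ) ^ (4 * lev χ))⁻¹) 1
    rw [mul_one, ev_one, ← hχ.coe_dim] at e1
    have e2 : (mult (patGrp p).subtype α χ *
        ev χ (cen fun χ => (((Fintype.card ι + 1 : ℕ) : ℂ) ^ (4 * lev χ))⁻¹)).re =
        m * (((n + 1) ^ (4 * lev χ))⁻¹ * dim χ) := by
      rw [e1, hm, ← Complex.ofReal_natCast, ← Complex.ofReal_natCast, ← Complex.ofReal_pow,
        ← Complex.ofReal_inv, ← Complex.ofReal_mul, ← Complex.ofReal_mul, Complex.ofReal_re, hn]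
      push_cast; rfl
    rw [e2]
    rcases Nat.eq_zero_or_pos m with h0 | h0
    · rw [h0, Nat.cast_zero, zero_mul, mul_zero]; positivity
    have e3 := (tv_keffLe_of_mult hα ha hχ (by rw [hm]; exact_mod_cast h0.ne')).dtil_mul_le hα
    rw [← hn, ← le_div_iff₀ hu] at e3
    have e4 : (m : ℝ) ≤ (n + 1) ^ lev χ := by
      refine (tv_mult_le_dim _ hα hχ hm).trans (hχ.dim_le_pow_lev.trans ?_)
      rw [← hn]; gcongr; linarith
    have e5 : dtil p α ^ (1 / 16 : ℝ) ≤ (n + 1) ^ lev χ * (n + 1) ^ q *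
        (n ^ nStar p / (nStar p).factorial) ^ (1 / 16 : ℝ) := by
      refine (Real.rpow_le_rpow hD.le e3 (by norm_num)).trans ?_
      rw [pow_add, mul_div_assoc, Real.mul_rpow (by positivity) (by positivity), ← pow_add]
      refine mul_le_mul_of_nonneg_right ?_ (by positivity)
      refine (Real.rpow_le_self_of_one_le (one_le_pow₀ hn1) (by norm_num)).trans ?_
      gcongr; linarith
    calc _ ≤ ((n + 1) ^ lev χ * (n + 1) ^ q * (n ^ nStar p / (nStar p).factorial) ^ (1 / 16 : ℝ)) *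
          ((n + 1) ^ lev χ * (((n + 1) ^ (4 * lev χ))⁻¹ * dim χ)) := by gcongr
      _ = _ := by
          rw [inv_pow, ← pow_mul, show 4 * lev χ = 2 * lev χ + lev χ + lev χ by ring, pow_add,
            pow_add]
          field_simp
  have h3 := tv_sum_le (ι := ι)
  rw [← hn] at h3 ⊢
  have h4 := tv_star_cost n hn1 (nStar p)
  have h5 : (2 : ℝ) ≤ (n + 1) ^ q := le_trans (by linarith) (le_self_pow₀ (by linarith) (by omega))
  calc _ ≤ dtil p α ^ (1 / 16 : ℝ) * ∑ χ ∈ Irr (Perm ι), (mult (patGrp p).subtype α χ *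
        ev χ (cen fun χ => (((Fintype.card ι + 1 : ℕ) : ℂ) ^ (4 * lev χ))⁻¹)).re :=
        mul_le_mul_of_nonneg_left h1 (by positivity)
    _ ≤ (n + 1) ^ q * (n ^ nStar p / (nStar p).factorial) ^ (1 / 16 : ℝ) *
        ∑ χ ∈ Irr (Perm ι), (dim χ * (((n + 1) ^ 2)⁻¹) ^ lev χ) := by
        rw [mul_sum, mul_sum]; exact sum_le_sum h2
    _ ≤ (n + 1) ^ q * (((nStar p).factorial : ℝ) ^ (9 / 20 : ℝ) * Real.exp (n ^ (1 / 8 : ℝ))) *
        (n + 1) ^ q := by
        refine mul_le_mul (by gcongr) (h3.trans h5) (sum_nonneg fun χ hχ => ?_) (by positivity)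
        have := (mem_Irr.1 hχ).dim_pos
        positivity
    _ = _ := by rw [two_mul, pow_add]; ring

end Crest.Agent.R155
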