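import Crest.Agent.R155.Young
import Crest.Agent.R155.Triv

/-!
# The peeling construction behind the change of the number of colours
-/

set_option linter.unusedSectionVars false

namespace Crest.Agent.R155

open scoped ComplexOrder MatrixOrder ComplexConjugate Matrix.Norms.L2Operator Matrix
open Finset GA Equiv

variable {ι : Type} [Fintype ι] [DecidableEq ι]

section general
variable {G K : Type} [Group G] [Fintype G] [DecidableEq G] [Group K] [Fintype K] [DecidableEq K]

theorem cv_avgTw_mul_of_eigen {S : Subgroup G} {σ : G → ℂ} (h : IsChar S σ) {a : GA G}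
    (ha : ∀ s ∈ S, dl s * a = conj (σ s) • a) : avgTw S σ * a = a := by
  classical
  conv_lhs => rw [← sum_smul_dl (avgTw S σ)]
  rw [sum_mul]
  have h0 : (Nat.card S : ℂ) ≠ 0 := by exact_mod_cast (Nat.card_pos (α := S)).ne'
  have : ∀ g : G, (avgTw S σ g • dl g) * a
      = (if g ∈ S then (Nat.card S : ℂ)⁻¹ else 0) • a := by
    intro g
    by_cases hg : g ∈ S
    · rw [smul_mul_assoc, ha g hg, avgTw_of_mem _ hg, smul_smul, if_pos hg]
      congr 1
      have := h.mul_conj hg
      field_simp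
      exact this
    · simp [avgTw_of_notMem _ hg, hg]
  simp only [this, ← sum_smul]
  rw [sum_ite, sum_const_zero, add_zero, sum_const, nsmul_eq_mul]
  have hc : (#{g : G | g ∈ S} : ℂ) = Nat.card S := by
    rw [Nat.card_eq_fintype_card, Fintype.card_subtype]
  rw [hc, mul_inv_cancel₀ h0, one_smul]

theorem cv_dl_comm {S : Subgroup G} (σ : G → ℂ) {g : G} (hg : ∀ s ∈ S, g * s = s * g) :
    dl g * avgTw S σ = avgTw S σ * dl g := by
  conv_lhs => rw [← sum_smul_dl (avgTw S σ)]
  conv_rhs => rw [← sum_smul_dl (avgTw S σ)]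
  rw [mul_sum, sum_mul]
  refine sum_congr rfl fun s _ => ?_
  by_cases hs : s ∈ S
  · rw [mul_smul_comm, smul_mul_assoc, dl_mul_dl, dl_mul_dl, hg s hs]
  · simp [avgTw_of_notMem _ hs]

theorem cv_push_avgTw {φ : K →* G} (hφ : Function.Injective φ) (S : Subgroup K) (σ : K → ℂ)
    (σ' : G → ℂ) (hσ : ∀ s ∈ S, σ' (φ s) = σ s) : push φ (avgTw S σ) = avgTw (S.map φ) σ' := by
  ext g
  have hc : Nat.card (S.map φ) = Nat.card S :=
    (Nat.card_congr (S.equivMapOfInjective _ hφ).toEquiv).symm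
  by_cases hg : g ∈ φ.range
  · obtain ⟨k, rfl⟩ := hg
    rw [push_apply_of_inj hφ]
    by_cases hk : k ∈ S
    · rw [avgTw_of_mem _ hk, avgTw_of_mem _ (Subgroup.mem_map_of_mem φ hk), hc, hσ k hk]
    · rw [avgTw_of_notMem _ hk, avgTw_of_notMem]
      rintro ⟨k', hk', e⟩
      exact hk (hφ e ▸ hk')
  · rw [push_apply_of_notMem _ hg, avgTw_of_notMem]
    rintro ⟨k', -, e⟩
    exact hg ⟨k', e⟩

theorem cv_exists_hom {H : Type} [Group H] {φ : G →* H} (hφ : Function.Injective φ) (θ : K →* H)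
    (h : ∀ k, θ k ∈ φ.range) : ∃ ψ : K →* G, φ.comp ψ = θ := by
  refine ⟨(MonoidHom.ofInjective hφ).symm.toMonoidHom.comp (θ.codRestrict φ.range h), ?_⟩
  ext1 k
  exact MonoidHom.apply_ofInjective_symm hφ _

theorem cv_ev_eq_zero {n : Type} [Fintype n] [DecidableEq n] (π : K →* Matrix n n ℂ)
    {U : Matrix n n ℂ} (hU : ∀ g, U * π g = π g * U) {γ : K → ℂ} (hγ : IsIrr γ)
    (h0 : lift π (eI γ) * U ≠ 0) {a : GA K} (ha : lift π a * U = 0) : ev γ a = 0 := by
  have h1 := congrArg (fun b => lift π b * U) (eI_mul_sum_conj hγ a)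
  simp only [map_mul, map_sum, map_smul, lift_dl, smul_mul_assoc] at h1
  have h2 : (∑ g, π g * lift π a * π g⁻¹) * U = 0 := by
    rw [sum_mul]
    refine sum_eq_zero fun g _ => ?_
    rw [mul_assoc, ← hU, ← mul_assoc, mul_assoc (π g), ha, mul_zero, zero_mul]
  rw [mul_assoc, h2, mul_zero] at h1
  have h3 := (smul_eq_zero.1 h1.symm).resolve_right h0
  rw [div_eq_zero_iff, mul_eq_zero] at h3
  exact (h3.resolve_right hγ.one_ne_zero).resolve_left i2_card_ne

theorem cv_exists_irr {n : Type} [Fintype n] [DecidableEq n] (π : K →* Matrix n n ℂ)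
    {U : Matrix n n ℂ} (hU : U ≠ 0) : ∃ γ, IsIrr γ ∧ lift π (eI γ) * U ≠ 0 := by
  by_contra hcon
  push Not at hcon
  apply hU
  have h1 : U = lift π (cen fun _ => (1 : ℂ)) * U := by rw [cen_one, map_one, one_mul]
  rw [h1, cen, map_sum, sum_mul]
  exact sum_eq_zero fun γ hγ => by rw [one_smul, hcon γ (mem_Irr.1 hγ)]

theorem cv_lift_comm {n : Type} [Fintype n] [DecidableEq n] (π : K →* Matrix n n ℂ)
    (π' : G →* Matrix n n ℂ) (h : ∀ g k, π g * π' k = π' k * π g) (a : GA K) (b : GA G) :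
    lift π a * lift π' b = lift π' b * lift π a :=
  commute_lift π' (fun k => (commute_lift π (fun g => (h g k).symm) a).symm) b

theorem cv_trace_mul_le {n : Type} [Fintype n] [DecidableEq n] {P Q : Matrix n n ℂ}
    (hP : IsStarProjection P) (hQ : IsStarProjection Q) (h : P * Q = Q * P) :
    (P * Q).trace.re ≤ P.trace.re := by
  have h1 : IsStarProjection (P * (1 - Q)) :=
    hP.mul hQ.one_sub ((Commute.one_right P).sub_right h)
  have h2 := (Matrix.nonneg_iff_posSemidef.1 h1.nonneg).trace_nonneg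
  rw [mul_sub, mul_one, Matrix.trace_sub, sub_nonneg] at h2
  exact (Complex.le_def.1 h2).1

end general

theorem cv_exists_part (g : Perm ι) (P : ι → Prop) [DecidablePred P] (h : ∀ i, P (g i) ↔ P i) :
    ∃ f : Perm ι, (∀ i, P i → f i = g i) ∧ (∀ i, ¬ P i → f i = i) :=
  ⟨Perm.ofSubtype (g.subtypePerm h), fun i hi => by rw [Perm.ofSubtype_apply_of_mem _ hi]; rfl,
    fun i hi => Perm.ofSubtype_apply_of_not_mem _ hi⟩

theorem cv_patSgn_eq {p : Pat ι} {g f : Perm ι} (hg : g ∈ patGrp p)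
    (h1 : ∀ i, p i = some true → f i = g i) (h2 : ∀ i, ¬ p i = some true → f i = i) :
    patSgn p g = sgnC f := by
  rw [patSgn_of_mem hg]
  have : f = Perm.ofSubtype (g.subtypePerm (p := fun i => p i = some true) fun i => by
      simp only [(hg i).1]) := by
    ext i
    by_cases hi : p i = some true
    · rw [Perm.ofSubtype_apply_of_mem (p := fun i => p i = some true) _ hi]; exact h1 i hi
    · rw [Perm.ofSubtype_apply_of_not_mem (p := fun i => p i = some true) _ hi]; exact h2 i hi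
  rw [this, sgnC, sgnC, Perm.sign_ofSubtype]

theorem cv_comm_of_disjoint {g f : Perm ι} (h : ∀ i, g i = i ∨ f i = i) : g * f = f * g :=
  (show Perm.Disjoint g f from h).commute

/-- the character used for a new colour class -/
noncomputable def cvSg (b : Bool) : Perm ι → ℂ := if b then sgnC else fun _ => 1

theorem cv_isChar_cvSg (b : Bool) (S : Subgroup (Perm ι)) : IsChar S (cvSg b) := by
  cases b
  · exact isChar_one S
  · exact isChar_sgnC S

theorem cv_isChar_colz {q : ℕ} (p : Pat ι) (c : ι → Fin q) : IsStarProjection (colz p c) :=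
  isStarProjection_avgTw (isChar_patSgn_colGrp p c)

theorem cv_colGrp_le {q : ℕ} (p : Pat ι) (c : ι → Fin q) : colGrp p c ≤ patGrp p :=
  fun _ hg => hg.1

/-- Adding one colour class. -/
theorem cv_add_class {q : ℕ} (p : Pat ι) (c : ι → Fin q) (j : Fin q) (hj : ∀ i, c i ≠ j)
    (T : Finset ι) (hT : ∀ i ∈ T, p i = none) (b : Bool) :
    colz (fun i => if i ∈ T then some b else p i) (fun i => if i ∈ T then j else c i) *
      (colz p c * avgTw (suppGrp T) (cvSg b)) = colz p c * avgTw (suppGrp T) (cvSg b) := by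
  set p' : Pat ι := fun i => if i ∈ T then some b else p i with hp'
  set c' : ι → Fin q := fun i => if i ∈ T then j else c i with hc'
  refine cv_avgTw_mul_of_eigen (isChar_patSgn_colGrp p' c') fun g hg => ?_
  have hgT : ∀ i, g i ∈ T ↔ i ∈ T := by
    intro i
    have := hg.2 i
    simp only [hc'] at this
    constructor
    · intro h
      by_contra h'
      rw [if_pos h, if_neg h'] at this
      exact hj i this.symm
    · intro h
      by_contra h'
      rw [if_pos h, if_neg h'] at this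
      exact hj _ this
  obtain ⟨g₂, h21, h22⟩ := cv_exists_part g (· ∈ T) hgT
  obtain ⟨g₁, h11, h12⟩ := cv_exists_part g (· ∉ T) fun i => not_congr (hgT i)
  have h12' : ∀ i ∈ T, g₁ i = i := fun i hi => h12 i (not_not.2 hi)
  have hg12 : g = g₁ * g₂ := by
    ext i
    rw [Perm.mul_apply]
    by_cases hi : i ∈ T
    · rw [h21 i hi, h12' _ ((hgT i).2 hi)]
    · rw [h22 i hi, h11 i hi]
  have m2 : g₂ ∈ suppGrp T := h22
  have m1 : g₁ ∈ colGrp p c := by
    refine ⟨fun i => ?_, fun i => ?_⟩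
    · by_cases hi : i ∈ T
      · rw [h12' i hi]; exact ⟨rfl, fun _ => rfl⟩
      · have hi' : g i ∉ T := fun h => hi ((hgT i).1 h)
        have := hg.1 i
        simp only [hp', if_neg hi, if_neg hi'] at this
        rw [h11 i hi]; exact this
    · by_cases hi : i ∈ T
      · rw [h12' i hi]
      · have hi' : g i ∉ T := fun h => hi ((hgT i).1 h)
        have := hg.2 i
        simp only [hc', if_neg hi, if_neg hi'] at this
        rw [h11 i hi]; exact this
  have m2' : g₂ ∈ patGrp p' := suppGrp_le_patGrp (b := b) (fun i hi => by simp [hp', hi]) m2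
  have m1' : g₁ ∈ patGrp p' := by
    have : g₁ = g * g₂⁻¹ := by rw [hg12, mul_inv_cancel_right]
    rw [this]
    exact Subgroup.mul_mem _ hg.1 (Subgroup.inv_mem _ m2')
  have s1 : patSgn p' g₁ = patSgn p g₁ := by
    obtain ⟨f, f1, f2⟩ := cv_exists_part g₁ (fun i => p i = some true) fun i => by
      simp only [(m1.1 i).1]
    rw [cv_patSgn_eq m1.1 f1 f2]
    refine cv_patSgn_eq m1' (fun i hi => ?_) fun i hi => ?_
    · by_cases hiT : i ∈ T
      · rw [h12' i hiT, f2 i (by simp [hT i hiT])]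
      · exact f1 i (by simpa [hp', hiT] using hi)
    · by_cases hiT : i ∈ T
      · exact f2 i (by simp [hT i hiT])
      · exact f2 i (by simpa [hp', hiT] using hi)
  have s2 : patSgn p' g₂ = cvSg b g₂ := by
    cases b
    · rw [cv_patSgn_eq (f := 1) m2' (fun i hi => ?_) (fun _ _ => rfl), sgnC_one]
      · rfl
      · by_cases hiT : i ∈ T
        · simp [hp', hiT] at hi
        · exact (h22 i hiT).symm
    · refine cv_patSgn_eq m2' (fun _ _ => rfl) fun i hi => h22 i fun hiT => hi ?_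
      simp [hp', hiT]
  have hcomm : dl g₂ * colz p c = colz p c * dl g₂ := by
    refine cv_dl_comm _ fun s hs => cv_comm_of_disjoint fun i => ?_
    by_cases hi : i ∈ T
    · exact Or.inr ((hs.1 i).2 (hT i hi))
    · exact Or.inl (h22 i hi)
  have e : patSgn p' g = patSgn p g₁ * cvSg b g₂ := by
    rw [← s1, ← s2, ← (isChar_patSgn p').mul _ m1' _ m2', ← hg12]
  rw [e]
  conv_lhs => rw [hg12, ← dl_mul_dl, mul_assoc, ← mul_assoc (dl g₂), hcomm, mul_assoc,
    dl_mul_avgTw (cv_isChar_cvSg b _) m2, mul_smul_comm, mul_smul_comm, ← mul_assoc, colz,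
    dl_mul_avgTw (isChar_patSgn_colGrp p c) m1, smul_mul_assoc, smul_smul]
  rw [map_mul, mul_comm (conj (patSgn p g₁))]
  rfl

theorem cv_map_suppGrp (C : Finset ι) (T : Finset C) :
    (suppGrp T).map (Perm.ofSubtype (p := (· ∈ C))) =
      suppGrp (T.map (Function.Embedding.subtype _)) := by
  ext g
  constructor
  · rintro ⟨f, hf, rfl⟩ i hi
    by_cases hiC : i ∈ C
    · rw [Perm.ofSubtype_apply_of_mem (p := (· ∈ C)) _ hiC, hf ⟨i, hiC⟩]
      exact fun h => hi (mem_map.2 ⟨_, h, rfl⟩)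
    · exact Perm.ofSubtype_apply_of_not_mem (p := (· ∈ C)) _ hiC
  · intro hg
    have h1 : ∀ i, i ∉ C → g i = i := fun i hi => hg i fun h => by
      obtain ⟨j, -, rfl⟩ := mem_map.1 h
      exact hi j.2
    have h2 : ∀ i, g i ∈ C ↔ i ∈ C := by
      intro i
      constructor
      · intro hi
        by_contra h
        rw [h1 i h] at hi
        exact h hi
      · intro hi
        by_contra h
        rw [g.injective (h1 _ h)] at h
        exact h hi
    refine ⟨g.subtypePerm h2, fun i hi => Subtype.ext (hg i fun h => hi ?_),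
      Perm.ofSubtype_subtypePerm _ fun i hi => by_contra fun h => hi (h1 i h)⟩
    obtain ⟨j, hj, e⟩ := mem_map.1 h
    rwa [← Subtype.ext e]

theorem cv_push_class (C : Finset ι) (T : Finset C) (b : Bool) :
    push (Perm.ofSubtype (p := (· ∈ C))) (avgTw (suppGrp T) (cvSg b)) =
      avgTw (suppGrp (T.map (Function.Embedding.subtype _))) (cvSg b) := by
  rw [← cv_map_suppGrp]
  refine cv_push_avgTw Perm.ofSubtype_injective _ _ _ fun s _ => ?_
  cases b
  · rfl
  · simp [cvSg, sgnC]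

section peel
variable {G : Type} [Group G] [Fintype G] [DecidableEq G]

/-- A maximal partial colouring. -/
theorem cv_exists_max {φ : G →* Perm ι} (hφ : Function.Injective φ) (r : IrrRep G)
    (E : Bool → Finset ι)
    (hE : ∀ p : Pat ι, (∀ i b, p i = some b → i ∈ E b) → patGrp p ≤ φ.range)
    {q k t : ℕ} (hq : 1 ≤ q) (hk : k ≤ q * t) {T₀ : Finset ι} (h0 : T₀ ⊆ E false)
    (h1 : Fintype.card ι ≤ T₀.card + k) (h2 : lift r.ρ (pull φ (symz T₀)) ≠ 0) :
    ∃ (p : Pat ι) (c : ι → Fin q), (∀ i b, p i = some b → i ∈ E b) ∧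
      (∀ i ∈ T₀, p i = some false) ∧ (∀ i ∈ T₀, ∀ j ∈ T₀, c i = c j) ∧ nStar p ≤ k ∧
      lift r.ρ (pull φ (colz p c)) ≠ 0 ∧
      ∀ (b : Bool) (T : Finset ι), T ⊆ E b → (∀ i ∈ T, p i = none) → t < T.card →
        lift r.ρ (pull φ (colz p c * avgTw (suppGrp T) (cvSg b))) = 0 := by
  classical
  have hmul : ∀ (p : Pat ι) (c : ι → Fin q), (∀ i b, p i = some b → i ∈ E b) → ∀ a,
      lift r.ρ (pull φ (colz p c * a)) ≠ 0 → lift r.ρ (pull φ (colz p c)) ≠ 0 := by
    intro p c hp a ha h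
    apply ha
    rw [pull_mul_of_supp hφ (a := colz p c) (fun g hg => avgTw_of_notMem _ fun h' =>
      hg (hE p hp (cv_colGrp_le p c h'))), map_mul]
    exact (congrArg (· * _) h).trans (zero_mul _)
  let P : ℕ → Prop := fun N => ∃ (p : Pat ι) (c : ι → Fin q), (∀ i b, p i = some b → i ∈ E b) ∧
      (∀ i ∈ T₀, p i = some false) ∧ (∀ i ∈ T₀, ∀ j ∈ T₀, c i = c j) ∧
      nStar p + N * (t + 1) ≤ k ∧ (∀ i, (c i : ℕ) ≤ N) ∧ lift r.ρ (pull φ (colz p c)) ≠ 0
  have hP0 : P 0 := by
    have hp : ∀ i b, (if i ∈ T₀ then some false else none) = some b → i ∈ E b := by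
      intro i b h
      split_ifs at h with hi
      cases h
      exact h0 hi
    refine ⟨fun i => if i ∈ T₀ then some false else none, fun _ => ⟨0, hq⟩, hp,
      fun i hi => if_pos hi, fun _ _ _ _ => rfl, ?_, fun _ => le_rfl, hmul _ _ hp (symz T₀) ?_⟩
    · have : nStar (fun i => if i ∈ T₀ then some false else none : Pat ι) = T₀ᶜ.card := by
        unfold nStar
        congr 1
        ext i
        simp
      rw [this, card_compl]
      omega
    · rw [colz, symz, avgSub, avgTw_mul_avgTw_of_le (isChar_one _)]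
      · exact h2
      · intro g hg i hi
        exact (hg.1 i).2 (if_neg hi)
      · intro g hg
        rw [cv_patSgn_eq (f := 1) hg.1 (fun i hi => ?_) (fun _ _ => rfl), sgnC_one]
        split_ifs at hi
        cases hi
  obtain ⟨p, c, a1, a2, a3, a4, a5, a6⟩ : P (Nat.findGreatest P k) :=
    Nat.findGreatest_spec (Nat.zero_le k) hP0
  refine ⟨p, c, a1, a2, a3, by omega, a6, fun b T hT hT' ht => ?_⟩
  by_contra hne
  set N := Nat.findGreatest P k with hN
  have hcard : nStar (fun i => if i ∈ T then some b else p i : Pat ι) + T.card = nStar p := by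
    unfold nStar
    rw [← card_union_of_disjoint]
    · congr 1
      ext i
      by_cases hi : i ∈ T
      · simp [hi, hT' i hi]
      · simp [hi]
    · rw [disjoint_left]
      intro i hi hiT
      simp [hiT] at hi
  have hle : nStar (fun i => if i ∈ T then some b else p i : Pat ι) + (N + 1) * (t + 1) ≤ k := by
    rw [add_mul]; omega
  have hNq : N + 1 < q := by
    by_contra hcon
    have : q * (t + 1) ≤ (N + 1) * (t + 1) := Nat.mul_le_mul_right _ (not_lt.1 hcon)
    rw [mul_add] at this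
    omega
  have hNk : N + 1 ≤ k := by nlinarith
  have hp' : ∀ i b', (if i ∈ T then some b else p i) = some b' → i ∈ E b' := by
    intro i b' h
    split_ifs at h with hi
    · cases h; exact hT hi
    · exact a1 i b' h
  have hT0 : ∀ i ∈ T₀, i ∉ T := fun i hi h => by simpa [a2 i hi] using hT' i h
  refine Nat.findGreatest_is_greatest (P := P) (Nat.lt_succ_self N) hNk
    ⟨fun i => if i ∈ T then some b else p i, fun i => if i ∈ T then ⟨N + 1, hNq⟩ else c i, hp',
      fun i hi => by simp [hT0 i hi, a2 i hi], fun i hi j hj => ?_, hle, fun i => ?_,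
      hmul _ _ hp' (colz p c * avgTw (suppGrp T) (cvSg b)) ?_⟩
  · simp only [if_neg (hT0 i hi), if_neg (hT0 j hj)]
    exact a3 i hi j hj
  · simp only
    split_ifs
    · exact le_rfl
    · exact (a5 i).trans (Nat.le_succ N)
  · rw [cv_add_class p c ⟨N + 1, hNq⟩ (fun i h => by
      have := a5 i
      rw [h] at this
      simp at this) T hT' b]
    exact hne

theorem cv_lift_pull_push {K : Type} [Group K] [Fintype K] [DecidableEq K] {φ : G →* Perm ι}
    (hφ : Function.Injective φ) (r : IrrRep G) {ψ : K →* G} {θ : K →* Perm ι}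
    (h : φ.comp ψ = θ) (a : GA K) : lift r.ρ (pull φ (push θ a)) = lift (r.ρ.comp ψ) a := by
  rw [← h, ← push_push, pull_push hφ, lift_push]

theorem cv_rep_comm {K K' : Type} [Group K] [Group K'] {φ : G →* Perm ι}
    (hφ : Function.Injective φ) (r : IrrRep G) {ψ : K →* G} {θ : K →* Perm ι}
    (h : φ.comp ψ = θ) {ψ' : K' →* G} {θ' : K' →* Perm ι} (h' : φ.comp ψ' = θ')
    (hd : ∀ g g' i, θ g i = i ∨ θ' g' i = i) (g : K) (g' : K') :
    (r.ρ.comp ψ) g * (r.ρ.comp ψ') g' = (r.ρ.comp ψ') g' * (r.ρ.comp ψ) g := by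
  simp only [MonoidHom.comp_apply, ← map_mul]
  congr 1
  apply hφ
  rw [map_mul, map_mul]
  subst h h'
  exact cv_comm_of_disjoint (hd g g')

/-- The peeling lemma. -/
theorem cv_peel {φ : G →* Perm ι} (hφ : Function.Injective φ) (r : IrrRep G)
    (E A : Bool → Finset ι)
    (hE : ∀ p : Pat ι, (∀ i b, p i = some b → i ∈ E b) → patGrp p ≤ φ.range)
    (hA : ∀ b, suppGrp (A b) ≤ φ.range) (hdisj : Disjoint (A false) (A true))
    (hEA : ∀ b, E b ⊆ A false ∪ A true) {q k t : ℕ} (hq : 1 ≤ q) (hk : k ≤ q * t)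
    (hvan : ∀ (b b' : Bool) (T : Finset ι), T ⊆ A b' → t < T.card →
      T ⊆ E b ∨ lift r.ρ (pull φ (avgTw (suppGrp T) (cvSg b))) = 0)
    {T₀ : Finset ι} (h0 : T₀ ⊆ E false)
    (h1 : Fintype.card ι ≤ T₀.card + k) (h2 : lift r.ρ (pull φ (symz T₀)) ≠ 0) :
    ∃ (p : Pat ι) (α : patGrp p → ℂ) (ψ : patGrp p →* G) (c₀ c₁ m : ℕ), IsIrr α ∧ Adm q p α ∧
      KeffLe p α k ∧ φ.comp ψ = (patGrp p).subtype ∧
      nStar p = (A false ∪ A true)ᶜ.card + c₀ + c₁ ∧ nStar p ≤ k ∧ mult ψ α r.chr = m ∧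
      (c₀.factorial : ℝ) / (2 * t : ℝ) ^ c₀ * ((c₁.factorial : ℝ) / (2 * t : ℝ) ^ c₁) ≤ m := by
  obtain ⟨p, c, a1, a2, a3, a4, a5, a6⟩ := cv_exists_max hφ r E hE hq hk h0 h1 h2
  let C : Bool → Finset ι := fun b => (A b).filter fun i => p i = none
  obtain ⟨ψ, hψ⟩ := cv_exists_hom hφ (patGrp p).subtype fun g => hE p a1 g.2
  have hex : ∀ b, ∃ ψ' : Perm (C b) →* G, φ.comp ψ' = Perm.ofSubtype (p := (· ∈ C b)) :=
    fun b => cv_exists_hom hφ _ fun f => hA b fun i hi =>
      Perm.ofSubtype_apply_of_not_mem (p := (· ∈ C b)) _ fun h => hi (mem_filter.1 h).1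
  choose ψ' hψ' using hex
  have hcolz : push (patGrp p).subtype (res p (colz p c)) = colz p c :=
    push_res_avgTw (cv_colGrp_le p c) _
  obtain ⟨U, hU⟩ : ∃ U, U = lift (r.ρ.comp ψ) (res p (colz p c)) := ⟨_, rfl⟩
  have hU' : lift r.ρ (pull φ (colz p c)) = U := by
    rw [hU, ← cv_lift_pull_push hφ r hψ, hcolz]
  rw [hU'] at a5
  have c1 : ∀ b g g', (r.ρ.comp ψ) g * (r.ρ.comp (ψ' b)) g' =
      (r.ρ.comp (ψ' b)) g' * (r.ρ.comp ψ) g := fun b =>
    cv_rep_comm hφ r hψ (hψ' b) fun g g' i => by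
      by_cases hi : i ∈ C b
      · exact Or.inl ((g.2 i).2 (mem_filter.1 hi).2)
      · exact Or.inr (Perm.ofSubtype_apply_of_not_mem (p := (· ∈ C b)) _ hi)
  have c2 : ∀ g g', (r.ρ.comp (ψ' false)) g * (r.ρ.comp (ψ' true)) g' =
      (r.ρ.comp (ψ' true)) g' * (r.ρ.comp (ψ' false)) g :=
    cv_rep_comm hφ r (hψ' false) (hψ' true) fun g g' i => by
      by_cases hi : i ∈ C true
      · exact Or.inl (Perm.ofSubtype_apply_of_not_mem (p := (· ∈ C false)) _ fun h =>
          disjoint_left.1 hdisj (mem_filter.1 h).1 (mem_filter.1 hi).1)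
      · exact Or.inr (Perm.ofSubtype_apply_of_not_mem (p := (· ∈ C true)) _ hi)
  obtain ⟨α, hα, n1⟩ := cv_exists_irr (r.ρ.comp ψ) a5
  obtain ⟨γ₀, hγ₀, n2⟩ := cv_exists_irr (r.ρ.comp (ψ' false)) n1
  obtain ⟨γ₁, hγ₁, n3⟩ := cv_exists_irr (r.ρ.comp (ψ' true)) n2
  obtain ⟨e₁, he₁⟩ : ∃ e, e = lift (r.ρ.comp ψ) (eI α) := ⟨_, rfl⟩
  obtain ⟨e₂, he₂⟩ : ∃ e, e = lift (r.ρ.comp (ψ' false)) (eI γ₀) := ⟨_, rfl⟩
  obtain ⟨e₃, he₃⟩ : ∃ e, e = lift (r.ρ.comp (ψ' true)) (eI γ₁) := ⟨_, rfl⟩
  have k12 : e₁ * e₂ = e₂ * e₁ := by rw [he₁, he₂]; exact cv_lift_comm _ _ (c1 false) _ _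
  have k13 : e₁ * e₃ = e₃ * e₁ := by rw [he₁, he₃]; exact cv_lift_comm _ _ (c1 true) _ _
  have k23 : e₂ * e₃ = e₃ * e₂ := by rw [he₂, he₃]; exact cv_lift_comm _ _ c2 _ _
  rw [← he₁, ← he₂, ← he₃] at n3
  have n4 : e₁ * e₂ * e₃ ≠ 0 := by
    intro h
    apply n3
    rw [← mul_assoc, ← mul_assoc, ← k23, mul_assoc e₂, ← k13, ← mul_assoc e₂, ← k12, h, zero_mul]
  have n5 : e₂ * U ≠ 0 := by
    intro h
    apply n3
    rw [← mul_assoc e₂, ← k12, mul_assoc, h, mul_zero, mul_zero]
  have n6 : e₃ * U ≠ 0 := by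
    intro h
    apply n3
    rw [← mul_assoc, ← k23, mul_assoc, ← mul_assoc e₃, ← k13, mul_assoc, h, mul_zero, mul_zero]
  have hsmall : ∀ (b : Bool) (γ : Perm (C b) → ℂ), IsIrr γ →
      lift (r.ρ.comp (ψ' b)) (eI γ) * U ≠ 0 →
      (((C b).card).factorial : ℝ) / (2 * t : ℝ) ^ (C b).card ≤ dim γ := by
    intro b γ hγ hne
    have key : ∀ (b' : Bool) (T : Finset (C b)), t < T.card →
        ev γ (avgTw (suppGrp T) (cvSg b')) = 0 := by
      intro b' T hT
      refine cv_ev_eq_zero (r.ρ.comp (ψ' b)) (fun g => ?_) hγ hne ?_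
      · rw [hU]; exact (commute_lift _ (fun g' => (c1 b g' g).symm) _).symm
      · have hsub : ∀ i ∈ T.map (Function.Embedding.subtype _), i ∈ C b := by
          intro i hi
          obtain ⟨j, -, rfl⟩ := mem_map.1 hi
          exact j.2
        have e : lift (r.ρ.comp (ψ' b)) (avgTw (suppGrp T) (cvSg b')) = lift r.ρ (pull φ
            (avgTw (suppGrp (T.map (Function.Embedding.subtype _))) (cvSg b'))) := by
          rw [← cv_lift_pull_push hφ r (hψ' b), cv_push_class]
        rcases hvan b' b (T.map (Function.Embedding.subtype _))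
          (fun i hi => (mem_filter.1 (hsub i hi)).1) (by rwa [card_map]) with h | h
        · have := a6 b' _ h (fun i hi => (mem_filter.1 (hsub i hi)).2) (by rwa [card_map])
          rw [pull_mul_of_supp hφ (a := colz p c) (fun g hg => avgTw_of_notMem _ fun h' =>
            hg (hE p a1 (cv_colGrp_le p c h'))), map_mul, hU', ← e] at this
          rw [← this, hU]
          exact (cv_lift_comm _ _ (c1 b) _ _).symm
        · rw [e, h, zero_mul]
    have := hγ.dim_ge_of_small (t := t) (key false) (key true)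
    rwa [Fintype.card_coe] at this
  have d0 := hsmall false γ₀ hγ₀ (he₂ ▸ n5)
  have d1 := hsmall true γ₁ hγ₁ (he₃ ▸ n6)
  obtain ⟨m, hm⟩ := exists_mult_eq_nat ψ hα r.isIrr
  have u1 := isU_comp r.unit ψ
  have u2 := fun b => isU_comp r.unit (ψ' b)
  have d2 := dim_mul_dim_mul_dim_le u1 (u2 false) (u2 true) (c1 false) (c1 true) c2 hα hγ₀ hγ₁
    (by rw [← he₁, ← he₂, ← he₃]; exact n4)
  rw [← he₁, ← he₂, ← he₃] at d2
  have p1 : IsStarProjection e₁ := he₁ ▸ i2_proj_lift u1 (isStarProjection_eI hα)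
  have p2 : IsStarProjection e₂ := he₂ ▸ i2_proj_lift (u2 false) (isStarProjection_eI hγ₀)
  have p3 : IsStarProjection e₃ := he₃ ▸ i2_proj_lift (u2 true) (isStarProjection_eI hγ₁)
  have d3 : (e₁ * e₂ * e₃).trace.re ≤ e₁.trace.re := by
    rw [mul_assoc]
    refine cv_trace_mul_le p1 (p2.mul p3 k23) ?_
    rw [← mul_assoc, k12, mul_assoc, k13, mul_assoc]
  have d4 : e₁.trace.re = dim α * m := by
    rw [he₁, ← lift_push, ← r.ev_chr, ev_push_eI, hm, ← hα.coe_dim, ← Complex.ofReal_natCast,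
      ← Complex.ofReal_mul, Complex.ofReal_re]
  have hne : eI α * res p (colz p c) ≠ 0 := by
    intro h
    apply n1
    rw [hU, ← map_mul, h, map_zero]
  refine ⟨p, α, ψ, (C false).card, (C true).card, m, hα, ⟨c, fun h => hne ?_⟩,
    ⟨T₀, a2, h1, fun h => hne ?_⟩, hψ, ?_, a4, hm, ?_⟩
  · exact (eI_mul_eq_zero_iff hα (isStarProjection_res_avgTw (cv_colGrp_le p c)
      (isChar_patSgn_colGrp p c)).nonneg).2 h
  · have hle := suppGrp_le_patGrp a2
    have e1 : eI α * res p (symz T₀) = 0 :=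
      (eI_mul_eq_zero_iff hα (isStarProjection_res_avgTw hle (isChar_one _)).nonneg).2 h
    have e2 : symz T₀ * colz p c = colz p c := by
      refine avgTw_mul_avgTw_of_le (isChar_patSgn_colGrp p c) (fun g hg => ⟨hle hg, fun i => ?_⟩)
        fun g hg => ?_
      · by_cases hi : i ∈ T₀
        · refine a3 _ ?_ _ hi
          by_contra h'
          rw [g.injective (hg _ h')] at h'
          exact h' hi
        · rw [hg i hi]
      · rw [cv_patSgn_eq (f := 1) (hle hg) (fun i hi => ?_) (fun _ _ => rfl), sgnC_one]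
        refine (hg i fun h => ?_).symm
        rw [a2 i h] at hi
        cases hi
    rw [← e2, res, pull_mul_of_supp (patGrp p).subtype_injective (a := symz T₀)
      (fun g hg => avgTw_of_notMem (fun _ => 1) fun h' => hg ⟨⟨g, hle h'⟩, rfl⟩), ← mul_assoc]
    exact (congrArg (· * _) e1).trans (zero_mul _)
  · unfold nStar
    rw [← card_union_of_disjoint, ← card_union_of_disjoint]
    · congr 1
      ext i
      simp only [C, mem_filter, mem_univ, true_and, mem_union, mem_compl]
      constructor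
      · intro h
        tauto
      · rintro ((h | h) | h)
        · by_contra h'
          obtain ⟨b, hb⟩ := Option.ne_none_iff_exists'.1 h'
          exact h (mem_union.1 (hEA b (a1 i b hb)))
        · exact h.2
        · exact h.2
    · rw [disjoint_left]
      intro i hi hi'
      have h3 := (mem_filter.1 hi').1
      rcases mem_union.1 hi with h | h
      · exact mem_compl.1 h (mem_union_right _ h3)
      · exact disjoint_left.1 hdisj (mem_filter.1 h).1 h3
    · rw [disjoint_left]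
      intro i hi hi'
      exact mem_compl.1 hi (mem_union_left _ (mem_filter.1 hi').1)
  · have d5 : dim α * (dim γ₀ * dim γ₁) ≤ dim α * m := by
      rw [← mul_assoc, ← d4]; exact d2.trans d3
    refine le_trans ?_ (le_of_mul_le_mul_left d5 hα.dim_pos)
    exact mul_le_mul d0 d1 (by positivity) hγ₀.dim_pos.le

end peel

end Crest.Agent.R155
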