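import Crest.Agent.R155.Young
import Crest.Agent.R155.ConvAux

/-!
# Changing the number of colours, and passing to irreducible characters of the whole group
-/

set_option linter.unusedSectionVars false

namespace Crest.Agent.R155

open scoped ComplexOrder MatrixOrder ComplexConjugate Matrix.Norms.L2Operator Matrix
open Finset GA Equiv

variable {ι : Type} [Fintype ι] [DecidableEq ι]

theorem cv_real {D D' I I' m B : ℝ} {u c₀ c₁ k t : ℕ} (ht : 1 ≤ t) (hB : 0 ≤ B) (hD : 0 < D)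
    (hD' : 0 < D') (hI : 0 ≤ I) (hk : u + c₀ + c₁ ≤ k)
    (hm : (c₀.factorial : ℝ) / (2 * t : ℝ) ^ c₀ * ((c₁.factorial : ℝ) / (2 * t : ℝ) ^ c₁) ≤ m)
    (h1 : m * (D * u.factorial) ≤ D' * (u + c₀ + c₁).factorial) (h2 : m * I ≤ I')
    (h3 : D' ^ (1 / 16 : ℝ) * I' ≤ ((u + c₀ + c₁).factorial : ℝ) ^ (9 / 20 : ℝ) * B) :
    D ^ (1 / 16 : ℝ) * I ≤
      (u.factorial : ℝ) ^ (9 / 20 : ℝ) * (Real.exp (5 * t * (k : ℝ) ^ (41 / 85 : ℝ)) * B) := by
  have ht' : (1 : ℝ) ≤ t := by exact_mod_cast ht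
  have f0 : (0 : ℝ) < c₀.factorial := by exact_mod_cast Nat.factorial_pos _
  have f1 : (0 : ℝ) < c₁.factorial := by exact_mod_cast Nat.factorial_pos _
  have fu : (0 : ℝ) < u.factorial := by exact_mod_cast Nat.factorial_pos _
  have fu' : (0 : ℝ) < (u + c₀ + c₁).factorial := by exact_mod_cast Nat.factorial_pos _
  have hm0 : 0 < m := lt_of_lt_of_le (by positivity) hm
  obtain ⟨K, hK⟩ : ∃ K : ℝ, K = (k : ℝ) ^ (c₀ + c₁) := ⟨_, rfl⟩
  have hUK : ((u + c₀ + c₁).factorial : ℝ) ≤ u.factorial * K := by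
    rw [hK, add_assoc, ← Nat.factorial_mul_ascFactorial]
    exact_mod_cast Nat.mul_le_mul_left _ ((Nat.ascFactorial_le_pow_add u (c₀ + c₁)).trans
      (Nat.pow_le_pow_left (by omega) _))
  have hK0 : 0 < K := (mul_pos_iff_of_pos_left fu).1 (fu'.trans_le hUK)
  obtain ⟨κ, hκ⟩ : ∃ κ : ℝ, κ = (k : ℝ) ^ (41 / 85 : ℝ) := ⟨_, rfl⟩
  have hκ0 : 0 ≤ κ := by rw [hκ]; positivity
  have e1 : K ^ (41 / 85 : ℝ) = κ ^ (c₀ + c₁) := by
    rw [hK, hκ, ← Real.rpow_natCast, ← Real.rpow_natCast, ← Real.rpow_mul (Nat.cast_nonneg _),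
      ← Real.rpow_mul (Nat.cast_nonneg _), mul_comm]
  have e2 : κ ^ (c₀ + c₁) ≤ m * Real.exp (2 * (2 * t * κ)) := by
    have a0 := tv_pow_le_fact (2 * t * κ) (by positivity) c₀
    have a1 := tv_pow_le_fact (2 * t * κ) (by positivity) c₁
    calc κ ^ (c₀ + c₁) = (2 * t * κ) ^ c₀ / (2 * t) ^ c₀ * ((2 * t * κ) ^ c₁ / (2 * t) ^ c₁) := by
          rw [mul_pow _ κ, mul_pow _ κ, pow_add]; field_simp
      _ ≤ (c₀.factorial * Real.exp (2 * t * κ)) / (2 * t) ^ c₀ *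
            ((c₁.factorial * Real.exp (2 * t * κ)) / (2 * t) ^ c₁) := by gcongr
      _ = (c₀.factorial : ℝ) / (2 * t : ℝ) ^ c₀ * ((c₁.factorial : ℝ) / (2 * t : ℝ) ^ c₁) *
            Real.exp (2 * (2 * t * κ)) := by rw [two_mul (2 * t * κ), Real.exp_add]; ring
      _ ≤ _ := by gcongr
  have e3 : K ^ (1 / 16 : ℝ) / m ^ (1 / 16 : ℝ) / m * K ^ (9 / 20 : ℝ) ≤ Real.exp (5 * t * κ) := by
    have a1 : K ^ (1 / 16 : ℝ) / m ^ (1 / 16 : ℝ) / m * K ^ (9 / 20 : ℝ) =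
        (K ^ (41 / 85 : ℝ) / m) ^ (17 / 16 : ℝ) := by
      rw [Real.div_rpow (by positivity) hm0.le, ← Real.rpow_mul hK0.le, div_div,
        ← Real.rpow_add_one hm0.ne', div_mul_eq_mul_div, ← Real.rpow_add hK0]
      norm_num
    rw [a1, e1]
    have a2 : κ ^ (c₀ + c₁) / m ≤ Real.exp (2 * (2 * t * κ)) := by
      rw [div_le_iff₀ hm0, mul_comm]; exact e2
    refine (Real.rpow_le_rpow (by positivity) a2 (by norm_num)).trans ?_
    rw [← Real.exp_mul, Real.exp_le_exp]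
    have : 0 ≤ t * κ := by positivity
    nlinarith
  have e4 : D ≤ D' * (K / m) := by
    rw [← mul_div_assoc, le_div_iff₀ hm0]
    have : m * (D * u.factorial) ≤ D' * (u.factorial * K) := h1.trans (by gcongr)
    nlinarith
  have e5 : D ^ (1 / 16 : ℝ) ≤ D' ^ (1 / 16 : ℝ) * (K ^ (1 / 16 : ℝ) / m ^ (1 / 16 : ℝ)) := by
    rw [← Real.div_rpow hK0.le hm0.le, ← Real.mul_rpow hD'.le (by positivity)]
    exact Real.rpow_le_rpow hD.le e4 (by norm_num)
  have e6 : I ≤ I' / m := by rw [le_div_iff₀ hm0, mul_comm]; exact h2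
  have e7 : ((u + c₀ + c₁).factorial : ℝ) ^ (9 / 20 : ℝ) ≤
      (u.factorial : ℝ) ^ (9 / 20 : ℝ) * K ^ (9 / 20 : ℝ) := by
    rw [← Real.mul_rpow fu.le hK0.le]
    exact Real.rpow_le_rpow fu'.le hUK (by norm_num)
  rw [← hκ]
  calc D ^ (1 / 16 : ℝ) * I
      ≤ D' ^ (1 / 16 : ℝ) * (K ^ (1 / 16 : ℝ) / m ^ (1 / 16 : ℝ)) * (I' / m) := by gcongr
    _ = K ^ (1 / 16 : ℝ) / m ^ (1 / 16 : ℝ) / m * (D' ^ (1 / 16 : ℝ) * I') := by ring
    _ ≤ K ^ (1 / 16 : ℝ) / m ^ (1 / 16 : ℝ) / m *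
          ((u.factorial : ℝ) ^ (9 / 20 : ℝ) * K ^ (9 / 20 : ℝ) * B) :=
        mul_le_mul_of_nonneg_left (h3.trans (by gcongr)) (by positivity)
    _ = (u.factorial : ℝ) ^ (9 / 20 : ℝ) *
          (K ^ (1 / 16 : ℝ) / m ^ (1 / 16 : ℝ) / m * K ^ (9 / 20 : ℝ) * B) := by ring
    _ ≤ _ := by gcongr

theorem cv_bound {G : Type} [Group G] [Fintype G] [DecidableEq G] {φ : G →* Perm ι}
    (hφ : Function.Injective φ) (r : IrrRep G) (E A : Bool → Finset ι)
    (hE : ∀ p : Pat ι, (∀ i b, p i = some b → i ∈ E b) → patGrp p ≤ φ.range)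
    (hA : ∀ b, suppGrp (A b) ≤ φ.range) (hdisj : Disjoint (A false) (A true))
    (hEA : ∀ b, E b ⊆ A false ∪ A true) {q k t : ℕ} (hq : 1 ≤ q) (ht : 1 ≤ t) (hk : k ≤ q * t)
    (hvan : ∀ (b b' : Bool) (T : Finset ι), T ⊆ A b' → t < T.card →
      T ⊆ E b ∨ lift r.ρ (pull φ (avgTw (suppGrp T) (cvSg b))) = 0)
    {T₀ : Finset ι} (h0 : T₀ ⊆ E false)
    (h1 : Fintype.card ι ≤ T₀.card + k) (h2 : lift r.ρ (pull φ (symz T₀)) ≠ 0)
    {B : ℝ} (hB : 0 ≤ B) {x : GA (Perm ι)} (h : Hyp q k B x) {u : ℕ}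
    (hu : (A false ∪ A true)ᶜ.card = u) :
    (((Fintype.card ι).factorial : ℝ) / ((Fintype.card G : ℝ) * (u.factorial : ℝ)) * dim r.chr) ^
        (1 / 16 : ℝ) * (ind φ (ev r.chr) ((star x * x) ^ 2)).re ≤
      (u.factorial : ℝ) ^ (9 / 20 : ℝ) * (Real.exp (5 * t * (k : ℝ) ^ (41 / 85 : ℝ)) * B) := by
  obtain ⟨p, α, ψ, c₀, c₁, m, a1, a2, a3, a4, a5, a6, a7, a8⟩ :=
    cv_peel hφ r E A hE hA hdisj hEA hq hk hvan h0 h1 h2
  rw [hu] at a5
  have key : ∀ F : GA (Perm ι), 0 ≤ F → (m : ℝ) * (ind φ (ev r.chr) F).re ≤ (indP p α F).re := by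
    intro F hF
    have b1 := ind_mono hφ (τ := (m : ℂ) • ev r.chr) (σ := ind ψ (ev α))
      (fun a ha => by
        have := mult_mul_le_ind ψ a1 r.isIrr ha
        rwa [a7] at this) hF
    rw [ind_ind, a4, ind_smul, LinearMap.smul_apply, smul_eq_mul] at b1
    have b2 := (Complex.le_def.1 b1).1
    rwa [← Complex.ofReal_natCast, Complex.re_ofReal_mul] at b2
  have hG : (0 : ℝ) < Fintype.card G := by exact_mod_cast Fintype.card_pos
  have fu : (0 : ℝ) < u.factorial := by exact_mod_cast Nat.factorial_pos _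
  have fn : (0 : ℝ) < (Fintype.card ι).factorial := by exact_mod_cast Nat.factorial_pos _
  have hd := r.isIrr.dim_pos
  have hF := tv_sq_nonneg x
  have h3 := h p α a1 a2 a3
  rw [a5] at h3 a6
  refine cv_real ht hB (by positivity) (dtil_pos a1)
    (Complex.le_def.1 (ind_pos hφ r.isIrr.isTr.pos hF)).1 a6 a8 ?_ (key _ hF) h3
  have b1 := (key 1 zero_le_one).trans (tv_indP_le a1 le_rfl)
  rw [ind_one hφ, ev_one, ← r.isIrr.coe_dim, Fintype.card_perm, ← Complex.ofReal_natCast,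
    ← Complex.ofReal_natCast, ← Complex.ofReal_div, ← Complex.ofReal_mul, Complex.ofReal_re,
    a5] at b1
  refine le_trans (le_of_eq ?_) b1
  field_simp

/-- Increasing the number of colours from `q` to `q'`. -/
theorem Hyp.conv {q q' k t : ℕ} {B : ℝ} {x : GA (Perm ι)} (hq : 1 ≤ q) (ht : 1 ≤ t)
    (hq' : q' ≤ t) (hk : k ≤ q * t) (hB : 0 ≤ B) (h : Hyp q k B x) :
    Hyp q' k (Real.exp (5 * t * (k : ℝ) ^ (41 / 85 : ℝ)) * B) x := by
  intro p α hα ha hke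
  obtain ⟨T₀, h0, h1, h2⟩ := hke
  obtain ⟨r, rfl⟩ := hα
  let E : Bool → Finset ι := fun b => univ.filter fun i => p i = some b
  have mE : ∀ b i, i ∈ E b ↔ p i = some b := fun b i => by simp [E]
  have hr : (patGrp p).subtype.range = patGrp p := Subgroup.range_subtype _
  have hz : ∀ (T : Finset ι) (b b' : Bool), T ⊆ E b' →
      (ev r.chr (res p (avgTw (suppGrp T) (cvSg b))) ≠ 0 ↔
        lift r.ρ (res p (avgTw (suppGrp T) (cvSg b))) ≠ 0) := fun T b b' hT =>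
    r.ev_ne_zero_iff (isStarProjection_res_avgTw
      (suppGrp_le_patGrp fun i hi => (mE b' i).1 (hT hi)) (cv_isChar_cvSg b _)).nonneg
  refine cv_bound (patGrp p).subtype_injective r E E ?_ ?_ ?_ ?_ hq ht hk ?_
    (T₀ := T₀) (fun i hi => (mE _ i).2 (h0 i hi)) h1
    ((hz T₀ false false fun i hi => (mE _ i).2 (h0 i hi)).1 h2) hB h ?_
  · intro p' hp' g hg
    rw [hr]
    intro i
    rcases hi : p' i with _ | b
    · rw [(hg i).2 hi]; exact ⟨rfl, fun _ => rfl⟩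
    · have e1 := (mE _ _).1 (hp' i b hi)
      have e2 := (mE _ _).1 (hp' (g i) b ((hg i).1.trans hi))
      exact ⟨e2.trans e1.symm, fun h => by rw [e1] at h; cases h⟩
  · intro b
    rw [hr]
    exact suppGrp_le_patGrp fun i hi => (mE b i).1 hi
  · rw [disjoint_left]
    intro i hi hi'
    have := ((mE _ _).1 hi).symm.trans ((mE _ _).1 hi')
    cases this
  · intro b
    cases b
    · exact subset_union_left
    · exact subset_union_right
  · intro b b' T hT hcard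
    by_cases hb : b = b'
    · exact Or.inl (hb ▸ hT)
    · right
      by_contra hne
      refine (hz T b b' hT).2 hne ?_
      cases b <;> cases b'
      · exact absurd rfl hb
      · exact ha.ev_symz_eq_zero r.isIrr (fun i hi => (mE _ i).1 (hT hi)) (by omega)
      · exact ha.ev_altz_eq_zero r.isIrr (fun i hi => (mE _ i).1 (hT hi)) (by omega)
      · exact absurd rfl hb
  · unfold nStar
    congr 1
    ext i
    simp only [mem_compl, mem_union, mE, mem_filter, mem_univ, true_and]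
    rcases p i with _ | _ | _ <;> simp

/-- From the weighted hypothesis to an irreducible character of the whole symmetric group. -/
theorem Hyp.final {q k t : ℕ} {B : ℝ} {x : GA (Perm ι)} (hq : 1 ≤ q) (ht : 1 ≤ t)
    (hk : k ≤ q * t) (hB : 0 ≤ B) (h : Hyp q k B x) {χ : Perm ι → ℂ} (hχ : IsIrr χ)
    (hl : lev χ ≤ k) :
    (ev χ ((star x * x) ^ 2)).re
      ≤ dim χ ^ (-(1 / 16) : ℝ) * (Real.exp (5 * t * (k : ℝ) ^ (41 / 85 : ℝ)) * B) := by
  obtain ⟨T₀, h1, h2⟩ := exists_lev hχ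
  obtain ⟨r, rfl⟩ := hχ
  have h3 := cv_bound (φ := MonoidHom.id (Perm ι)) Function.injective_id r (fun _ => univ)
    (fun b => if b then ∅ else univ) (fun p _ g _ => ⟨g, rfl⟩) (fun b g _ => ⟨g, rfl⟩) (by simp)
    (by simp) hq ht hk (fun _ _ T _ _ => Or.inl (subset_univ T)) (subset_univ T₀) (by omega)
    ((r.ev_ne_zero_iff (isStarProjection_symz T₀).nonneg).1 h2) hB h (u := 0) (by simp)
  have fn : (0 : ℝ) < (Fintype.card ι).factorial := by exact_mod_cast Nat.factorial_pos _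
  have hd := r.isIrr.dim_pos
  rw [ind_id_of_isTr r.isIrr.isTr, Fintype.card_perm, Nat.factorial_zero, Nat.cast_one, mul_one,
    div_self fn.ne', one_mul, Real.one_rpow, one_mul] at h3
  rw [Real.rpow_neg hd.le, ← div_eq_inv_mul, le_div_iff₀ (by positivity), mul_comm]
  exact h3

end Crest.Agent.R155
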