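import Crest.Agent.R155.Tr

/-!
# Subcubes: lifting operators along embeddings of the set of directions
-/

set_option linter.unusedSectionVars false

namespace Crest.Agent.R155

open scoped ComplexOrder MatrixOrder ComplexConjugate Matrix.Norms.L2Operator Matrix
open Finset GA Equiv

section general

variable {G K : Type} [Group G] [Fintype G] [DecidableEq G] [Group K] [Fintype K] [DecidableEq K]

theorem cube_tens_push {κ : Type} [Fintype κ] [DecidableEq κ] (φ : K →* G) (y : κ → GA K) :
    tens (fun k => push φ (y k)) = push (φ.compLeft κ) (tens y) := by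
  ext g
  simp only [tens_apply, push_apply]
  rw [Finset.prod_univ_sum, Fintype.piFinset_univ]
  refine sum_congr rfl fun h _ => ?_
  rw [Finset.prod_ite_zero]
  simp only [mem_univ, forall_const]
  refine if_congr ?_ rfl rfl
  exact ⟨fun H => funext H, fun H k => congrFun H k⟩

theorem cube_push_avgSub {φ : K →* G} (hφ : Function.Injective φ) (S : Subgroup K) :
    push φ (avgSub S) = avgSub (S.map φ) := by
  have hc : Nat.card (S.map φ) = Nat.card S :=
    (Nat.card_congr (S.equivMapOfInjective _ hφ).toEquiv).symm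
  ext g
  by_cases hg : g ∈ φ.range
  · obtain ⟨k, rfl⟩ := hg
    rw [push_apply_of_inj hφ, avgSub, avgSub]
    by_cases hk : k ∈ S
    · rw [avgTw_of_mem _ hk, avgTw_of_mem _ (Subgroup.mem_map_of_mem φ hk), hc]
    · rw [avgTw_of_notMem _ hk, avgTw_of_notMem]
      rintro ⟨s, hs, h⟩
      exact hk (hφ h ▸ hs)
  · rw [push_apply_of_notMem _ hg, avgSub, avgTw_of_notMem]
    rintro ⟨s, -, rfl⟩
    exact hg ⟨s, rfl⟩

theorem cube_tens_avgSub {κ : Type} [Fintype κ] [DecidableEq κ] (S : Subgroup K) :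
    tens (fun _ : κ => avgSub S) = avgSub (Subgroup.pi Set.univ fun _ : κ => S) := by
  have hc : Nat.card (Subgroup.pi Set.univ fun _ : κ => S) = Nat.card S ^ Fintype.card κ := by
    have e : (Subgroup.pi Set.univ fun _ : κ => S) ≃ (κ → S) :=
      { toFun := fun g k => ⟨g.1 k, g.2 k trivial⟩
        invFun := fun f => ⟨fun k => f k, fun k _ => (f k).2⟩
        left_inv := fun _ => rfl
        right_inv := fun _ => rfl }
    rw [Nat.card_congr e, Nat.card_fun, Nat.card_eq_fintype_card (α := κ)]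
  ext g
  rw [tens_apply, avgSub, avgSub]
  by_cases hg : g ∈ Subgroup.pi Set.univ fun _ : κ => S
  · rw [avgTw_of_mem _ hg, hc, prod_congr rfl fun k _ => avgTw_of_mem _ (hg k trivial)]
    simp
  · rw [avgTw_of_notMem _ hg]
    obtain ⟨k, hk⟩ : ∃ k, g k ∉ S := by
      by_contra h
      push Not at h
      exact hg fun k _ => h k
    exact prod_eq_zero (mem_univ k) (avgTw_of_notMem _ hk)

end general

section block

variable {ι κ κ' β γ : Type} [Fintype ι] [DecidableEq ι] [Fintype κ] [DecidableEq κ]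
  [Fintype κ'] [DecidableEq κ'] [Fintype β] [DecidableEq β] [Fintype γ] [DecidableEq γ]

/-- `blockLift` only depends on the partition into blocks and the coordinates in the blocks. -/
theorem blockLift_congr [Nonempty β] (e : ι ≃ κ × β) (e' : ι ≃ κ' × β)
    (h2 : ∀ i, (e i).2 = (e' i).2) (h1 : ∀ i i', (e i).1 = (e i').1 → (e' i).1 = (e' i').1)
    (x : GA (Perm β)) : blockLift e x = blockLift e' x := by
  obtain ⟨b₀⟩ := ‹Nonempty β›
  let s : κ → κ' := fun k => (e' (e.symm (k, b₀))).1
  have hs : ∀ i, e' i = (s (e i).1, (e i).2) := fun i =>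
    Prod.ext (h1 _ _ (by simp)) (h2 i).symm
  have hbij : Function.Bijective s := by
    constructor
    · intro k k' h
      have : e' (e.symm (k, b₀)) = e' (e.symm (k', b₀)) := by rw [hs, hs]; simp [h]
      simpa using this
    · intro k'
      refine ⟨(e (e'.symm (k', b₀))).1, ?_⟩
      have := hs (e'.symm (k', b₀))
      rw [Equiv.apply_symm_apply] at this
      exact (congrArg Prod.fst this).symm
  let σ : κ ≃ κ' := Equiv.ofBijective s hbij
  ext g
  rw [blockLift, blockLift, push_apply, push_apply]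
  refine Fintype.sum_equiv (σ.arrowCongr (Equiv.refl _)) _ _ fun h => ?_
  have e1 : blockHom e' (σ.arrowCongr (Equiv.refl _) h) = blockHom e h := by
    ext i
    rw [blockHom_apply, blockHom_apply, Equiv.symm_apply_eq, hs, hs]
    have : σ.symm (s (e i).1) = (e i).1 := σ.symm_apply_apply _
    simp [this]
  rw [e1, tens_apply, tens_apply]
  congr 1
  refine Fintype.prod_equiv σ _ _ fun k => ?_
  simp

/-- Nested block structures. -/
def nestE (e : ι ≃ κ × β) (f : β ≃ κ' × γ) : ι ≃ (κ × κ') × γ :=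
  (e.trans ((Equiv.refl κ).prodCongr f)).trans (Equiv.prodAssoc _ _ _).symm

theorem nestE_apply (e : ι ≃ κ × β) (f : β ≃ κ' × γ) (i : ι) :
    nestE e f i = (((e i).1, (f (e i).2).1), (f (e i).2).2) := rfl

theorem nestE_symm_apply (e : ι ≃ κ × β) (f : β ≃ κ' × γ) (p : (κ × κ') × γ) :
    (nestE e f).symm p = e.symm (p.1.1, f.symm (p.1.2, p.2)) := rfl

theorem blockLift_blockLift (e : ι ≃ κ × β) (f : β ≃ κ' × γ) (x : GA (Perm γ)) :
    blockLift e (blockLift f x) = blockLift (nestE e f) x := by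
  rw [blockLift, blockLift, blockLift, cube_tens_push, push_push]
  ext g
  rw [push_apply, push_apply]
  refine Fintype.sum_equiv (Equiv.curry κ κ' (Perm γ)).symm _ _ fun h => ?_
  have e1 : blockHom (nestE e f) ((Equiv.curry κ κ' (Perm γ)).symm h) =
      (blockHom e).comp ((blockHom f).compLeft κ) h := by
    ext i
    rfl
  rw [e1, tens_apply, tens_apply, Fintype.prod_prod_type]
  rfl

theorem blockLift_unit (x : GA (Perm β)) : blockLift (Equiv.punitProd.{0} β).symm x = x := by
  ext g
  have e1 : blockHom (Equiv.punitProd.{0} β).symm (fun _ => g) = g := by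
    ext i; rfl
  conv_lhs => rw [← e1]
  rw [blockLift, push_apply_of_inj (blockHom_injective _), tens_apply]
  simp

theorem exists_blockHom (e : ι ≃ κ × β) {g : Perm ι} (hg : ∀ i, (e (g i)).1 = (e i).1) :
    ∃ h : κ → Perm β, blockHom e h = g := by
  have hg' : ∀ i, (e (g⁻¹ i)).1 = (e i).1 := fun i => by
    rw [← hg (g⁻¹ i)]; simp
  have key : ∀ {u v : Perm ι}, (∀ i, (e (u i)).1 = (e i).1) → (∀ i, v (u i) = i) → ∀ k b,
      (e (v (e.symm (k, (e (u (e.symm (k, b)))).2)))).2 = b := by
    intro u v hu hv k b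
    have : (k, (e (u (e.symm (k, b)))).2) = e (u (e.symm (k, b))) :=
      Prod.ext (by simp [hu]) rfl
    rw [this, Equiv.symm_apply_apply, hv, Equiv.apply_symm_apply]
  refine ⟨fun k => ⟨fun b => (e (g (e.symm (k, b)))).2, fun b => (e (g⁻¹ (e.symm (k, b)))).2,
    key hg (fun i => by simp) k, key hg' (fun i => by simp) k⟩, ?_⟩
  ext i
  rw [blockHom_apply, Equiv.symm_apply_eq]
  exact Prod.ext (hg i).symm (by simp)

end block

section cube

variable {D D₁ D₂ D₃ : Type} [Fintype D] [DecidableEq D] [Fintype D₁] [DecidableEq D₁]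
  [Fintype D₂] [DecidableEq D₂] [Fintype D₃] [DecidableEq D₃]

/-- Splitting the directions of a cube into two complementary sets. -/
noncomputable def splitE (w₁ : D₁ ↪ D) (w₂ : D₂ ↪ D)
    (h : ∀ j, j ∈ Set.range w₂ ↔ j ∉ Set.range w₁) : (D → Bool) ≃ (D₂ → Bool) × (D₁ → Bool) :=
  Equiv.ofBijective (fun z => (z ∘ w₂, z ∘ w₁)) (by
    classical
    constructor
    · intro z z' H
      funext j
      by_cases hj : j ∈ Set.range w₁
      · obtain ⟨i, rfl⟩ := hj
        exact congrFun (congrArg Prod.snd H) i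
      · obtain ⟨i, rfl⟩ := (h j).2 hj
        exact congrFun (congrArg Prod.fst H) i
    · rintro ⟨p, q⟩
      refine ⟨fun j => if hj : j ∈ Set.range w₁ then q hj.choose else p ((h j).2 hj).choose, ?_⟩
      refine Prod.ext (funext fun i => ?_) (funext fun i => ?_)
      · have hj : w₂ i ∉ Set.range w₁ := (h _).1 ⟨i, rfl⟩
        simp only [Function.comp_apply, dif_neg hj]
        congr 1
        exact w₂.injective ((h _).2 hj).choose_spec
      · have hj : w₁ i ∈ Set.range w₁ := ⟨i, rfl⟩
        simp only [Function.comp_apply, dif_pos hj]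
        congr 1
        exact w₁.injective hj.choose_spec)

theorem splitE_apply (w₁ : D₁ ↪ D) (w₂ : D₂ ↪ D)
    (h : ∀ j, j ∈ Set.range w₂ ↔ j ∉ Set.range w₁) (z : D → Bool) :
    splitE w₁ w₂ h z = (z ∘ w₂, z ∘ w₁) := rfl

/-- The block structure of the subcubes spanned by the directions in the range of `w`. -/
noncomputable def cubeE (w : D₁ ↪ D) :
    (D → Bool) ≃ ({j // j ∉ Set.range w} → Bool) × (D₁ → Bool) :=
  splitE w (Function.Embedding.subtype _) fun j => by simp

theorem cubeE_snd (w : D₁ ↪ D) (z : D → Bool) : (cubeE w z).2 = z ∘ w := rfl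

theorem cubeE_fst (w : D₁ ↪ D) (z : D → Bool) (j : {j // j ∉ Set.range w}) :
    (cubeE w z).1 j = z j.1 := rfl

theorem cubeE_fst_eq (w : D₁ ↪ D) (z z' : D → Bool) :
    (cubeE w z).1 = (cubeE w z').1 ↔ ∀ j, j ∉ Set.range w → z j = z' j :=
  ⟨fun H j hj => congrFun H ⟨j, hj⟩, fun H => funext fun j => H j.1 j.2⟩

/-- The same operator acting independently in all subcubes spanned by the directions of `w`. -/
noncomputable def cubeLift (w : D₁ ↪ D) (x : GA (Perm (D₁ → Bool))) : GA (Perm (D → Bool)) :=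
  blockLift (cubeE w) x

theorem blockLift_eq_cubeLift {κ : Type} [Fintype κ] [DecidableEq κ] (w : D₁ ↪ D)
    (e : (D → Bool) ≃ κ × (D₁ → Bool)) (h2 : ∀ z, (e z).2 = z ∘ w)
    (h1 : ∀ z z', (e z).1 = (e z').1 → ∀ j, j ∉ Set.range w → z j = z' j)
    (x : GA (Perm (D₁ → Bool))) : blockLift e x = cubeLift w x :=
  blockLift_congr e (cubeE w) h2 (fun z z' H => (cubeE_fst_eq w z z').2 (h1 z z' H)) x

theorem cubeLift_mul (w : D₁ ↪ D) (x y : GA (Perm (D₁ → Bool))) :
    cubeLift w (x * y) = cubeLift w x * cubeLift w y := blockLift_mul _ _ _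

theorem cubeLift_one (w : D₁ ↪ D) : cubeLift w 1 = 1 := blockLift_one _

theorem cubeLift_star (w : D₁ ↪ D) (x : GA (Perm (D₁ → Bool))) :
    cubeLift w (star x) = star (cubeLift w x) := blockLift_star _ _

theorem cubeLift_listProd (w : D₁ ↪ D) (l : List (GA (Perm (D₁ → Bool)))) :
    cubeLift w l.prod = (l.map (cubeLift w)).prod := by
  induction l with
  | nil => simp [cubeLift_one]
  | cons a l ih => simp [cubeLift_mul, ih]

theorem cubeLift_contr (w : D₁ ↪ D) {x : GA (Perm (D₁ → Bool))} (h : star x * x ≤ 1) :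
    star (cubeLift w x) * cubeLift w x ≤ 1 := by
  rw [← cubeLift_star, ← cubeLift_mul, ← cubeLift_one w]
  exact blockLift_mono _ (star_mul_self_nonneg x) h

theorem cubeLift_cubeLift (w : D₁ ↪ D) (w' : D₂ ↪ D₁) (x : GA (Perm (D₂ → Bool))) :
    cubeLift w (cubeLift w' x) = cubeLift (w'.trans w) x := by
  rw [cubeLift, cubeLift, blockLift_blockLift]
  refine blockLift_eq_cubeLift _ _ (fun z => rfl) (fun z z' H j hj => ?_) x
  rw [nestE_apply, nestE_apply] at H
  obtain ⟨H1, H2⟩ := Prod.ext_iff.1 H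
  by_cases hw : j ∈ Set.range w
  · obtain ⟨i, rfl⟩ := hw
    refine (cubeE_fst_eq w' (z ∘ w) (z' ∘ w)).1 H2 i ?_
    rintro ⟨k, rfl⟩
    exact hj ⟨k, rfl⟩
  · exact (cubeE_fst_eq w _ _).1 H1 j hw

theorem cubeLift_of_eq {w : D ↪ D} (hw : ∀ i, w i = i) (x : GA (Perm (D → Bool))) :
    cubeLift w x = x := by
  rw [← blockLift_eq_cubeLift w (Equiv.punitProd.{0} _).symm (fun z => funext fun i => by
    simp [hw]) (fun z z' _ j hj => absurd ⟨j, hw j⟩ hj), blockLift_unit]

theorem cubeLift_Pdir (w : D₁ ↪ D) (i : D₁) : cubeLift w (Pdir i) = Pdir (w i) := by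
  rw [cubeLift, blockLift, Pdir, cube_tens_avgSub, cube_push_avgSub (blockHom_injective _), Pdir]
  congr 1
  ext g
  constructor
  · rintro ⟨h, hh, rfl⟩ z j hj
    have e1 : cubeE w (blockHom (cubeE w) h z) = ((cubeE w z).1, h (cubeE w z).1 (cubeE w z).2) := by
      rw [blockHom_apply, Equiv.apply_symm_apply]
    by_cases hw : j ∈ Set.range w
    · obtain ⟨k, rfl⟩ := hw
      have e2 := congrFun (congrArg Prod.snd e1) k
      rw [cubeE_snd] at e2
      exact e2.trans (hh _ trivial _ k fun H => hj (by rw [H]))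
    · exact (cubeE_fst_eq w _ z).1 (by rw [e1]) j hw
  · intro hg
    obtain ⟨h, rfl⟩ := exists_blockHom (cubeE w) (g := g) fun z =>
      (cubeE_fst_eq w _ _).2 fun j hj => hg z j fun H => hj ⟨i, H.symm⟩
    refine ⟨h, fun k _ b j hj => ?_, rfl⟩
    have e1 : cubeE w (blockHom (cubeE w) h ((cubeE w).symm (k, b))) = (k, h k b) := by
      rw [blockHom_apply, Equiv.apply_symm_apply, Equiv.apply_symm_apply]
    have e2 := congrFun (congrArg Prod.snd e1) j
    have e3 := hg ((cubeE w).symm (k, b)) (w j) fun H => hj (w.injective H)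
    have e4 := congrFun (cubeE_snd w ((cubeE w).symm (k, b))) j
    rw [Equiv.apply_symm_apply] at e4
    rw [cubeE_snd] at e2
    exact e2.symm.trans (e3.trans e4.symm)

theorem blockLift_splitE (w₁ : D₁ ↪ D) (w₂ : D₂ ↪ D)
    (h : ∀ j, j ∈ Set.range w₂ ↔ j ∉ Set.range w₁) (x : GA (Perm (D₁ → Bool))) :
    blockLift (splitE w₁ w₂ h) x = cubeLift w₁ x :=
  blockLift_eq_cubeLift w₁ _ (fun _ => rfl) (fun z z' H j hj => by
    obtain ⟨i, rfl⟩ := (h j).2 hj
    exact congrFun H i) x

theorem blockLift_splitE' (w₁ : D₁ ↪ D) (w₂ : D₂ ↪ D)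
    (h : ∀ j, j ∈ Set.range w₂ ↔ j ∉ Set.range w₁) (y : GA (Perm (D₂ → Bool))) :
    blockLift ((splitE w₁ w₂ h).trans (Equiv.prodComm _ _)) y = cubeLift w₂ y :=
  blockLift_eq_cubeLift w₂ _ (fun _ => rfl) (fun z z' H j hj => by
    obtain ⟨i, rfl⟩ : j ∈ Set.range w₁ := by
      by_contra h'
      exact hj ((h j).2 h')
    exact congrFun H i) y

end cube

/-! ### intervals of directions -/

/-- The interval `[a, a + m)` of directions. -/
def iv (a m d : ℕ) (h : a + m ≤ d) : Fin m ↪ Fin d :=
  ⟨fun i => ⟨a + i, by omega⟩, fun i j H => by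
    have := congrArg Fin.val H
    exact Fin.ext (by simpa using this)⟩

@[simp] theorem iv_val (a m d : ℕ) (h : a + m ≤ d) (i : Fin m) : (iv a m d h i : ℕ) = a + i := rfl

theorem mem_range_iv {a m d : ℕ} (h : a + m ≤ d) (j : Fin d) :
    j ∈ Set.range (iv a m d h) ↔ a ≤ j ∧ (j : ℕ) < a + m := by
  constructor
  · rintro ⟨i, rfl⟩
    have := i.2
    simp only [iv_val]; omega
  · rintro ⟨h1, h2⟩
    exact ⟨⟨j - a, by omega⟩, Fin.ext (by simp; omega)⟩

theorem iv_trans {a m d b k : ℕ} (h : a + m ≤ d) (h' : b + k ≤ m) :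
    (iv b k m h').trans (iv a m d h) = iv (a + b) k d (by omega) := by
  ext i
  simp [add_assoc]

/-- The projection in direction `n`. -/
noncomputable def Pn (d n : ℕ) : GA (Perm (Fin d → Bool)) :=
  if h : n < d then Pdir (⟨n, h⟩ : Fin d) else 1

/-- One pass through the directions `[a, a + k)`. -/
noncomputable def seg (d a k : ℕ) : GA (Perm (Fin d → Bool)) := ((List.range' a k).map (Pn d)).prod

@[simp] theorem seg_zero (d a : ℕ) : seg d a 0 = 1 := by simp [seg]

theorem seg_add (d a k k' : ℕ) : seg d a (k + k') = seg d a k * seg d (a + k) k' := by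
  rw [seg, seg, seg, ← List.prod_append, ← List.map_append, List.range'_append_1]

theorem cubeLift_Qd {a m d : ℕ} (h : a + m ≤ d) : cubeLift (iv a m d h) (Qd m) = seg d a m := by
  rw [Qd, cubeLift_listProd, seg, List.map_map]
  congr 1
  refine List.ext_getElem (by simp) fun i h1 h2 => ?_
  have hi : i < m := by simpa using h1
  simp only [List.getElem_map, List.getElem_finRange, Function.comp_apply, List.getElem_range',
    cubeLift_Pdir, Pn, one_mul]
  rw [dif_pos (by omega)]
  rfl

theorem seg_eq_Qd (d : ℕ) : seg d 0 d = Qd d := by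
  rw [← cubeLift_Qd (by omega), cubeLift_of_eq fun i => Fin.ext (by simp)]

theorem seg_contr (d a k : ℕ) : star (seg d a k) * seg d a k ≤ 1 :=
  star_mul_le_one_listProd _ fun x hx => by
    obtain ⟨n, -, rfl⟩ := List.mem_map.1 hx
    unfold Pn
    split_ifs
    · exact star_Pdir_mul_le _
    · simp

theorem isCol4_Qd : IsCol4 (Qd 2) := Or.inl (by simp [Qd, List.finRange_succ])

theorem iv_compl_right (m k : ℕ) (j : Fin (m + k)) :
    j ∈ Set.range (iv m k (m + k) le_rfl) ↔ j ∉ Set.range (iv 0 m (m + k) (by omega)) := by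
  have := j.2
  rw [mem_range_iv, mem_range_iv]; omega

theorem iv_compl_left (m k : ℕ) (j : Fin (m + k)) :
    j ∈ Set.range (iv 0 k (m + k) (by omega)) ↔ j ∉ Set.range (iv k m (m + k) (by omega)) := by
  have := j.2
  rw [mem_range_iv, mem_range_iv]; omega

/-- One pass through `d + 2` directions is a pass through the first `d` directions inside the four
subcubes, followed by the last two directions. -/
theorem Qd_add_two (d : ℕ) :
    ∃ (e : (Fin (d + 2) → Bool) ≃ (Fin 2 → Bool) × (Fin d → Bool))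
      (y : GA (Perm (Fin 2 → Bool))), IsCol4 y ∧
      Qd (d + 2) = blockLift e (Qd d) * blockLift (e.trans (Equiv.prodComm _ _)) y := by
  refine ⟨splitE _ _ (iv_compl_right d 2), Qd 2, isCol4_Qd, ?_⟩
  rw [blockLift_splitE, blockLift_splitE', cubeLift_Qd, cubeLift_Qd, ← seg_eq_Qd, seg_add,
    zero_add]

end Crest.Agent.R155
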