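import Crest.Agent.R155.ZII

/-!
# The de Finetti reduction
-/

set_option linter.unusedSectionVars false

namespace Crest.Agent.R155

open scoped ComplexOrder MatrixOrder ComplexConjugate Matrix.Norms.L2Operator Matrix
open Finset GA Equiv

variable {ι : Type} [Fintype ι] [DecidableEq ι] {q : ℕ}

section types
variable {E : Type} [Fintype E] [DecidableEq E]

/-- The type (empirical counts) of a word. -/
def dfCnt (z : ι → E) (e : E) : ℕ := #{i | z i = e}

lemma df_prod_cnt {M : Type} [CommMonoid M] (z : ι → E) (f : E → M) :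
    ∏ i, f (z i) = ∏ e, f e ^ dfCnt z e := by
  rw [← Finset.prod_fiberwise' univ z f]
  simp [dfCnt]

lemma df_sum_cnt (z : ι → E) : ∑ e, dfCnt z e = Fintype.card ι :=
  (card_eq_sum_card_fiberwise (s := univ) (t := univ) (f := z) fun _ _ => mem_univ _).symm

lemma df_cnt_le (z : ι → E) (e : E) : dfCnt z e ≤ Fintype.card ι := card_le_univ _

lemma df_cnt_comp (z : ι → E) (g : Perm ι) : dfCnt (z ∘ g) = dfCnt z := by
  funext e
  exact card_equiv g fun i => by simp

lemma df_count (z : ι → E) : (Fintype.card ι).factorial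
    ≤ (∏ e, (dfCnt z e).factorial) * #{z' : ι → E | dfCnt z' = dfCnt z} := by
  rw [← Fintype.card_perm, ← card_univ]
  refine card_le_mul_card_image_of_maps_to (f := fun g : Perm ι => z ∘ g)
    (fun g _ => by simp [df_cnt_comp]) _ fun z' _ => ?_
  rcases (univ.filter fun g : Perm ι => z ∘ g = z').eq_empty_or_nonempty with h | ⟨g₀, hg₀⟩
  · rw [h]; simp
  have h0 : z ∘ g₀ = z' := (mem_filter.1 hg₀).2
  have h1 := DomMulAct.stabilizer_card z
  simp only [Fintype.card_subtype] at h1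
  refine le_trans (card_le_card_of_injOn (t := univ.filter fun g : Perm ι => z ∘ g = z)
    (fun g => g * g₀⁻¹) (fun g hg => ?_) fun a _ b _ h => mul_right_cancel h) (le_of_eq h1)
  have h2 : z ∘ g = z' := by simpa using hg
  simp only [coe_filter, mem_univ, true_and, Set.mem_ofPred_eq, Perm.coe_mul]
  rw [← Function.comp_assoc, h2, ← h0]
  ext i; simp

lemma df_factorial_le (m : ℕ) :
    (m.factorial : ℝ) * Real.exp m ≤ ((m : ℝ) + 1) ^ 2 * (m : ℝ) ^ m := by
  induction m with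
  | zero => simp
  | succ m ih =>
    have key : Real.exp 1 * (((m : ℝ) + 1) ^ 2 * (m : ℝ) ^ m)
        ≤ ((m : ℝ) + 2) ^ 2 * ((m : ℝ) + 1) ^ m := by
      have hm : (0 : ℝ) ≤ m := Nat.cast_nonneg m
      have h1 : (m : ℝ) ≤ (m + 1) * Real.exp (-(1 / (m + 1))) := by
        have := Real.add_one_le_exp (-(1 / ((m : ℝ) + 1)))
        have e : (m : ℝ) = (m + 1) * (-(1 / (m + 1)) + 1) := by field_simp; ring
        calc (m : ℝ) = _ := e
          _ ≤ _ := by gcongr
      have h2 : (m : ℝ) + 1 ≤ (m + 2) * Real.exp (-(1 / (m + 2))) := by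
        have := Real.add_one_le_exp (-(1 / ((m : ℝ) + 2)))
        have e : (m : ℝ) + 1 = (m + 2) * (-(1 / (m + 2)) + 1) := by field_simp; ring
        calc (m : ℝ) + 1 = _ := e
          _ ≤ _ := by gcongr
      have h3 := pow_le_pow_left₀ hm h1 m
      have h4 := pow_le_pow_left₀ (by positivity) h2 2
      have h5 : Real.exp 1 * (Real.exp (-(1 / ((m : ℝ) + 2))) ^ 2
          * Real.exp (-(1 / ((m : ℝ) + 1))) ^ m) ≤ 1 := by
        rw [← Real.exp_nat_mul, ← Real.exp_nat_mul, ← Real.exp_add, ← Real.exp_add,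
          Real.exp_le_one_iff]
        have e : 1 + ((2 : ℕ) * -(1 / ((m : ℝ) + 2)) + m * -(1 / (m + 1)))
            = -(m / ((m + 1) * (m + 2))) := by push_cast; field_simp; ring
        rw [e, neg_nonpos]
        positivity
      calc Real.exp 1 * (((m : ℝ) + 1) ^ 2 * (m : ℝ) ^ m)
          ≤ Real.exp 1 * ((((m : ℝ) + 2) * Real.exp (-(1 / (m + 2)))) ^ 2
            * (((m : ℝ) + 1) * Real.exp (-(1 / (m + 1)))) ^ m) := by gcongr
        _ = ((m : ℝ) + 2) ^ 2 * ((m : ℝ) + 1) ^ m * (Real.exp 1 *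
            (Real.exp (-(1 / ((m : ℝ) + 2))) ^ 2 * Real.exp (-(1 / ((m : ℝ) + 1))) ^ m)) := by
          rw [mul_pow, mul_pow]; ring
        _ ≤ _ := mul_le_of_le_one_right (by positivity) h5
    rw [Nat.factorial_succ]
    push_cast
    rw [Real.exp_add]
    calc ((m : ℝ) + 1) * m.factorial * (Real.exp m * Real.exp 1)
        = ((m : ℝ) + 1) * (Real.exp 1 * (m.factorial * Real.exp m)) := by ring
      _ ≤ ((m : ℝ) + 1) * (Real.exp 1 * (((m : ℝ) + 1) ^ 2 * (m : ℝ) ^ m)) := by gcongr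
      _ ≤ ((m : ℝ) + 1) * (((m : ℝ) + 2) ^ 2 * ((m : ℝ) + 1) ^ m) := by gcongr
      _ = _ := by ring

/-- The method of types. -/
lemma df_types (z : ι → E) :
    1 ≤ (((Fintype.card ι : ℝ) + 1) ^ Fintype.card E) ^ 2 * (#{z' : ι → E | dfCnt z' = dfCnt z} *
      (∏ e, √(dfCnt z e / Fintype.card ι) ^ dfCnt z e) ^ 2) := by
  set n := Fintype.card ι with hn
  set N : ℝ := ((#{z' : ι → E | dfCnt z' = dfCnt z} : ℕ) : ℝ) with hN
  have hN0 : 0 ≤ N := by positivity
  have h1 : (n.factorial : ℝ) ≤ (∏ e, ((dfCnt z e).factorial : ℝ)) * N := by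
    rw [hN]; exact_mod_cast df_count z
  have h2 : (∏ e, ((dfCnt z e).factorial : ℝ)) * Real.exp n
      ≤ (((n : ℝ) + 1) ^ Fintype.card E) ^ 2 * ∏ e, (dfCnt z e : ℝ) ^ dfCnt z e := by
    rw [hn, ← df_sum_cnt z, Nat.cast_sum, Real.exp_sum, ← prod_mul_distrib, ← Nat.cast_sum,
      df_sum_cnt, ← pow_mul, mul_comm (Fintype.card E), pow_mul, ← card_univ (α := E),
      ← prod_const, ← prod_mul_distrib]
    refine prod_le_prod (fun e _ => by positivity) fun e _ => (df_factorial_le _).trans ?_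
    have : (dfCnt z e : ℝ) ≤ Fintype.card ι := by exact_mod_cast df_cnt_le z e
    gcongr
  have h3 : (n : ℝ) ^ n ≤ n.factorial * Real.exp n := by
    have := Real.pow_div_factorial_le_exp (n : ℝ) (Nat.cast_nonneg n) n
    rwa [div_le_iff₀ (by positivity), mul_comm] at this
  have h4 : (∏ e, √(dfCnt z e / n) ^ dfCnt z e) ^ 2 * (n : ℝ) ^ n
      = ∏ e, (dfCnt z e : ℝ) ^ dfCnt z e := by
    conv_lhs => rw [show (n : ℝ) ^ n = (n : ℝ) ^ ∑ e, dfCnt z e by rw [df_sum_cnt]]
    rw [← prod_pow_eq_pow_sum, ← prod_pow, ← prod_mul_distrib]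
    refine prod_congr rfl fun e _ => ?_
    rw [← pow_mul, mul_comm (dfCnt z e), pow_mul, Real.sq_sqrt (by positivity), ← mul_pow]
    rcases Nat.eq_zero_or_pos (dfCnt z e) with h | h
    · simp [h]
    · have : (n : ℝ) ≠ 0 := by
        have := df_cnt_le z e
        exact_mod_cast (show n ≠ 0 by omega)
      rw [div_mul_cancel₀ _ this]
  have h5 : (0 : ℝ) < (n : ℝ) ^ n := by
    rcases Nat.eq_zero_or_pos n with h | h
    · simp [h]
    · positivity
  refine le_of_mul_le_mul_right ?_ h5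
  calc 1 * (n : ℝ) ^ n ≤ (∏ e, ((dfCnt z e).factorial : ℝ)) * N * Real.exp n := by
        rw [one_mul]; exact h3.trans (by gcongr)
    _ = (∏ e, ((dfCnt z e).factorial : ℝ)) * Real.exp n * N := by ring
    _ ≤ ((((n : ℝ) + 1) ^ Fintype.card E) ^ 2 * ∏ e, (dfCnt z e : ℝ) ^ dfCnt z e) * N := by gcongr
    _ = _ := by rw [← h4]; ring

lemma df_card_types (S : Finset (ι → E)) :
    #(S.image dfCnt) ≤ (Fintype.card ι + 1) ^ Fintype.card E := by
  have : S.image dfCnt ⊆ Fintype.piFinset fun _ : E => range (Fintype.card ι + 1) := by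
    intro τ hτ
    obtain ⟨z, -, rfl⟩ := mem_image.1 hτ
    simpa [Nat.lt_succ_iff] using df_cnt_le z
  simpa using card_le_card this

lemma df_phase (n : ℕ) (σ τ : E → ℕ) (hσ : ∀ e, σ e ≤ n) (hτ : ∀ e, τ e ≤ n) :
    ∑ θ : E → ZMod (n + 1), (∏ e, ZMod.stdAddChar (-(θ e * (τ e : ZMod (n + 1))))) *
      ∏ e, ZMod.stdAddChar (θ e) ^ σ e
      = if σ = τ then ((n + 1 : ℂ)) ^ Fintype.card E else 0 := by
  have e1 : ∀ θ : E → ZMod (n + 1), (∏ e, ZMod.stdAddChar (-(θ e * (τ e : ZMod (n + 1))))) *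
      ∏ e, ZMod.stdAddChar (θ e) ^ σ e
      = ∏ e, ZMod.stdAddChar (θ e * ((σ e : ZMod (n + 1)) - (τ e : ZMod (n + 1)))) := by
    intro θ
    rw [← prod_mul_distrib]
    refine prod_congr rfl fun e _ => ?_
    rw [← AddChar.map_nsmul_eq_pow, ← AddChar.map_add_eq_mul]
    congr 1
    rw [nsmul_eq_mul]; ring
  simp_rw [e1]
  rw [← Fintype.piFinset_univ, ← prod_univ_sum (fun _ => univ)
    fun e (t : ZMod (n + 1)) => ZMod.stdAddChar (t * ((σ e : ZMod (n + 1)) - (τ e : ZMod (n + 1))))]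
  simp_rw [AddChar.sum_mulShift _ (ZMod.isPrimitive_stdAddChar (n + 1)), sub_eq_zero]
  have e2 : ∀ e, ((σ e : ZMod (n + 1)) = (τ e : ZMod (n + 1))) ↔ σ e = τ e := fun e => by
    rw [ZMod.natCast_eq_natCast_iff', Nat.mod_eq_of_lt (Nat.lt_succ_of_le (hσ e)),
      Nat.mod_eq_of_lt (Nat.lt_succ_of_le (hτ e))]
  simp_rw [e2]
  split_ifs with h
  · simp [h]
  · obtain ⟨e, he⟩ := Function.ne_iff.1 h
    exact prod_eq_zero (mem_univ e) (by simp [he])

end types

lemma df_trace_star_mul {X : Type} [Fintype X] (F : Matrix X X ℂ) :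
    (star F * F).trace = ((∑ e : X × X, ‖F e.1 e.2‖ ^ 2 : ℝ) : ℂ) := by
  rw [Fintype.sum_prod_type, sum_comm]
  simp [Matrix.trace, Matrix.mul_apply, Complex.conj_mul']

lemma df_sqrt_smul_kron {X : Type} [Fintype X] [DecidableEq X] (c : ℂ) (F : Matrix X X ℂ) :
    CFC.sqrt (star (c • kron fun _ : ι => F) * (c • kron fun _ : ι => F))
      = ((‖c‖ : ℝ) : ℂ) • kron fun _ : ι => CFC.sqrt (star F * F) := by
  refine CFC.sqrt_unique ?_ (smul_nonneg (by positivity) (kron_nonneg fun _ => CFC.sqrt_nonneg _))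
  rw [star_smul, smul_mul_smul_comm, smul_mul_smul_comm, star_kron, kron_mul, kron_mul,
    CFC.sqrt_mul_sqrt_self _ (star_mul_self_nonneg F)]
  congr 1
  rw [Complex.star_def, Complex.conj_mul', sq]

/-- A permutation invariant Hermitian block matrix of Hilbert-Schmidt norm at most one is
dominated by a mixture of tensor powers. -/
theorem deFinetti_aux (hq : 1 ≤ q) {R : Matrix (ι → Col q) (ι → Col q) ℂ} (hR : star R = R)
    (hb : IsBlock R) (hc : ∀ g : Perm ι, permM (Col q) g * R = R * permM (Col q) g)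
    (ht : (R * R).trace ≤ 1) :
    ∃ (J : Type) (_ : Fintype J) (_ : DecidableEq J) (w : J → ℝ)
      (A : J → Matrix (Col q) (Col q) ℂ),
      (∀ j, 0 ≤ w j) ∧ ∑ j, w j ≤ ((Fintype.card ι : ℝ) + 1) ^ (18 * q ^ 2) ∧
      (∀ j, 0 ≤ A j ∧ IsEven (A j) ∧ (A j * A j).trace ≤ 1) ∧
      R ≤ ∑ j, (w j : ℂ) • kron fun _ : ι => A j := by
  classical
  set n := Fintype.card ι with hn
  set M : ℝ := ((n : ℝ) + 1) ^ Fintype.card (Col q × Col q) with hM
  have hM0 : 0 < M := by positivity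
  let ψ : (ι → Col q × Col q) → ℂ := fun z => R (fun i => (z i).1) (fun i => (z i).2)
  have hψ : ∀ z z', dfCnt z = dfCnt z' → ψ z = ψ z' := by
    intro z z' h
    obtain ⟨g, hg, -⟩ := zii_exists_perm z z' (congrFun h) (fun _ => False) (fun _ h => h.elim)
    rw [← hg]
    exact (zii_apply_comp (hc g) _ _).symm
  have hψ2 : ∑ z, ‖ψ z‖ ^ 2 ≤ 1 := by
    have h1 := df_trace_star_mul R
    rw [hR] at h1
    rw [h1] at ht
    have h2 : ∑ e : (ι → Col q) × (ι → Col q), ‖R e.1 e.2‖ ^ 2 ≤ 1 := by exact_mod_cast ht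
    refine le_trans (le_of_eq ?_) h2
    exact Fintype.sum_equiv (Equiv.arrowProdEquivProdArrow ι (fun _ => Col q) fun _ => Col q) _ _
      fun z => rfl
  let T := (univ.filter fun z => ψ z ≠ 0).image dfCnt
  have hT : ∀ τ : T, ∃ z, ψ z ≠ 0 ∧ dfCnt z = τ := fun τ => by
    obtain ⟨z, h1, h2⟩ := mem_image.1 τ.2
    exact ⟨z, (mem_filter.1 h1).2, h2⟩
  choose z hz hz' using hT
  let a : T → Col q × Col q → ℝ := fun τ e => √(dfCnt (z τ) e / n)
  let P : T → ℝ := fun τ => ∏ e, a τ e ^ dfCnt (z τ) e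
  have hP0 : ∀ τ, 0 ≤ P τ := fun τ => prod_nonneg fun e _ => by positivity
  have hPM : ∀ τ, 1 ≤ M ^ 2 * (#{z' : ι → Col q × Col q | dfCnt z' = dfCnt (z τ)} * P τ ^ 2) :=
    fun τ => df_types (z τ)
  have hP : ∀ τ, 0 < P τ := fun τ => (hP0 τ).lt_of_ne fun h => by
    have := hPM τ
    rw [← h] at this
    norm_num at this
  have hψP : ∀ τ, ‖ψ (z τ)‖ ≤ M * P τ := by
    intro τ
    have h1 : (#{z' : ι → Col q × Col q | dfCnt z' = dfCnt (z τ)} : ℝ) * ‖ψ (z τ)‖ ^ 2 ≤ 1 := by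
      refine le_trans ?_ hψ2
      rw [← nsmul_eq_mul, ← sum_const, sum_congr rfl fun z' hz' =>
        (show ‖ψ (z τ)‖ ^ 2 = ‖ψ z'‖ ^ 2 by rw [hψ _ _ (mem_filter.1 hz').2])]
      exact sum_le_sum_of_subset_of_nonneg (subset_univ _) fun _ _ _ => by positivity
    refine (pow_le_pow_iff_left₀ (norm_nonneg _) (mul_nonneg hM0.le (hP0 τ)) two_ne_zero).1 ?_
    have h2 := mul_le_mul_of_nonneg_left (hPM τ) (sq_nonneg ‖ψ (z τ)‖)
    have h3 := mul_le_mul_of_nonneg_left h1 (sq_nonneg (M * P τ))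
    nlinarith
  let Θ := Col q × Col q → ZMod (n + 1)
  let F : T × Θ → Matrix (Col q) (Col q) ℂ := fun j => Matrix.of fun x y =>
    (a j.1 (x, y) : ℂ) * ZMod.stdAddChar (j.2 (x, y))
  let c : T × Θ → ℂ := fun j => ψ (z j.1) / (P j.1 * M) *
    ∏ e, ZMod.stdAddChar (-(j.2 e * (dfCnt (z j.1) e : ZMod (n + 1))))
  have hnorm : ∀ t : ZMod (n + 1), ‖ZMod.stdAddChar t‖ = 1 := fun t => by
    rw [ZMod.stdAddChar_apply, Circle.norm_coe]
  have hc1 : ∀ j, ‖c j‖ ≤ 1 := fun j => by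
    simp only [c]
    rw [norm_mul, norm_prod, prod_congr rfl fun e _ => hnorm _, prod_const_one, mul_one, norm_div,
      ← Complex.ofReal_mul, Complex.norm_real, Real.norm_of_nonneg (mul_nonneg (hP0 _) hM0.le),
      div_le_one (mul_pos (hP _) hM0)]
    have h1 : 1 ≤ M := one_le_pow₀ (by linarith [Nat.cast_nonneg (α := ℝ) n])
    linarith [hψP j.1]
  have hFe : ∀ j, IsEven (F j) := by
    intro j x y hxy
    have : dfCnt (z j.1) (x, y) = 0 := by
      rw [dfCnt, card_eq_zero, filter_eq_empty_iff]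
      intro i _ hi
      refine hz j.1 (hb _ _ fun h => hxy ?_)
      have := congrFun h i
      simpa [patOf, hi] using this
    simp [F, a, this]
  have hFt : ∀ j, (star (F j) * F j).trace ≤ 1 := by
    intro j
    rw [df_trace_star_mul]
    have : ∑ e : Col q × Col q, ‖F j e.1 e.2‖ ^ 2 ≤ 1 := by
      have h1 : ∀ e : Col q × Col q, ‖F j e.1 e.2‖ ^ 2 = dfCnt (z j.1) e / n := fun e => by
        simp only [F, a, Matrix.of_apply]
        rw [norm_mul, hnorm, mul_one, Complex.norm_real, Real.norm_eq_abs, sq_abs,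
          Real.sq_sqrt (by positivity)]
      simp_rw [h1]
      rw [← sum_div, ← Nat.cast_sum, df_sum_cnt]
      exact div_self_le_one _
    exact_mod_cast this
  have hRe : R = ∑ j, c j • kron fun _ : ι => F j := by
    ext x y
    let u : ι → Col q × Col q := fun i => (x i, y i)
    have e0 : R x y = ψ u := rfl
    have e1 : ∀ j : T × Θ, (c j • kron fun _ : ι => F j) x y
        = ψ (z j.1) / (P j.1 * M) * (∏ e, (a j.1 e : ℂ) ^ dfCnt u e) *
          ((∏ e, ZMod.stdAddChar (-(j.2 e * (dfCnt (z j.1) e : ZMod (n + 1))))) *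
            ∏ e, ZMod.stdAddChar (j.2 e) ^ dfCnt u e) := by
      intro j
      rw [Matrix.smul_apply, kron_apply, smul_eq_mul]
      have := df_prod_cnt u fun e => (a j.1 e : ℂ) * ZMod.stdAddChar (j.2 e)
      simp only [F, Matrix.of_apply, c]
      rw [this]
      simp only [mul_pow, prod_mul_distrib]
      ring
    have e2 : ∀ τ : T, ∑ θ : Θ, (c (τ, θ) • kron fun _ : ι => F (τ, θ)) x y
        = if dfCnt u = τ then ψ u else 0 := by
      intro τ
      simp_rw [e1]
      rw [← mul_sum, df_phase n _ _ (df_cnt_le u) (df_cnt_le (z τ)), hz']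
      split_ifs with h
      · have h' : dfCnt u = dfCnt (z τ) := h.trans (hz' τ).symm
        have h1 : (∏ e, (a τ e : ℂ) ^ dfCnt u e) = P τ := by
          rw [h']; simp only [P]; push_cast; rfl
        have h2 : ((n + 1 : ℂ)) ^ Fintype.card (Col q × Col q) = M := by
          rw [hM]; push_cast; rfl
        have h3 : (P τ : ℂ) ≠ 0 := by exact_mod_cast (hP τ).ne'
        have h4 : (M : ℂ) ≠ 0 := by exact_mod_cast hM0.ne'
        rw [h1, h2, hψ u _ h']
        field_simp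
      · rw [mul_zero]
    rw [Matrix.sum_apply, Fintype.sum_prod_type, sum_congr rfl fun τ _ => e2 τ, e0,
      sum_coe_sort T fun τ => if dfCnt u = τ then ψ u else 0, sum_ite_eq]
    split_ifs with h
    · rfl
    · by_contra h0
      exact h (mem_image.2 ⟨u, mem_filter.2 ⟨mem_univ _, h0⟩, rfl⟩)
  refine ⟨(T × Θ) × Bool, inferInstance, inferInstance, fun j => ‖c j.1‖ / 2,
    fun j => CFC.sqrt (if j.2 then star (F j.1) * F j.1 else F j.1 * star (F j.1)),
    fun j => by positivity, ?_, fun j => ⟨CFC.sqrt_nonneg _, ?_, ?_⟩, ?_⟩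
  · have h1 : ∑ j : (T × Θ) × Bool, ‖c j.1‖ / 2 ≤ ∑ _j : (T × Θ) × Bool, (1 / 2 : ℝ) :=
      sum_le_sum fun j _ => by linarith [hc1 j.1]
    refine h1.trans ?_
    rw [sum_const, card_univ, Fintype.card_prod, Fintype.card_prod, Fintype.card_bool,
      Fintype.card_coe, Fintype.card_fun, ZMod.card, nsmul_eq_mul]
    have h2 : (#T : ℝ) ≤ M := by rw [hM]; exact_mod_cast df_card_types _
    have h3 : M * M ≤ ((n : ℝ) + 1) ^ (18 * q ^ 2) := by
      rw [hM, ← pow_add]
      exact pow_le_pow_right₀ (by linarith [Nat.cast_nonneg (α := ℝ) n])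
        (by linarith [zii_card_col_le hq])
    push_cast
    rw [← hM]
    nlinarith
  · beta_reduce
    split_ifs
    · exact ((hFe _).star'.mul (hFe _)).sqrt
    · exact ((hFe _).mul (hFe _).star').sqrt
  · beta_reduce
    split_ifs
    · rw [CFC.sqrt_mul_sqrt_self _ (star_mul_self_nonneg _)]
      exact hFt _
    · rw [CFC.sqrt_mul_sqrt_self _ (mul_star_self_nonneg _), Matrix.trace_mul_comm]
      exact hFt _
  · have h1 : R = ∑ j, (1 / 2 : ℂ) • ((c j • kron fun _ : ι => F j)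
        + star (c j • kron fun _ : ι => F j)) := by
      rw [← smul_sum, sum_add_distrib, ← star_sum, ← hRe, hR, ← two_smul ℂ R, smul_smul]
      norm_num
    rw [Fintype.sum_prod_type]
    conv_lhs => rw [h1]
    refine sum_le_sum fun j _ => ?_
    have h2 := add_star_le_sqrt_add_sqrt (c j • kron fun _ : ι => F j)
    have h3 := df_sqrt_smul_kron (ι := ι) (star (c j)) (star (F j))
    rw [← star_kron, ← star_smul, star_star, star_star, norm_star] at h3
    rw [df_sqrt_smul_kron, h3] at h2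
    refine (smul_le_smul_of_nonneg_left h2 (show (0 : ℂ) ≤ 1 / 2 by positivity)).trans
      (le_of_eq ?_)
    rw [Fintype.sum_bool, smul_add, smul_smul, smul_smul]
    simp only [if_true, Bool.false_eq_true, if_false]
    push_cast
    congr 2 <;> ring

theorem deFinetti (hq : 1 ≤ q) :
    ∃ (J : Type) (_ : Fintype J) (_ : DecidableEq J) (w : J → ℝ)
      (A : J → Matrix (Col q) (Col q) ℂ),
      (∀ j, 0 ≤ w j) ∧ ∑ j, w j ≤ ((Fintype.card ι : ℝ) + 1) ^ (30 * q ^ 2) ∧
      (∀ j, 0 ≤ A j ∧ IsEven (A j) ∧ (A j * A j).trace ≤ 1) ∧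
      Zp ι q (-(1 / 2)) ≤ ∑ j, (w j : ℂ) • kron fun _ : ι => A j := by
  set N : ℝ := (Fintype.card ι : ℝ) + 1 with hN
  have hN1 : 1 ≤ N := by rw [hN]; linarith [Nat.cast_nonneg (α := ℝ) (Fintype.card ι)]
  set s : ℝ := N ^ (6 * q ^ 2) with hs
  have hs0 : 0 < s := by positivity
  have hsc : (s : ℂ) ≠ 0 := by exact_mod_cast hs0.ne'
  have hZ : star (Zp ι q (-(1 / 2))) = Zp ι q (-(1 / 2)) := (Zp_nonneg _).isSelfAdjoint
  obtain ⟨J, _, _, w, A, h1, h2, h3, h4⟩ := deFinetti_aux (ι := ι) hq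
    (R := ((s⁻¹ : ℝ) : ℂ) • Zp ι q (-(1 / 2))) (by rw [star_smul, hZ]; simp)
    (fun c c' h => by rw [Matrix.smul_apply, Zp, isBlock_Mop _ c c' h, smul_zero])
    (fun g => by rw [mul_smul_comm, smul_mul_assoc, Zp, permM_mul_Mop (inv_dtil_rpow _)]) (by
      rw [smul_mul_smul_comm, Zp_mul, show (-(1 / 2) + -(1 / 2) : ℝ) = -1 by norm_num,
        Matrix.trace_smul]
      have h0 := (Matrix.nonneg_iff_posSemidef.1 (Zp_nonneg (ι := ι) (q := q) (-1))).trace_nonneg
      obtain ⟨h5, h6⟩ := Complex.nonneg_iff.1 h0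
      have h7 : (Zp ι q (-1)).trace = ((Zp ι q (-1)).trace.re : ℂ) :=
        Complex.ext rfl (by simp [← h6])
      have h8 := trace_Zp_neg_one_le (ι := ι) hq
      rw [show 12 * q ^ 2 = 6 * q ^ 2 + 6 * q ^ 2 by ring, pow_add, ← hN, ← hs] at h8
      rw [h7, smul_eq_mul]
      have h9 : s⁻¹ * s⁻¹ * (Zp ι q (-1)).trace.re ≤ 1 := by
        rw [← mul_inv, inv_mul_le_iff₀ (by positivity), mul_one]
        exact h8
      exact_mod_cast h9)
  refine ⟨J, inferInstance, inferInstance, fun j => s * w j, A, fun j => mul_nonneg hs0.le (h1 j),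
    ?_, h3, ?_⟩
  · rw [← mul_sum]
    refine (mul_le_mul_of_nonneg_left h2 hs0.le).trans ?_
    rw [hs, ← pow_add]
    exact pow_le_pow_right₀ hN1 (by nlinarith)
  · have h5 := smul_le_smul_of_nonneg_left h4 (show (0 : ℂ) ≤ (s : ℂ) by exact_mod_cast hs0.le)
    rw [smul_smul, Complex.ofReal_inv, mul_inv_cancel₀ hsc, one_smul, smul_sum] at h5
    simpa only [smul_smul, Complex.ofReal_mul] using h5

end Crest.Agent.R155
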