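import Mathlib

/-!
# Asymptotic inequalities for the final estimates
-/

namespace Crest.Agent.R155

open Filter Topology

/-- The fourth root of the dimension. -/
def finY (d : ℕ) : ℕ := Nat.sqrt (Nat.sqrt d)

theorem finY_le (d : ℕ) : finY d ^ 4 ≤ d := by
  have h1 := Nat.sqrt_le' (Nat.sqrt d)
  have h2 := Nat.sqrt_le' d
  calc finY d ^ 4 = (Nat.sqrt (Nat.sqrt d) ^ 2) ^ 2 := by rw [finY]; ring
    _ ≤ Nat.sqrt d ^ 2 := Nat.pow_le_pow_left h1 2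
    _ ≤ d := h2

theorem finY_lt (d : ℕ) : d + 1 ≤ (finY d + 1) ^ 4 := by
  have h1 : Nat.sqrt d + 1 ≤ (Nat.sqrt (Nat.sqrt d) + 1) ^ 2 := Nat.lt_succ_sqrt' (Nat.sqrt d)
  have h2 : d + 1 ≤ (Nat.sqrt d + 1) ^ 2 := Nat.lt_succ_sqrt' d
  calc d + 1 ≤ (Nat.sqrt d + 1) ^ 2 := h2
    _ ≤ ((Nat.sqrt (Nat.sqrt d) + 1) ^ 2) ^ 2 := Nat.pow_le_pow_left h1 2
    _ = (finY d + 1) ^ 4 := by rw [finY]; ring

theorem finY_tendsto : Tendsto finY atTop atTop := by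
  refine tendsto_atTop.2 fun Y => eventually_atTop.2 ⟨(Y ^ 2) ^ 2, fun d hd => ?_⟩
  exact Nat.le_sqrt'.2 (Nat.le_sqrt'.2 hd)

theorem fin_ev_pow (A : ℝ) (m : ℕ) : ∀ᶠ y : ℕ in atTop, A * ((y : ℝ) + 1) ^ m ≤ 2 ^ y := by
  have h := tendsto_pow_const_div_const_pow_of_one_lt m (r := 2) one_lt_two
  have h1 := (h.comp (tendsto_add_atTop_nat 1)).const_mul (2 * A)
  rw [mul_zero] at h1
  filter_upwards [h1.eventually (gt_mem_nhds one_pos)] with y hy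
  simp only [Function.comp, Nat.cast_add, Nat.cast_one] at hy
  have h2 : (0 : ℝ) < 2 ^ y := by positivity
  rw [pow_succ, ← mul_div_assoc, div_lt_one (by positivity)] at hy
  nlinarith

theorem fin_ev_poly (A : ℝ) (hA : 0 ≤ A) (m : ℕ) :
    ∀ᶠ d : ℕ in atTop, A * ((d : ℝ) + 1) ^ m ≤ 2 ^ finY d := by
  filter_upwards [finY_tendsto.eventually (fin_ev_pow A (4 * m))] with d hd
  refine le_trans ?_ hd
  have h : ((d : ℝ) + 1) ≤ ((finY d : ℝ) + 1) ^ 4 := by exact_mod_cast finY_lt d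
  rw [pow_mul]
  gcongr

theorem fin_ev_sq (A : ℕ) : ∀ᶠ d : ℕ in atTop, A * (finY d + 1) ^ 2 ≤ d := by
  filter_upwards [finY_tendsto.eventually (eventually_ge_atTop (4 * A + 1))] with d hd
  refine le_trans ?_ (finY_le d)
  set y := finY d
  have h1 : (y + 1) ^ 2 ≤ 4 * y ^ 2 := by nlinarith
  have h2 : 4 * A ≤ y ^ 2 := by nlinarith
  calc A * (y + 1) ^ 2 ≤ A * (4 * y ^ 2) := Nat.mul_le_mul_left _ h1
    _ = (4 * A) * y ^ 2 := by ring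
    _ ≤ y ^ 2 * y ^ 2 := Nat.mul_le_mul_right _ h2
    _ = y ^ 4 := by ring

end Crest.Agent.R155
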