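import Mathlib

/-!
# Real-analysis bookkeeping for the two inductions
-/

namespace Crest.Agent.R155

open Finset

/-- number of colours at level `k` -/
noncomputable def indq (k : ℕ) : ℕ := ⌊(k : ℝ) ^ (49 / 100 : ℝ)⌋₊ + 1

/-- conversion parameter at level `k` -/
noncomputable def indt (k : ℕ) : ℕ := ⌈3 * (k : ℝ) ^ (51 / 100 : ℝ)⌉₊ + 1

theorem one_le_indq (k : ℕ) : 1 ≤ indq k := Nat.le_add_left _ _

theorem one_le_indt (k : ℕ) : 1 ≤ indt k := Nat.le_add_left _ _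

theorem le_indq (k : ℕ) : (k : ℝ) ^ (49 / 100 : ℝ) ≤ indq k := by
  unfold indq; push_cast; exact (Nat.lt_floor_add_one _).le

theorem indq_le (k : ℕ) : (indq k : ℝ) ≤ (k : ℝ) ^ (49 / 100 : ℝ) + 1 := by
  unfold indq; push_cast
  linarith [Nat.floor_le (Real.rpow_nonneg (Nat.cast_nonneg k) (49 / 100 : ℝ))]

theorem indq_le' {k : ℕ} (hk : 1 ≤ k) : (indq k : ℝ) ≤ 2 * (k : ℝ) ^ (49 / 100 : ℝ) := by
  have : (1 : ℝ) ≤ (k : ℝ) ^ (49 / 100 : ℝ) :=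
    Real.one_le_rpow (by exact_mod_cast hk) (by norm_num)
  linarith [indq_le k]

theorem le_indt (k : ℕ) : 3 * (k : ℝ) ^ (51 / 100 : ℝ) + 1 ≤ indt k := by
  unfold indt; push_cast
  linarith [Nat.le_ceil (3 * (k : ℝ) ^ (51 / 100 : ℝ))]

theorem indt_le {k : ℕ} (hk : 1 ≤ k) : (indt k : ℝ) ≤ 5 * (k : ℝ) ^ (51 / 100 : ℝ) := by
  have : (1 : ℝ) ≤ (k : ℝ) ^ (51 / 100 : ℝ) :=
    Real.one_le_rpow (by exact_mod_cast hk) (by norm_num)
  unfold indt; push_cast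
  linarith [Nat.ceil_lt_add_one (show 0 ≤ 3 * (k : ℝ) ^ (51 / 100 : ℝ) by positivity)]

theorem le_indq_mul_indt (k : ℕ) : k ≤ indq k * indt k := by
  have h1 : (k : ℝ) = (k : ℝ) ^ (49 / 100 : ℝ) * (k : ℝ) ^ (51 / 100 : ℝ) := by
    rw [← Real.rpow_add' (Nat.cast_nonneg k) (by norm_num)]; norm_num
  have h2 : (k : ℝ) ≤ indq k * indt k := by
    rw [h1]
    have h3 : 0 ≤ (k : ℝ) ^ (51 / 100 : ℝ) := by positivity
    exact mul_le_mul (le_indq k) (by linarith [le_indt k]) h3 (Nat.cast_nonneg _)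
  exact_mod_cast h2

theorem ind_cost_le (k : ℕ) :
    5 * (indt k : ℝ) * (k : ℝ) ^ (41 / 85 : ℝ) ≤ 25 * (k : ℝ) ^ (1687 / 1700 : ℝ) := by
  rcases Nat.eq_zero_or_pos k with rfl | hk
  · simp
  · have h1 : (k : ℝ) ^ (1687 / 1700 : ℝ) = (k : ℝ) ^ (51 / 100 : ℝ) * (k : ℝ) ^ (41 / 85 : ℝ) := by
      rw [← Real.rpow_add' (Nat.cast_nonneg k) (by norm_num)]; norm_num
    have h2 : 0 ≤ (k : ℝ) ^ (41 / 85 : ℝ) := by positivity
    rw [h1]
    nlinarith [indt_le hk]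

theorem indq_le_indt_of_le {k j : ℕ}
    (h : (k : ℝ) ^ (49 / 100 : ℝ) ≤ 3 * (j : ℝ) ^ (51 / 100 : ℝ)) : indq k ≤ indt j := by
  have : (indq k : ℝ) ≤ indt j := by linarith [indq_le k, le_indt j]
  exact_mod_cast this

theorem indq_le_indt_of_four {k m : ℕ} (hm : 1 ≤ m) (h : k ≤ 4 * m) : indq k ≤ indt m := by
  refine indq_le_indt_of_le ?_
  have hm' : (1 : ℝ) ≤ m := by exact_mod_cast hm
  have h1 : (k : ℝ) ≤ 4 * m := by exact_mod_cast h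
  have h2 : (4 : ℝ) ^ (49 / 100 : ℝ) ≤ 2 := by
    calc (4 : ℝ) ^ (49 / 100 : ℝ) ≤ (4 : ℝ) ^ (1 / 2 : ℝ) :=
          Real.rpow_le_rpow_of_exponent_le (by norm_num) (by norm_num)
      _ = 2 := by
          rw [show (4 : ℝ) = 2 ^ (2 : ℝ) by norm_num, ← Real.rpow_mul (by norm_num)]; norm_num
  have h3 : (m : ℝ) ^ (49 / 100 : ℝ) ≤ (m : ℝ) ^ (51 / 100 : ℝ) :=
    Real.rpow_le_rpow_of_exponent_le hm' (by norm_num)
  have h4 : 0 ≤ (m : ℝ) ^ (49 / 100 : ℝ) := by positivity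
  calc (k : ℝ) ^ (49 / 100 : ℝ) ≤ (4 * m : ℝ) ^ (49 / 100 : ℝ) :=
        Real.rpow_le_rpow (Nat.cast_nonneg _) h1 (by norm_num)
    _ = 4 ^ (49 / 100 : ℝ) * (m : ℝ) ^ (49 / 100 : ℝ) := Real.mul_rpow (by norm_num) (by positivity)
    _ ≤ _ := by nlinarith

theorem indq_le_indt_of_pow {k j : ℕ} (hk : 1 ≤ k) (h : (k : ℝ) ^ (98 / 100 : ℝ) ≤ j) :
    indq k ≤ indt j := by
  refine indq_le_indt_of_le ?_
  have hk' : (1 : ℝ) ≤ k := by exact_mod_cast hk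
  have h1 : ((k : ℝ) ^ (98 / 100 : ℝ)) ^ (51 / 100 : ℝ) ≤ (j : ℝ) ^ (51 / 100 : ℝ) :=
    Real.rpow_le_rpow (by positivity) h (by norm_num)
  rw [← Real.rpow_mul (by positivity)] at h1
  have h2 : (k : ℝ) ^ (49 / 100 : ℝ) ≤ (k : ℝ) ^ (98 / 100 * (51 / 100) : ℝ) :=
    Real.rpow_le_rpow_of_exponent_le hk' (by norm_num)
  have h3 : 0 ≤ (j : ℝ) ^ (51 / 100 : ℝ) := by positivity
  linarith

theorem ind_log_le {x : ℝ} (hx : 0 ≤ x) : Real.log x ≤ 100 * x ^ (1 / 100 : ℝ) := by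
  have := Real.log_le_rpow_div hx (show (0 : ℝ) < 1 / 100 by norm_num)
  linarith

theorem ind_log_succ_le {x : ℝ} (hx : 1 ≤ x) : Real.log (x + 1) ≤ 200 * x ^ (1 / 100 : ℝ) := by
  have h1 : Real.log (x + 1) ≤ Real.log (x ^ 2 + x ^ 2) :=
    Real.log_le_log (by linarith) (by nlinarith)
  have h0 : Real.log (x + 1) ≤ Real.log 2 + Real.log x := by
    rw [← Real.log_mul (by norm_num) (by linarith)]
    exact Real.log_le_log (by linarith) (by linarith)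
  have h2 := ind_log_le (show 0 ≤ x by linarith)
  have h3 : (1 : ℝ) ≤ x ^ (1 / 100 : ℝ) := Real.one_le_rpow hx (by norm_num)
  have h4 : Real.log 2 ≤ 1 := by
    have := Real.log_le_sub_one_of_pos (show (0 : ℝ) < 2 by norm_num)
    linarith
  linarith

theorem indq_sq_le {k : ℕ} (hk : 1 ≤ k) : (indq k : ℝ) ^ 2 ≤ 4 * (k : ℝ) ^ (98 / 100 : ℝ) := by
  have h1 : (k : ℝ) ^ (98 / 100 : ℝ) = (k : ℝ) ^ (49 / 100 : ℝ) * (k : ℝ) ^ (49 / 100 : ℝ) := by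
    rw [← Real.rpow_add' (Nat.cast_nonneg k) (by norm_num)]; norm_num
  have h2 := indq_le' hk
  have h3 : (0 : ℝ) ≤ indq k := Nat.cast_nonneg _
  rw [h1]
  nlinarith

theorem ind_pow_eq_exp {x : ℝ} (hx : 0 < x) (n : ℕ) : x ^ n = Real.exp (n * Real.log x) := by
  rw [Real.exp_nat_mul, Real.exp_log hx]

theorem ind_two_term {x y : ℝ} (hx : 0 ≤ x) (hy : 0 ≤ y) (a b : ℕ) :
    x ^ a / a.factorial * (y ^ b / b.factorial) ≤ (x + y) ^ (a + b) / (a + b).factorial := by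
  have h1 : x ^ a * y ^ b * ((a + b).choose a : ℝ) ≤ (x + y) ^ (a + b) := by
    rw [add_pow]
    have := Finset.single_le_sum (f := fun m => x ^ m * y ^ (a + b - m) * ((a + b).choose m : ℝ))
      (fun m _ => by positivity) (Finset.mem_range.2 (show a < a + b + 1 by omega))
    simpa using this
  have h2 : ((a + b).choose a : ℝ) * a.factorial * b.factorial = (a + b).factorial := by
    have := Nat.add_choose_mul_factorial_mul_factorial a b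
    rw [← Nat.choose_symm_add] at this
    exact_mod_cast this
  rw [div_mul_div_comm, div_le_div_iff₀ (by positivity) (by positivity), ← h2]
  have h3 : (0 : ℝ) ≤ a.factorial * b.factorial := by positivity
  nlinarith

theorem ind_prod_le {α : Type*} [DecidableEq α] (s : Finset α) (k : α → ℕ) {x : ℝ} (hx : 0 ≤ x) :
    ∏ i ∈ s, x ^ k i / (k i).factorial
      ≤ (s.card * x) ^ (∑ i ∈ s, k i) / (∑ i ∈ s, k i).factorial := by
  induction s using Finset.induction_on with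
  | empty => simp
  | insert a s ha ih =>
    rw [prod_insert ha, sum_insert ha, card_insert_of_notMem ha]
    refine (mul_le_mul_of_nonneg_left ih (by positivity)).trans ?_
    have := ind_two_term hx (show 0 ≤ s.card * x by positivity) (k a) (∑ i ∈ s, k i)
    push_cast
    rwa [show x + s.card * x = (s.card + 1) * x by ring] at this

theorem ind_pow_div_mono {x : ℝ} {s k : ℕ} (hs : s ≤ k) (hk : (k : ℝ) ≤ x) :
    x ^ s / s.factorial ≤ x ^ k / k.factorial := by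
  induction k, hs using Nat.le_induction with
  | base => exact le_rfl
  | succ k hsk ih =>
    have hk' : (k : ℝ) + 1 ≤ x := by exact_mod_cast hk
    have hk0 : (0 : ℝ) ≤ k := Nat.cast_nonneg _
    refine (ih (by linarith)).trans ?_
    rw [Nat.factorial_succ, pow_succ, div_le_div_iff₀ (by positivity) (by positivity)]
    push_cast
    have h1 : 0 ≤ x ^ k * (k.factorial : ℝ) := by
      have : 0 ≤ x := by linarith
      positivity
    nlinarith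

theorem ind_one_le_pow_div {x : ℝ} {k : ℕ} (hk : (k : ℝ) ≤ x) : 1 ≤ x ^ k / k.factorial := by
  simpa using ind_pow_div_mono (Nat.zero_le k) hk

theorem ind_triv_le {n k : ℕ} (hn : 1 ≤ n) (h : k ^ 8 ≤ n) :
    (n : ℝ) ^ (17 / 16 * k : ℝ) ≤ ((n : ℝ) ^ k / k.factorial) ^ (5 / 4 : ℝ) := by
  have hn' : (1 : ℝ) ≤ n := by exact_mod_cast hn
  have h1 : (k : ℝ) ≤ (n : ℝ) ^ (1 / 8 : ℝ) := by
    have h2 : ((k : ℝ) ^ 8) ^ (1 / 8 : ℝ) ≤ (n : ℝ) ^ (1 / 8 : ℝ) :=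
      Real.rpow_le_rpow (by positivity) (by exact_mod_cast h) (by norm_num)
    rwa [← Real.rpow_natCast, ← Real.rpow_mul (by positivity), show ((8 : ℕ) : ℝ) * (1 / 8) = 1 by
      norm_num, Real.rpow_one] at h2
  have h3 : (k.factorial : ℝ) ≤ (n : ℝ) ^ (1 / 8 * k : ℝ) := by
    calc (k.factorial : ℝ) ≤ (k : ℝ) ^ k := by exact_mod_cast Nat.factorial_le_pow k
      _ ≤ ((n : ℝ) ^ (1 / 8 : ℝ)) ^ k := pow_le_pow_left₀ (by positivity) h1 k
      _ = _ := by rw [← Real.rpow_natCast, ← Real.rpow_mul (by positivity)]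
  have h4 : (n : ℝ) ^ (7 / 8 * k : ℝ) ≤ (n : ℝ) ^ k / k.factorial := by
    rw [le_div_iff₀ (by positivity)]
    calc _ ≤ (n : ℝ) ^ (7 / 8 * k : ℝ) * (n : ℝ) ^ (1 / 8 * k : ℝ) :=
          mul_le_mul_of_nonneg_left h3 (by positivity)
      _ = _ := by
          rw [← Real.rpow_add (by linarith), ← Real.rpow_natCast]; congr 1; ring
  calc (n : ℝ) ^ (17 / 16 * k : ℝ) ≤ (n : ℝ) ^ (7 / 8 * k * (5 / 4) : ℝ) :=
        Real.rpow_le_rpow_of_exponent_le hn' (by linarith [Nat.cast_nonneg (α := ℝ) k])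
    _ = ((n : ℝ) ^ (7 / 8 * k : ℝ)) ^ (5 / 4 : ℝ) := Real.rpow_mul (by positivity) _ _
    _ ≤ _ := Real.rpow_le_rpow (by positivity) h4 (by norm_num)

theorem ind_rpow_mul {x : ℝ} (hx : 0 < x) {a b c : ℝ} (h : a + b = c) : x ^ a * x ^ b = x ^ c := by
  rw [← Real.rpow_add hx, h]

/-- the step inequality of the second induction -/
theorem indB_step {m : ℕ} (hm : 1 ≤ m) {C : ℝ}
    (hC : 200000 ≤ C * (1 - (4 : ℝ) ^ (-(1 / 200) : ℝ))) :
    ((200 * indq (4 * m) ^ 2 : ℕ) : ℝ) * Real.log (4 * m + 1) + 4 * (25 * (m : ℝ) ^ (1687 / 1700 : ℝ))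
      ≤ C * (4 * m) * ((m : ℝ) ^ (-(1 / 200) : ℝ) - (4 * m : ℝ) ^ (-(1 / 200) : ℝ)) := by
  have hm' : (1 : ℝ) ≤ m := by exact_mod_cast hm
  have h1 := indq_sq_le (show 1 ≤ 4 * m by omega)
  have h2 := ind_log_succ_le (show (1 : ℝ) ≤ 4 * m by linarith)
  have h3 : 0 ≤ Real.log (4 * m + 1 : ℝ) := Real.log_nonneg (by linarith)
  push_cast at h1 ⊢
  have h4 := mul_le_mul h1 h2 h3 (by positivity)
  have h5 : (4 * m : ℝ) ^ (98 / 100 : ℝ) * (4 * m : ℝ) ^ (1 / 100 : ℝ)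
      = (4 * m : ℝ) ^ (99 / 100 : ℝ) := ind_rpow_mul (by linarith) (by norm_num)
  have h6 : (4 * m : ℝ) ^ (99 / 100 : ℝ) ≤ 4 * (m : ℝ) ^ (199 / 200 : ℝ) := by
    rw [Real.mul_rpow (by norm_num) (by linarith)]
    refine mul_le_mul ?_ (Real.rpow_le_rpow_of_exponent_le hm' (by norm_num)) (by positivity)
      (by norm_num)
    calc (4 : ℝ) ^ (99 / 100 : ℝ) ≤ 4 ^ (1 : ℝ) :=
          Real.rpow_le_rpow_of_exponent_le (by norm_num) (by norm_num)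
      _ = 4 := Real.rpow_one _
  have h7 : (m : ℝ) ^ (1687 / 1700 : ℝ) ≤ (m : ℝ) ^ (199 / 200 : ℝ) :=
    Real.rpow_le_rpow_of_exponent_le hm' (by norm_num)
  have h8 : (m : ℝ) * (m : ℝ) ^ (-(1 / 200) : ℝ) = (m : ℝ) ^ (199 / 200 : ℝ) := by
    conv_lhs => enter [1]; rw [← Real.rpow_one (m : ℝ)]
    exact ind_rpow_mul (by linarith) (by norm_num)
  have h9 : C * (4 * m) * ((m : ℝ) ^ (-(1 / 200) : ℝ) - (4 * m : ℝ) ^ (-(1 / 200) : ℝ))
      = 4 * (C * (1 - (4 : ℝ) ^ (-(1 / 200) : ℝ))) * (m : ℝ) ^ (199 / 200 : ℝ) := by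
    rw [Real.mul_rpow (by norm_num) (by linarith), ← h8]; ring
  have h10 : 0 ≤ (m : ℝ) ^ (199 / 200 : ℝ) := by positivity
  rw [h9]
  nlinarith [mul_le_mul_of_nonneg_right hC h10]

/-- the base inequality of the second induction -/
theorem indB_base {m : ℕ} (hm : 1 ≤ m) {C : ℝ} (hC : 801 ≤ C) :
    ((2 * indq m : ℕ) : ℝ) * Real.log (m + 1) + (m : ℝ) ^ (1 / 8 : ℝ)
      ≤ C * m * (m : ℝ) ^ (-(1 / 200) : ℝ) := by
  have hm' : (1 : ℝ) ≤ m := by exact_mod_cast hm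
  have h1 := indq_le' hm
  have h2 := ind_log_succ_le hm'
  have h3 : 0 ≤ Real.log (m + 1 : ℝ) := Real.log_nonneg (by linarith)
  have h4 := mul_le_mul h1 h2 h3 (by positivity)
  have h5 : (m : ℝ) ^ (49 / 100 : ℝ) * (m : ℝ) ^ (1 / 100 : ℝ)
      = (m : ℝ) ^ (50 / 100 : ℝ) := ind_rpow_mul (by linarith) (by norm_num)
  have h6 : (m : ℝ) ^ (50 / 100 : ℝ) ≤ (m : ℝ) ^ (199 / 200 : ℝ) :=
    Real.rpow_le_rpow_of_exponent_le hm' (by norm_num)
  have h7 : (m : ℝ) ^ (1 / 8 : ℝ) ≤ (m : ℝ) ^ (199 / 200 : ℝ) :=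
    Real.rpow_le_rpow_of_exponent_le hm' (by norm_num)
  have h8 : (m : ℝ) * (m : ℝ) ^ (-(1 / 200) : ℝ) = (m : ℝ) ^ (199 / 200 : ℝ) := by
    conv_lhs => enter [1]; rw [← Real.rpow_one (m : ℝ)]
    exact ind_rpow_mul (by linarith) (by norm_num)
  have h10 : 0 ≤ (m : ℝ) ^ (199 / 200 : ℝ) := by positivity
  push_cast
  rw [mul_assoc C, h8]
  nlinarith [mul_le_mul_of_nonneg_right hC h10]

/-- the step inequality of the first induction -/
theorem indA_step {m k K : ℕ} (hm : 1 ≤ m) (hk : 4 * m < k ^ 8) {C : ℝ}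
    (hC : 1296200 ≤ C * ((4 : ℝ) ^ (1 / 2000 : ℝ) - 1))
    (hk0 : 32 ≤ ((4 : ℝ) ^ (1 / 2000 : ℝ) - 1) * (k : ℝ) ^ (16 / 1000 : ℝ))
    (hC0 : 0 ≤ C) (hK : (K : ℝ) ≤ (k : ℝ) ^ (98 / 100 : ℝ) + 1) :
    ((200 * indq k ^ 2 : ℕ) : ℝ) * Real.log (4 * m + 1)
      + 4 * (25 * (k : ℝ) ^ (1687 / 1700 : ℝ) + (5 / 4 * K * Real.log m + 2 * C * K))
      ≤ C * k * ((m : ℝ) ^ (-(1 / 2000) : ℝ) - (4 * m : ℝ) ^ (-(1 / 2000) : ℝ)) := by
  have hm' : (1 : ℝ) ≤ m := by exact_mod_cast hm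
  have hk1 : 1 ≤ k := by
    rcases Nat.eq_zero_or_pos k with rfl | h
    · simp at hk
    · exact h
  have hk' : (1 : ℝ) ≤ k := by exact_mod_cast hk1
  have hk8 : (4 * m + 1 : ℝ) ≤ (k : ℝ) ^ 8 := by exact_mod_cast hk
  set κ := (4 : ℝ) ^ (1 / 2000 : ℝ) - 1 with hκ
  have hκ0 : 0 < κ := by
    have := Real.one_lt_rpow (show (1 : ℝ) < 4 by norm_num) (show (0 : ℝ) < 1 / 2000 by norm_num)
    linarith
  have h1 := indq_sq_le hk1
  have h2 : Real.log (4 * m + 1) ≤ 800 * (k : ℝ) ^ (1 / 100 : ℝ) := by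
    have h3 := Real.log_le_log (by linarith) hk8
    rw [Real.log_pow] at h3
    have := ind_log_le (show (0 : ℝ) ≤ k by linarith)
    push_cast at h3
    linarith
  have h3 : 0 ≤ Real.log (m : ℝ) := Real.log_nonneg hm'
  have h3' : Real.log (m : ℝ) ≤ Real.log (4 * m + 1) := Real.log_le_log (by linarith) (by linarith)
  have h4 := mul_le_mul h1 h2 (h3.trans h3') (by positivity)
  have hK2 : (K : ℝ) ≤ 2 * (k : ℝ) ^ (98 / 100 : ℝ) := by
    have : (1 : ℝ) ≤ (k : ℝ) ^ (98 / 100 : ℝ) := Real.one_le_rpow hk' (by norm_num)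
    linarith
  have h4' := mul_le_mul hK2 (h3'.trans h2) h3 (by positivity)
  have h5 : (k : ℝ) ^ (98 / 100 : ℝ) * (k : ℝ) ^ (1 / 100 : ℝ)
      = (k : ℝ) ^ (99 / 100 : ℝ) := ind_rpow_mul (by linarith) (by norm_num)
  have h6 : (k : ℝ) ^ (99 / 100 : ℝ) ≤ (k : ℝ) ^ (996 / 1000 : ℝ) :=
    Real.rpow_le_rpow_of_exponent_le hk' (by norm_num)
  have h7 : (k : ℝ) ^ (1687 / 1700 : ℝ) ≤ (k : ℝ) ^ (996 / 1000 : ℝ) :=
    Real.rpow_le_rpow_of_exponent_le hk' (by norm_num)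
  have h8 : (k : ℝ) ^ (16 / 1000 : ℝ) * (k : ℝ) ^ (98 / 100 : ℝ)
      = (k : ℝ) ^ (996 / 1000 : ℝ) := ind_rpow_mul (by linarith) (by norm_num)
  have h9 : (m : ℝ) ^ (-(1 / 2000) : ℝ) - (4 * m : ℝ) ^ (-(1 / 2000) : ℝ)
      = κ * (4 * m : ℝ) ^ (-(1 / 2000) : ℝ) := by
    have : (4 : ℝ) ^ (1 / 2000 : ℝ) * (4 : ℝ) ^ (-(1 / 2000) : ℝ) = 1 := by
      rw [ind_rpow_mul (by norm_num) (show (1 / 2000 : ℝ) + -(1 / 2000) = 0 by norm_num),
        Real.rpow_zero]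
    rw [Real.mul_rpow (by norm_num) (by linarith), hκ, sub_mul, ← mul_assoc, this]; ring
  have h10 : (k : ℝ) ^ (-(4 / 1000) : ℝ) ≤ (4 * m : ℝ) ^ (-(1 / 2000) : ℝ) := by
    have h11 : ((k : ℝ) ^ 8) ^ (-(1 / 2000) : ℝ) ≤ (4 * m : ℝ) ^ (-(1 / 2000) : ℝ) :=
      Real.rpow_le_rpow_of_nonpos (by linarith) (by linarith) (by norm_num)
    rwa [← Real.rpow_natCast, ← Real.rpow_mul (by positivity),
      show ((8 : ℕ) : ℝ) * (-(1 / 2000)) = -(4 / 1000) by norm_num] at h11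
  have h11 : (k : ℝ) * (k : ℝ) ^ (-(4 / 1000) : ℝ) = (k : ℝ) ^ (996 / 1000 : ℝ) := by
    conv_lhs => enter [1]; rw [← Real.rpow_one (k : ℝ)]
    exact ind_rpow_mul (by linarith) (by norm_num)
  have h12 : C * κ * (k : ℝ) ^ (996 / 1000 : ℝ)
      ≤ C * k * (κ * (4 * m : ℝ) ^ (-(1 / 2000) : ℝ)) := by
    rw [← h11]
    have := mul_le_mul_of_nonneg_left h10 (show 0 ≤ C * κ * k by positivity)
    linarith
  have h13 : 0 ≤ (k : ℝ) ^ (996 / 1000 : ℝ) := by positivity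
  have h14 := mul_le_mul_of_nonneg_right hC h13
  have h15 : 32 * (k : ℝ) ^ (98 / 100 : ℝ) ≤ κ * (k : ℝ) ^ (996 / 1000 : ℝ) := by
    rw [← h8, ← mul_assoc]
    exact mul_le_mul_of_nonneg_right hk0 (by positivity)
  have h16 := mul_le_mul_of_nonneg_left h15 hC0
  have h17 := mul_le_mul_of_nonneg_left hK2 hC0
  rw [h9]
  push_cast
  linarith

end Crest.Agent.R155
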