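import Crest.Agent.R155.Step
import Crest.Agent.R155.Conv
import Crest.Agent.R155.Triv
import Crest.Agent.R155.IndAux

/-!
# The trace bound for trees over a damped operator
-/

set_option linter.unusedSectionVars false

namespace Crest.Agent.R155

open scoped ComplexOrder MatrixOrder ComplexConjugate Matrix.Norms.L2Operator Matrix
open Finset GA Equiv

theorem indB_le {ℓ : ℕ} {x₀ : GA (Perm (Fin ℓ → Bool))} {d : ℕ} {X : GA (Perm (Fin d → Bool))}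
    (h : Tree ℓ x₀ d X) : ℓ ≤ d := by
  induction h with
  | base => exact le_rfl
  | right e hy h ih => omega
  | left e hy h ih => omega
  | unit hu hv h ih => exact ih
  | relabel e h ih => exact ih

theorem indB_child {C M : ℝ} (hC : 200000 ≤ C * (1 - (4 : ℝ) ^ (-(1 / 200) : ℝ))) {d : ℕ}
    {x : GA (Perm (Fin d → Bool))}
    (ih : Hyp (indq (2 ^ d)) (2 ^ d) (Real.exp (C * ((2 ^ d : ℕ) : ℝ)
      * (M - ((2 ^ d : ℕ) : ℝ) ^ (-(1 / 200) : ℝ)))) x) :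
    ∃ B : ℝ, 0 ≤ B ∧ (∀ j, j ≤ 2 ^ (d + 2) → j ≤ Fintype.card (Fin d → Bool) →
        Hyp (indq (2 ^ (d + 2))) j B x) ∧
      ((Fintype.card (Fin (d + 2) → Bool) : ℝ) + 1) ^ (200 * indq (2 ^ (d + 2)) ^ 2) * B ^ 4
        ≤ Real.exp (C * ((2 ^ (d + 2) : ℕ) : ℝ)
          * (M - ((2 ^ (d + 2) : ℕ) : ℝ) ^ (-(1 / 200) : ℝ))) := by
  have hm : 1 ≤ 2 ^ d := Nat.one_le_two_pow
  have h4 : 2 ^ (d + 2) = 4 * 2 ^ d := by ring
  have hc : Fintype.card (Fin d → Bool) = 2 ^ d := by simp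
  have hc' : Fintype.card (Fin (d + 2) → Bool) = 4 * 2 ^ d := by simp [h4]
  rw [hc, hc', h4]
  generalize 2 ^ d = m at *
  have h1 := Hyp.conv (one_le_indq m) (one_le_indt m) (indq_le_indt_of_four hm le_rfl)
    (le_indq_mul_indt m) (Real.exp_pos _).le ih
  refine ⟨_, by positivity, fun j _ hj => h1.mono le_rfl hj le_rfl, ?_⟩
  rw [ind_pow_eq_exp (by positivity), ← Real.exp_add, ← Real.exp_nat_mul, ← Real.exp_add]
  refine Real.exp_le_exp.2 ?_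
  have h2 := indB_step hm hC
  have h3 := ind_cost_le m
  push_cast at h2 ⊢
  linarith

theorem indB_hyp {C : ℝ} (hC : 200000 ≤ C * (1 - (4 : ℝ) ^ (-(1 / 200) : ℝ))) (hC' : 801 ≤ C)
    {ℓ : ℕ} {x₀ : GA (Perm (Fin ℓ → Bool))}
    (hx : (star x₀ * x₀) ^ 2 ≤ cen fun χ => (((2 ^ ℓ + 1 : ℕ) : ℂ) ^ (4 * lev χ))⁻¹)
    {d : ℕ} {X : GA (Perm (Fin d → Bool))} (h : Tree ℓ x₀ d X) :
    Hyp (indq (2 ^ d)) (2 ^ d) (Real.exp (C * ((2 ^ d : ℕ) : ℝ)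
      * (2 * ((2 ^ ℓ : ℕ) : ℝ) ^ (-(1 / 200) : ℝ) - ((2 ^ d : ℕ) : ℝ) ^ (-(1 / 200) : ℝ)))) X := by
  induction h with
  | base =>
    have hc : Fintype.card (Fin ℓ → Bool) = 2 ^ ℓ := by simp
    have h1 := hyp_trivB (x := x₀) (by rw [hc]; exact hx) (one_le_indq (2 ^ ℓ)) (2 ^ ℓ)
    refine h1.mono le_rfl le_rfl ?_
    rw [hc, ind_pow_eq_exp (by positivity), ← Real.exp_add]
    refine Real.exp_le_exp.2 ?_
    have h2 := indB_base (Nat.one_le_two_pow (n := ℓ)) hC'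
    linarith
  | right e hy h ih =>
    obtain ⟨B, hB0, hB, hB'⟩ := indB_child hC ih
    exact (step e hy (one_le_indq _) (Bf := fun _ => B) (B := B ^ 4) (fun _ => hB0) hB
      (fun kk _ _ => by simp)).mono le_rfl le_rfl hB'
  | left e hy h ih =>
    obtain ⟨B, hB0, hB, hB'⟩ := indB_child hC ih
    exact (step' e hy (one_le_indq _) (Bf := fun _ => B) (B := B ^ 4) (fun _ => hB0) hB
      (fun kk _ _ => by simp)).mono le_rfl le_rfl hB'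
  | unit hu hv h ih => exact (ih.unit_mul hu).mul_unit hv
  | relabel e h ih => exact ih.relab e

theorem indB : ∃ (C : ℝ) (ℓ₀ : ℕ), 0 ≤ C ∧ ∀ ℓ : ℕ, ℓ₀ ≤ ℓ → ∀ x₀ : GA (Perm (Fin ℓ → Bool)),
    ((star x₀ * x₀) ^ 2 ≤ cen fun χ => (((2 ^ ℓ + 1 : ℕ) : ℂ) ^ (4 * lev χ))⁻¹) →
    ∀ (d : ℕ) (X : GA (Perm (Fin d → Bool))), Tree ℓ x₀ d X →
    ∀ χ : Perm (Fin d → Bool) → ℂ, IsIrr χ →
      (ev χ ((star X * X) ^ 2)).re ≤ dim χ ^ (-(1 / 16) : ℝ)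
        * Real.exp (C * 2 ^ d * (2 : ℝ) ^ (-(ℓ / 200 : ℝ))) := by
  have hκ1 : (4 : ℝ) ^ (-(1 / 200) : ℝ) < 1 :=
    Real.rpow_lt_one_of_one_lt_of_neg (by norm_num) (by norm_num)
  have hκ0 : 0 < (4 : ℝ) ^ (-(1 / 200) : ℝ) := by positivity
  obtain ⟨C, hC⟩ : ∃ C : ℝ, C * (1 - (4 : ℝ) ^ (-(1 / 200) : ℝ)) = 200000 :=
    ⟨200000 / (1 - (4 : ℝ) ^ (-(1 / 200) : ℝ)), div_mul_cancel₀ _ (by linarith)⟩
  have hC0 : 0 < C := pos_of_mul_pos_left (by rw [hC]; norm_num) (by linarith)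
  have hC1 : 801 ≤ C := by nlinarith
  refine ⟨2 * C + 25, 0, by linarith, fun ℓ _ x₀ hx d X hX χ hχ => ?_⟩
  have h1 := indB_hyp hC.ge hC1 hx hX
  have h2 := Hyp.final (one_le_indq _) (one_le_indt _) (le_indq_mul_indt _) (Real.exp_pos _).le h1
    hχ ((lev_le_card χ).trans (by simp))
  refine h2.trans (mul_le_mul_of_nonneg_left ?_ (Real.rpow_nonneg hχ.dim_pos.le _))
  rw [← Real.exp_add]
  refine Real.exp_le_exp.2 ?_
  have h3 := ind_cost_le (2 ^ d)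
  have h4 : ((2 ^ ℓ : ℕ) : ℝ) ^ (-(1 / 200) : ℝ) = (2 : ℝ) ^ (-(ℓ / 200 : ℝ)) := by
    push_cast
    rw [← Real.rpow_natCast, ← Real.rpow_mul (by norm_num)]
    congr 1; ring
  have hn : (1 : ℝ) ≤ ((2 ^ d : ℕ) : ℝ) := by exact_mod_cast Nat.one_le_two_pow
  have h5 : ((2 ^ d : ℕ) : ℝ) ^ (-(1 / 200) : ℝ) ≤ ((2 ^ ℓ : ℕ) : ℝ) ^ (-(1 / 200) : ℝ) :=
    Real.rpow_le_rpow_of_nonpos (by positivity)
      (by exact_mod_cast Nat.pow_le_pow_right (by norm_num) (indB_le hX)) (by norm_num)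
  have h6 : ((2 ^ d : ℕ) : ℝ) ^ (1687 / 1700 : ℝ) ≤ ((2 ^ d : ℕ) : ℝ) ^ (199 / 200 : ℝ) :=
    Real.rpow_le_rpow_of_exponent_le hn (by norm_num)
  have h7 : ((2 ^ d : ℕ) : ℝ) * ((2 ^ d : ℕ) : ℝ) ^ (-(1 / 200) : ℝ)
      = ((2 ^ d : ℕ) : ℝ) ^ (199 / 200 : ℝ) := by
    conv_lhs => enter [1]; rw [← Real.rpow_one ((2 ^ d : ℕ) : ℝ)]
    exact ind_rpow_mul (by linarith) (by norm_num)
  have h8 := mul_le_mul_of_nonneg_left h5 (show (0 : ℝ) ≤ ((2 ^ d : ℕ) : ℝ) by linarith)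
  have h9 : 0 ≤ C * ((2 ^ d : ℕ) : ℝ) * ((2 ^ d : ℕ) : ℝ) ^ (-(1 / 200) : ℝ) := by positivity
  rw [← h4, show (2 : ℝ) ^ d = ((2 ^ d : ℕ) : ℝ) by push_cast; rfl]
  linarith

end Crest.Agent.R155
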