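import Crest.Agent.R155.Tr

/-!
# Elementary facts on levels, the sign obstruction and the spectral gap
-/

set_option linter.unusedSectionVars false

namespace Crest.Agent.R155

open scoped ComplexOrder MatrixOrder ComplexConjugate Matrix.Norms.L2Operator Matrix
open Finset GA Equiv

variable {ι : Type} [Fintype ι] [DecidableEq ι]

theorem lv_suppGrp_mono {T T' : Finset ι} (h : T ⊆ T') : suppGrp T ≤ suppGrp T' :=
  fun _ hg i hi => hg i fun h' => hi (h h')

theorem lv_swap_mem_suppGrp {T : Finset ι} {i j : ι} (hi : i ∈ T) (hj : j ∈ T) :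
    swap i j ∈ suppGrp T := fun _ hk =>
  swap_apply_of_ne_of_ne (fun h => hk (h ▸ hi)) (fun h => hk (h ▸ hj))

theorem IsIrr.lv_ev_relab {χ : Perm ι → ℂ} (hχ : IsIrr χ) (h : Perm ι) (a : GA (Perm ι)) :
    ev χ (relab h a) = ev χ a := by
  rw [relab_eq_conj, hχ.isTr.comm, ← mul_assoc, dl_mul_dl, inv_mul_cancel, dl_one, one_mul]

theorem lv_dl_mul (g : Perm ι) (a : GA (Perm ι)) : dl g * a = relab g a * dl g := by
  rw [relab_eq_conj, mul_assoc, dl_mul_dl, inv_mul_cancel, dl_one, mul_one]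

theorem lv_symz_univ_apply (g : Perm ι) :
    symz (univ : Finset ι) g = ((Fintype.card ι).factorial : ℂ)⁻¹ := by
  rw [symz, avgSub, avgTw_of_mem _ (fun i hi => (hi (mem_univ i)).elim), card_suppGrp, card_univ,
    one_div]

theorem lv_sum_symz_univ : ∑ g : Perm ι, symz (univ : Finset ι) g = 1 := by
  have h0 : ((Fintype.card ι).factorial : ℂ) ≠ 0 := by exact_mod_cast Nat.factorial_ne_zero _
  simp only [lv_symz_univ_apply, sum_const, card_univ, Fintype.card_perm, nsmul_eq_mul]
  exact mul_inv_cancel₀ h0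

theorem lv_lev_eq_zero {χ : Perm ι → ℂ} (h : ev χ (symz (univ : Finset ι)) ≠ 0) : lev χ = 0 := by
  have := card_add_lev_le h
  rw [card_univ] at this
  omega

theorem symz_mul_symz_of_subset {T T' : Finset ι} (h : T ⊆ T') : symz T * symz T' = symz T' := by
  exact avgTw_mul_avgTw_of_le (isChar_one _) (lv_suppGrp_mono h) fun _ _ => rfl

theorem symz_mul_symz_of_subset' {T T' : Finset ι} (h : T ⊆ T') : symz T' * symz T = symz T' := by
  exact avgTw_mul_avgTw_of_le' (isChar_one _) (isChar_one _) (lv_suppGrp_mono h) fun _ _ => rfl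

theorem IsIrr.ev_symz_congr {χ : Perm ι → ℂ} (hχ : IsIrr χ) {T T' : Finset ι}
    (h : T.card = T'.card) : ev χ (symz T) = ev χ (symz T') := by
  obtain ⟨σ, rfl⟩ := Perm.exists_map_finset_eq T T' h
  rw [← relab_symz, hχ.lv_ev_relab]

theorem IsIrr.ev_altz_congr {χ : Perm ι → ℂ} (hχ : IsIrr χ) {T T' : Finset ι}
    (h : T.card = T'.card) : ev χ (altz T) = ev χ (altz T') := by
  obtain ⟨σ, rfl⟩ := Perm.exists_map_finset_eq T T' h
  rw [← relab_altz, hχ.lv_ev_relab]

theorem IsIrr.ev_symz_ne_zero_iff {χ : Perm ι → ℂ} (hχ : IsIrr χ) (T : Finset ι) :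
    ev χ (symz T) ≠ 0 ↔ T.card + lev χ ≤ Fintype.card ι := by
  refine ⟨card_add_lev_le, fun h => ?_⟩
  obtain ⟨T₀, h1, h2⟩ := exists_lev hχ
  obtain ⟨T₁, h3, h4⟩ := Finset.exists_subset_card_eq (s := T₀) (n := T.card) (by omega)
  rw [← hχ.ev_symz_congr h4]
  obtain ⟨r, rfl⟩ := hχ
  rw [r.ev_ne_zero_iff (isStarProjection_symz _).nonneg] at h2 ⊢
  intro h5
  apply h2
  rw [← symz_mul_symz_of_subset h3, map_mul, h5, zero_mul]

theorem IsIrr.lev_eq_zero_iff {χ : Perm ι → ℂ} (hχ : IsIrr χ) : lev χ = 0 ↔ χ = fun _ => 1 := by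
  constructor
  · intro h
    have h1 := (hχ.ev_symz_ne_zero_iff univ).2 (by rw [h, card_univ]; rfl)
    by_contra hne
    apply h1
    have h2 := hχ.orth isIrr_one
    rw [if_neg hne] at h2
    simp only [mul_one] at h2
    simp only [ev_apply, lv_symz_univ_apply, ← mul_sum, h2, mul_zero]
  · rintro rfl
    refine lv_lev_eq_zero ?_
    simp only [ev_apply, mul_one, lv_sum_symz_univ]
    exact _root_.one_ne_zero

theorem sum_dim_lev_le (l : ℕ) :
    ∑ χ ∈ (Irr (Perm ι)).filter (fun χ => lev χ = l), dim χ ≤ (Fintype.card ι : ℝ) ^ l := by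
  classical
  by_cases hl : Fintype.card ι < l
  · rw [sum_eq_zero]
    · positivity
    · intro χ hχ
      have h1 := (mem_filter.1 hχ).2
      have h2 := lev_le_card χ
      omega
  push Not at hl
  obtain ⟨T, -, hT⟩ := Finset.exists_subset_card_eq (s := (univ : Finset ι))
    (n := Fintype.card ι - l) (by rw [card_univ]; omega)
  have h1 := plancherel (symz T)
  have h2 : symz T 1 = (((Fintype.card ι - l).factorial : ℕ) : ℂ)⁻¹ := by
    rw [symz, avgSub, avgTw_of_mem _ (Subgroup.one_mem _), card_suppGrp, hT, one_div]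
  have h0 : (((Fintype.card ι - l).factorial : ℕ) : ℂ) ≠ 0 := by
    exact_mod_cast Nat.factorial_ne_zero _
  have h3 : (Fintype.card (Perm ι) : ℂ) * symz T 1 = ((Fintype.card ι).descFactorial l : ℕ) := by
    rw [h2, Fintype.card_perm, ← Nat.factorial_mul_descFactorial hl]
    push_cast
    field_simp
  have h4 : ∑ χ ∈ (Irr (Perm ι)).filter (fun χ => lev χ = l), (dim χ : ℂ)
      ≤ ∑ χ ∈ Irr (Perm ι), χ 1 * ev χ (symz T) := by
    calc ∑ χ ∈ (Irr (Perm ι)).filter (fun χ => lev χ = l), (dim χ : ℂ)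
        ≤ ∑ χ ∈ (Irr (Perm ι)).filter (fun χ => lev χ = l), χ 1 * ev χ (symz T) := by
          refine sum_le_sum fun χ hχ => ?_
          have hi : IsIrr χ := mem_Irr.1 (mem_filter.1 hχ).1
          have h5 := hi.one_le_ev (isStarProjection_symz T)
            ((hi.ev_symz_ne_zero_iff T).2 (by rw [hT, (mem_filter.1 hχ).2]; omega))
          rw [hi.coe_dim]
          exact le_mul_of_one_le_right (i2_one_nonneg hi) h5
      _ ≤ _ := by
          refine sum_le_sum_of_subset_of_nonneg (filter_subset _ _) fun χ hχ _ => ?_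
          have hi : IsIrr χ := mem_Irr.1 hχ
          exact _root_.mul_nonneg (i2_one_nonneg hi)
            (hi.isTr.pos _ (isStarProjection_symz T).nonneg)
  rw [← h1, h3] at h4
  have h5 : ∑ χ ∈ (Irr (Perm ι)).filter (fun χ => lev χ = l), dim χ
      ≤ ((Fintype.card ι).descFactorial l : ℕ) := by
    exact_mod_cast h4
  exact h5.trans (by exact_mod_cast Nat.descFactorial_le_pow _ _)

theorem IsIrr.dim_le_pow_lev {χ : Perm ι → ℂ} (hχ : IsIrr χ) :
    dim χ ≤ (Fintype.card ι : ℝ) ^ lev χ := by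
  classical
  refine le_trans ?_ (sum_dim_lev_le (lev χ))
  exact single_le_sum (f := dim) (fun ψ hψ => (mem_Irr.1 (mem_filter.1 hψ).1).dim_pos.le)
    (mem_filter.2 ⟨mem_Irr.2 hχ, rfl⟩)

theorem suppGrp_le_patGrp {p : Pat ι} {T : Finset ι} {b : Bool} (hT : ∀ i ∈ T, p i = some b) :
    suppGrp T ≤ patGrp p := by
  intro g hg i
  by_cases hi : i ∈ T
  · have h1 : g i ∈ T := by
      by_contra h
      exact h (by rw [g.injective (hg _ h)]; exact hi)
    exact ⟨by rw [hT _ h1, hT _ hi], fun h => by simp [hT _ hi] at h⟩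
  · exact ⟨by rw [hg i hi], fun _ => hg i hi⟩

theorem lv_supp {p : Pat ι} {S : Subgroup (Perm ι)} (hS : S ≤ patGrp p) (σ : Perm ι → ℂ) :
    ∀ g, g ∉ (patGrp p).subtype.range → avgTw S σ g = 0 := fun g hg =>
  avgTw_of_notMem σ fun h => hg ⟨⟨g, hS h⟩, rfl⟩

theorem push_res_avgTw {p : Pat ι} {S : Subgroup (Perm ι)} (hS : S ≤ patGrp p) (σ : Perm ι → ℂ) :
    push (patGrp p).subtype (res p (avgTw S σ)) = avgTw S σ := by
  exact push_pull_of_supp (patGrp p).subtype_injective (lv_supp hS σ)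

theorem isStarProjection_res_avgTw {p : Pat ι} {S : Subgroup (Perm ι)} (hS : S ≤ patGrp p)
    {σ : Perm ι → ℂ} (hσ : IsChar S σ) : IsStarProjection (res p (avgTw S σ)) := by
  refine ⟨?_, ?_⟩
  · change res p _ * res p _ = res p _
    rw [res, ← pull_mul_of_supp (patGrp p).subtype_injective (lv_supp hS σ), avgTw_mul_self hσ]
  · change star (res p _) = res p _
    rw [res, ← pull_star, star_avgTw hσ]

theorem lv_exists_mul_ne_zero {p : Pat ι} {α : patGrp p → ℂ} (hα : IsIrr α)
    {S S' : Subgroup (Perm ι)} {σ σ' : Perm ι → ℂ} (hS : S ≤ patGrp p) (hσ : IsChar S σ)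
    (hS' : S' ≤ patGrp p) (hσ' : IsChar S' σ') (h : ev α (res p (avgTw S σ)) ≠ 0)
    (h' : ev α (res p (avgTw S' σ')) ≠ 0) :
    ∃ g ∈ patGrp p, avgTw S σ * relab g (avgTw S' σ') ≠ 0 := by
  obtain ⟨r, rfl⟩ := hα
  rw [r.ev_ne_zero_iff (isStarProjection_res_avgTw hS hσ).nonneg] at h
  rw [r.ev_ne_zero_iff (isStarProjection_res_avgTw hS' hσ').nonneg] at h'
  obtain ⟨g, hg⟩ := r.exists_mul_ne_zero h h'
  refine ⟨g, g.2, fun h0 => hg ?_⟩
  have h1 : res p (avgTw S σ) * dl g * res p (avgTw S' σ')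
      = res p (avgTw S σ * (dl (g : Perm ι) * avgTw S' σ')) := by
    rw [res, pull_mul_of_supp (patGrp p).subtype_injective (lv_supp hS σ), mul_assoc,
      ← pull_push_mul, push_dl]
    rfl
  rw [lv_dl_mul, ← mul_assoc, h0, zero_mul, map_zero] at h1
  have h2 := congrArg (lift r.ρ) h1
  rwa [map_mul, map_mul, lift_dl, map_zero] at h2

theorem lv_pigeon {q : ℕ} {p : Pat ι} (c : ι → Fin q) {T : Finset ι} {b : Bool}
    (hT : ∀ i ∈ T, p i = some b) (hq : q < T.card) {g : Perm ι} (hg : g ∈ patGrp p) :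
    ∃ i ∈ T.map g.toEmbedding, ∃ j ∈ T.map g.toEmbedding, i ≠ j ∧ c i = c j ∧ p i = some b ∧
      p j = some b := by
  obtain ⟨i, hi, j, hj, hij, hc⟩ := Finset.exists_ne_map_eq_of_card_lt_of_maps_to
    (s := T.map g.toEmbedding) (t := (univ : Finset (Fin q))) (f := c)
    (by rwa [card_map, card_univ, Fintype.card_fin]) fun _ _ => mem_coe.2 (mem_univ _)
  have key : ∀ i ∈ T.map g.toEmbedding, p i = some b := fun i hi => by
    obtain ⟨k, hk, rfl⟩ := mem_map.1 hi
    exact (hg k).1.trans (hT k hk)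
  exact ⟨i, hi, j, hj, hij, hc, key i hi, key j hj⟩

theorem lv_swap_mem_patGrp {p : Pat ι} {i j : ι} {b : Bool} (hi : p i = some b)
    (hj : p j = some b) : swap i j ∈ patGrp p :=
  suppGrp_le_patGrp (T := {i, j}) (b := b) (fun k hk => by
    rcases mem_insert.1 hk with rfl | hk
    · exact hi
    · rw [mem_singleton.1 hk]; exact hj) (lv_swap_mem_suppGrp (by simp) (by simp))

theorem lv_swap_mem_colGrp {q : ℕ} {p : Pat ι} {c : ι → Fin q} {i j : ι} {b : Bool}
    (hi : p i = some b) (hj : p j = some b) (hc : c i = c j) : swap i j ∈ colGrp p c :=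
  ⟨lv_swap_mem_patGrp hi hj, fun k => apply_swap_eq_self hc k⟩

theorem lv_patSgn_swap_odd {p : Pat ι} {i j : ι} (hij : i ≠ j) (hi : p i = some true)
    (hj : p j = some true) : patSgn p (swap i j) = -1 := by
  rw [patSgn_of_mem (lv_swap_mem_patGrp hi hj),
    ← sgnC_swap (ι := {k // p k = some true}) (i := ⟨i, hi⟩) (j := ⟨j, hj⟩)
      fun h => hij (congrArg Subtype.val h)]
  congr 1
  ext ⟨k, hk⟩
  simp only [Perm.subtypePerm_apply, swap_apply_def, Subtype.mk.injEq]
  split_ifs <;> rfl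

theorem lv_patSgn_swap_even {p : Pat ι} {i j : ι} (hi : p i = some false)
    (hj : p j = some false) : patSgn p (swap i j) = 1 := by
  rw [patSgn_of_mem (lv_swap_mem_patGrp hi hj), ← sgnC_one (ι := {k // p k = some true})]
  congr 1
  ext ⟨k, hk⟩
  have h1 : k ≠ i := by rintro rfl; simp [hi] at hk
  have h2 : k ≠ j := by rintro rfl; simp [hj] at hk
  simp [swap_apply_of_ne_of_ne h1 h2]

/-- With `q` odd colours no more than `q` odd cells can be symmetrised. -/
theorem Adm.ev_symz_eq_zero {q : ℕ} {p : Pat ι} {α : patGrp p → ℂ} (hα : IsIrr α) (h : Adm q p α)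
    {T : Finset ι} (hT : ∀ i ∈ T, p i = some true) (hq : q < T.card) :
    ev α (res p (symz T)) = 0 := by
  by_contra h0
  obtain ⟨c, hc⟩ := h
  obtain ⟨g, hg, hne⟩ := lv_exists_mul_ne_zero hα (fun _ h => (mem_colGrp.1 h).1)
    (isChar_patSgn_colGrp p c) (suppGrp_le_patGrp hT) (isChar_one _) hc h0
  apply hne
  change colz p c * relab g (symz T) = 0
  rw [relab_symz]
  obtain ⟨i, hi, j, hj, hij, hcij, hpi, hpj⟩ := lv_pigeon c hT hq hg
  refine avgTw_mul_avgTw_eq_zero (isChar_patSgn_colGrp p c) (isChar_one _)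
    (lv_swap_mem_colGrp hpi hpj hcij) (lv_swap_mem_suppGrp hi hj) ?_
  rw [lv_patSgn_swap_odd hij hpi hpj]
  norm_num

/-- With `q` even colours no more than `q` even cells can be antisymmetrised. -/
theorem Adm.ev_altz_eq_zero {q : ℕ} {p : Pat ι} {α : patGrp p → ℂ} (hα : IsIrr α) (h : Adm q p α)
    {T : Finset ι} (hT : ∀ i ∈ T, p i = some false) (hq : q < T.card) :
    ev α (res p (altz T)) = 0 := by
  by_contra h0
  obtain ⟨c, hc⟩ := h
  obtain ⟨g, hg, hne⟩ := lv_exists_mul_ne_zero hα (fun _ h => (mem_colGrp.1 h).1)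
    (isChar_patSgn_colGrp p c) (suppGrp_le_patGrp hT) (isChar_sgnC _) hc h0
  apply hne
  change colz p c * relab g (altz T) = 0
  rw [relab_altz]
  obtain ⟨i, hi, j, hj, hij, hcij, hpi, hpj⟩ := lv_pigeon c hT hq hg
  refine avgTw_mul_avgTw_eq_zero (isChar_patSgn_colGrp p c) (isChar_sgnC _)
    (lv_swap_mem_colGrp hpi hpj hcij) (lv_swap_mem_suppGrp hi hj) ?_
  rw [lv_patSgn_swap_even hpi hpj, sgnC_swap hij]
  norm_num

/-- The neighbour in direction `i`. -/
def lvFlip {D : Type} [DecidableEq D] (i : D) (z : D → Bool) : D → Bool :=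
  Function.update z i (!z i)

theorem lvFlip_ne {D : Type} [DecidableEq D] (i : D) (z : D → Bool) : lvFlip i z ≠ z := fun h => by
  have := congrFun h i
  simp [lvFlip] at this

theorem lvFlip_flip {D : Type} [DecidableEq D] (i : D) (z : D → Bool) :
    lvFlip i (lvFlip i z) = z := by
  simp [lvFlip]

theorem lvFlip_injective {D : Type} [DecidableEq D] (i : D) : Function.Injective (lvFlip i) :=
  Function.LeftInverse.injective (lvFlip_flip i)

theorem lv_swap_update_mem_flipGrp {D : Type} [Fintype D] [DecidableEq D] (i : D) (z : D → Bool)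
    (b : Bool) : swap z (Function.update z i b) ∈ flipGrp i := by
  intro w j hj
  rw [swap_apply_def]
  split_ifs with h1 h2
  · rw [h1, Function.update_of_ne hj]
  · rw [h2, Function.update_of_ne hj]
  · rfl

theorem lv_swap_mem_flipGrp {D : Type} [Fintype D] [DecidableEq D] (i : D) (z : D → Bool) :
    swap z (lvFlip i z) ∈ flipGrp i := lv_swap_update_mem_flipGrp i z _

theorem lv_eq_top_of_flipGrp {D : Type} [Fintype D] [DecidableEq D]
    (H : Subgroup (Perm (D → Bool))) (h : ∀ i, flipGrp i ≤ H) : H = ⊤ := by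
  have key : ∀ (z w : D → Bool) (s : Finset D), swap z (s.piecewise w z) ∈ H := by
    intro z w s
    induction s using Finset.induction_on with
    | empty => rw [Finset.piecewise_empty, Equiv.swap_self]; exact H.one_mem
    | insert i s hi ih =>
      rw [Finset.piecewise_insert]
      exact SubmonoidClass.swap_mem_trans H ih (h i (lv_swap_update_mem_flipGrp i _ _))
  rw [eq_top_iff, ← Perm.closure_isSwap, Subgroup.closure_le]
  rintro _ ⟨z, w, -, rfl⟩
  simpa using key z w univ

theorem lv_fix_of_prod {n : Type} [Fintype n] [DecidableEq n] (V : Matrix n n ℂ)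
    (l : List (Matrix n n ℂ)) (hl : ∀ P ∈ l, IsStarProjection P) :
    star l.prod * l.prod ≤ 1 ∧ (star V * (1 - star l.prod * l.prod) * V = 0 →
      l.prod * V = V ∧ ∀ P ∈ l, P * V = V) := by
  induction l with
  | nil => simp
  | cons P l ih =>
    obtain ⟨ih1, ih2⟩ := ih fun Q hQ => hl Q (List.mem_cons_of_mem _ hQ)
    have hP := hl P List.mem_cons_self
    have hP1 : star P = P := hP.isSelfAdjoint.star_eq
    have hP2 : P * P = P := hP.isIdempotentElem.eq
    have e1 : 1 - star (P * l.prod) * (P * l.prod)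
        = (1 - star l.prod * l.prod) + star ((1 - P) * l.prod) * ((1 - P) * l.prod) := by
      simp only [star_mul, star_sub, star_one, hP1]
      have e2 : star l.prod * P * (P * l.prod) = star l.prod * P * l.prod := by
        rw [mul_assoc, ← mul_assoc P P, hP2, mul_assoc]
      have e3 : star l.prod * (1 - P) * ((1 - P) * l.prod)
          = star l.prod * l.prod - star l.prod * P * l.prod := by
        have : (1 - P) * (1 - P) = 1 - P := by
          rw [sub_mul, mul_sub, mul_sub, hP2]; simp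
        rw [mul_assoc, ← mul_assoc (1 - P), this]
        noncomm_ring
      rw [e2, e3]
      abel
    rw [List.prod_cons]
    refine ⟨?_, fun h => ?_⟩
    · rw [← sub_nonneg, e1]
      exact add_nonneg (sub_nonneg.2 ih1) (star_mul_self_nonneg _)
    · rw [e1, mul_add, add_mul] at h
      have e4 : star V * (star ((1 - P) * l.prod) * ((1 - P) * l.prod)) * V
          = star ((1 - P) * l.prod * V) * ((1 - P) * l.prod * V) := by
        simp only [star_mul, mul_assoc]
      rw [e4, add_eq_zero_iff_of_nonneg (star_left_conjugate_nonneg (sub_nonneg.2 ih1) V)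
        (star_mul_self_nonneg _)] at h
      obtain ⟨h1, h2⟩ := ih2 h.1
      have h3 := (CStarRing.star_mul_self_eq_zero_iff _).1 h.2
      rw [mul_assoc, h1, sub_mul, one_mul, sub_eq_zero] at h3
      refine ⟨by rw [mul_assoc, h1, ← h3], fun Q hQ => ?_⟩
      rcases List.mem_cons.1 hQ with rfl | hQ
      · exact h3.symm
      · exact h2 Q hQ

/-- A representation with a column longer than half of the deck is killed by one round. -/
theorem opn_Qd_eq_zero {d : ℕ} (hd : 1 ≤ d) {χ : Perm (Fin d → Bool) → ℂ} (hχ : IsIrr χ)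
    {T : Finset (Fin d → Bool)} (hT : 2 ^ d < 2 * T.card) (h : ev χ (altz T) ≠ 0) :
    opn χ (Qd d) = 0 := by
  obtain ⟨r, rfl⟩ := hχ
  rw [r.ev_ne_zero_iff (isStarProjection_altz T).nonneg] at h
  let i : Fin d := ⟨0, hd⟩
  have hP : lift r.ρ (Pdir i) = 0 := by
    by_contra h0
    obtain ⟨g, hg⟩ := r.exists_mul_ne_zero h0 h
    apply hg
    have h1 : Pdir i * dl g * altz T = 0 := by
      rw [mul_assoc, lv_dl_mul, relab_altz, ← mul_assoc]
      obtain ⟨z, hz, hz'⟩ : ∃ z ∈ T.map g.toEmbedding, lvFlip i z ∈ T.map g.toEmbedding := by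
        by_contra hcon
        push Not at hcon
        have hdis : Disjoint (T.map g.toEmbedding)
            ((T.map g.toEmbedding).image (lvFlip i)) := by
          rw [Finset.disjoint_left]
          intro z hz hz'
          obtain ⟨w, hw, rfl⟩ := mem_image.1 hz'
          exact hcon w hw hz
        have h2 := card_le_univ ((T.map g.toEmbedding) ∪ (T.map g.toEmbedding).image (lvFlip i))
        rw [card_union_of_disjoint hdis, card_image_of_injective _ (lvFlip_injective i),
          card_map] at h2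
        simp only [Fintype.card_pi, Fintype.card_bool, prod_const, card_univ,
          Fintype.card_fin] at h2
        omega
      have h3 : Pdir i * altz (T.map g.toEmbedding) = 0 := by
        refine avgTw_mul_avgTw_eq_zero (isChar_one _) (isChar_sgnC _)
          (lv_swap_mem_flipGrp i z) (lv_swap_mem_suppGrp hz hz') ?_
        rw [sgnC_swap (lvFlip_ne i z).symm]
        norm_num
      rw [h3, zero_mul]
    have h2 := congrArg (lift r.ρ) h1
    rwa [map_mul, map_mul, lift_dl, map_zero] at h2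
  rw [r.opn_eq, Qd, map_list_prod, List.prod_eq_zero, norm_zero]
  exact List.mem_map.2 ⟨Pdir i, List.mem_map.2 ⟨i, List.mem_finRange i, rfl⟩, hP⟩

/-- The qualitative spectral gap. -/
theorem opn_Qd_lt_one {d : ℕ} {χ : Perm (Fin d → Bool) → ℂ} (hχ : IsIrr χ) (h : lev χ ≠ 0) :
    opn χ (Qd d) < 1 := by
  refine lt_of_le_of_ne (opn_le_one (star_Qd_mul_le d) χ) fun h1 => h ?_
  obtain ⟨r, rfl⟩ := hχ
  have : Nonempty (Fin r.n) := ⟨⟨0, r.pos⟩⟩
  rw [r.opn_eq] at h1
  set Q := lift r.ρ (Qd d) with hQ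
  have h2 : ‖star Q * Q‖ = 1 := by rw [CStarRing.norm_star_mul_self, h1, one_mul]
  have h3 := CStarAlgebra.norm_mem_spectrum_of_nonneg (star_mul_self_nonneg Q)
  rw [h2, spectrum.mem_iff, map_one, Matrix.isUnit_iff_isUnit_det, isUnit_iff_ne_zero, not_not,
    ← Matrix.exists_mulVec_eq_zero_iff] at h3
  obtain ⟨v, hv, hv0⟩ := h3
  let V : Matrix (Fin r.n) (Fin r.n) ℂ := Matrix.of fun i _ => v i
  have hV : V ≠ 0 := fun h0 => hv (funext fun i => congrFun (congrFun h0 i) i)
  have hV0 : (1 - star Q * Q) * V = 0 := by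
    ext i j
    exact congrFun hv0 i
  have hQl : Q = (((List.finRange d).map Pdir).map (lift r.ρ)).prod := by
    rw [hQ, Qd, map_list_prod]
  obtain ⟨-, h4⟩ := (lv_fix_of_prod V (((List.finRange d).map Pdir).map (lift r.ρ)) (by
    intro P hP
    obtain ⟨a, ha, rfl⟩ := List.mem_map.1 hP
    obtain ⟨i, -, rfl⟩ := List.mem_map.1 ha
    exact i2_proj_lift r.unit (isStarProjection_Pdir i))).2 (by
      rw [← hQl, mul_assoc, hV0, mul_zero])
  let H : Subgroup (Perm (Fin d → Bool)) :=
    { carrier := {g | r.ρ g * V = V}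
      one_mem' := by simp
      mul_mem' := fun {a b} ha hb => by
        change r.ρ (a * b) * V = V
        rw [map_mul, mul_assoc, hb, ha]
      inv_mem' := fun {a} ha => by
        change r.ρ a⁻¹ * V = V
        have ha' : r.ρ a * V = V := ha
        conv_lhs => rw [← ha']
        rw [← mul_assoc, ← map_mul, inv_mul_cancel, map_one, one_mul] }
  have hH : H = ⊤ := lv_eq_top_of_flipGrp H fun i s hs => by
    have h5 : lift r.ρ (Pdir i) * V = V :=
      h4 _ (List.mem_map.2 ⟨Pdir i, List.mem_map.2 ⟨i, List.mem_finRange i, rfl⟩, rfl⟩)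
    have h6 : dl s * Pdir i = Pdir i := by
      have := dl_mul_avgTw (isChar_one (flipGrp i)) hs
      rwa [map_one, one_smul] at this
    change r.ρ s * V = V
    conv_lhs => rw [← h5]
    rw [← mul_assoc, ← lift_dl r.ρ s, ← map_mul, h6, h5]
  have h7 : ∀ g, r.ρ g * V = V := fun g => (hH ▸ Subgroup.mem_top g : g ∈ H)
  refine lv_lev_eq_zero ?_
  rw [r.ev_ne_zero_iff (isStarProjection_symz _).nonneg]
  intro h0
  apply hV
  have h8 : lift r.ρ (symz univ) * V = V := by
    rw [lift_apply, sum_mul]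
    simp only [smul_mul_assoc, h7, ← sum_smul, lv_sum_symz_univ, one_smul]
  rw [← h8, h0, zero_mul]

end Crest.Agent.R155
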