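import Crest.Agent.R155.O1Ker
import Crest.Agent.R155.Lev

/-!
# The operator norm bound at low level
-/

set_option linter.unusedSectionVars false

namespace Crest.Agent.R155

open scoped ComplexOrder MatrixOrder ComplexConjugate Matrix.Norms.L2Operator Matrix
open Finset GA Equiv

section tuples

variable {X : Type} [Fintype X] [DecidableEq X]

/-- The permutation representation on `k`-tuples. -/
noncomputable def o1Rep (X : Type) [Fintype X] [DecidableEq X] (k : ℕ) :
    Perm X →* Matrix (Fin k → X) (Fin k → X) ℂ where
  toFun g := Matrix.of fun y x => if ⇑g ∘ x = y then 1 else 0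
  map_one' := by ext y x; simp [Matrix.one_apply, eq_comm]
  map_mul' g h := by
    ext y x
    simp [Matrix.mul_apply, Function.comp_assoc]

theorem o1Rep_apply {k : ℕ} (g : Perm X) (y x : Fin k → X) :
    o1Rep X k g y x = if ⇑g ∘ x = y then 1 else 0 := rfl

theorem o1_comp_inv {k : ℕ} (g : Perm X) (y x : Fin k → X) : ⇑g⁻¹ ∘ x = y ↔ ⇑g ∘ y = x := by
  constructor
  · rintro rfl; funext a; simp
  · rintro rfl; funext a; simp

theorem isU_o1Rep (k : ℕ) : IsU (o1Rep X k) := fun g => by
  ext y x
  simp only [o1Rep_apply, Matrix.star_apply, o1_comp_inv]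
  split_ifs <;> simp

theorem lift_o1Rep {k : ℕ} (a : GA (Perm X)) (y x : Fin k → X) :
    lift (o1Rep X k) a y x = ∑ g ∈ univ.filter (fun g : Perm X => ⇑g ∘ x = y), a g := by
  simp [lift_apply, Matrix.sum_apply, o1Rep_apply, sum_filter]

theorem lift_o1Rep_eq_zero {k : ℕ} (a : GA (Perm X)) {y x : Fin k → X}
    (hx : Function.Injective x) (hy : ¬ Function.Injective y) : lift (o1Rep X k) a y x = 0 := by
  rw [lift_o1Rep]
  refine sum_eq_zero fun g hg => (hy ?_).elim
  rw [← (mem_filter.1 hg).2]
  exact g.injective.comp hx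

end tuples

section flip

variable {d : ℕ}

/-- The permutation given by switch settings. -/
def o1Flip (r : Fin d) (ξ : (Fin d → Bool) → Bool) : Perm (Fin d → Bool) :=
  Function.Involutive.toPerm
    (fun z => Function.update z r (xor (z r) (ξ (Function.update z r false))))
    (fun z => by simp)

theorem o1Flip_apply (r : Fin d) (ξ : (Fin d → Bool) → Bool) (z : Fin d → Bool) :
    o1Flip r ξ z = Function.update z r (xor (z r) (ξ (Function.update z r false))) := rfl

theorem o1Flip_mem (r : Fin d) (ξ : (Fin d → Bool) → Bool) : o1Flip r ξ ∈ flipGrp r :=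
  fun z j hj => by rw [o1Flip_apply, Function.update_of_ne hj]

theorem o1Flip_mul (r : Fin d) (ξ ξ' : (Fin d → Bool) → Bool) :
    o1Flip r ξ * o1Flip r ξ' = o1Flip r fun z => xor (ξ z) (ξ' z) := by
  ext1 z
  simp only [Perm.mul_apply, o1Flip_apply, Function.update_self, Function.update_idem]
  congr 1
  cases z r <;> cases ξ (Function.update z r false) <;> cases ξ' (Function.update z r false) <;> rfl

theorem o1Flip_surj {r : Fin d} {g : Perm (Fin d → Bool)} (hg : g ∈ flipGrp r) :
    ∃ ξ, g = o1Flip r ξ := by
  refine ⟨fun z => g z r, ?_⟩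
  ext z j
  rw [o1Flip_apply]
  by_cases hj : j = r
  · subst hj
    rw [Function.update_self]
    cases hz : z j
    · have : Function.update z j false = z := by rw [← hz]; simp
      simp [this]
    · have hne : g z j ≠ g (Function.update z j false) j := by
        intro h
        have h1 : g z = g (Function.update z j false) := by
          funext i
          by_cases hi : i = j
          · rw [hi, h]
          · rw [hg _ i hi, hg _ i hi, Function.update_of_ne hi]
        have h2 := congrFun (g.injective h1) j
        simp [hz] at h2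
      revert hne
      cases g z j <;> cases g (Function.update z j false) j <;> simp
  · rw [Function.update_of_ne hj, hg z j hj]

theorem o1_mul_avgSub {G : Type} [Group G] [Fintype G] [DecidableEq G] {S : Subgroup G} {a : GA G}
    (h : ∀ g ∈ S, a * dl g = a) : a * avgSub S = a := by
  classical
  conv_lhs => rw [← sum_smul_dl (avgSub S)]
  rw [mul_sum]
  have h0 : (Nat.card S : ℂ) ≠ 0 := by exact_mod_cast (Nat.card_pos (α := S)).ne'
  have : ∀ g : G, a * (avgSub S g • dl g) = (if g ∈ S then (Nat.card S : ℂ)⁻¹ else 0) • a := by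
    intro g
    by_cases hg : g ∈ S
    · rw [mul_smul_comm, h g hg, avgSub, avgTw_of_mem _ hg, if_pos hg, one_div]
    · simp [avgSub, avgTw_of_notMem _ hg, hg]
  simp only [this, ← sum_smul]
  rw [sum_ite, sum_const_zero, add_zero, sum_const, nsmul_eq_mul]
  have hc : (#{g : G | g ∈ S} : ℂ) = Nat.card S := by
    rw [Nat.card_eq_fintype_card, Fintype.card_subtype]
  rw [hc, mul_inv_cancel₀ h0, one_smul]

theorem o1_Pdir_eq (r : Fin d) :
    (2 ^ Fintype.card (Fin d → Bool) : ℂ) • Pdir r = ∑ ξ, dl (o1Flip r ξ) := by
  have h1 : (∑ ξ, dl (o1Flip r ξ)) * Pdir r = ∑ ξ, dl (o1Flip r ξ) := by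
    refine o1_mul_avgSub fun g hg => ?_
    obtain ⟨ξ', rfl⟩ := o1Flip_surj hg
    simp only [sum_mul, dl_mul_dl, o1Flip_mul]
    have hinv : Function.Involutive
        fun (ξ : (Fin d → Bool) → Bool) (z : Fin d → Bool) => xor (ξ z) (ξ' z) := fun ξ => by
      funext z; simp
    exact Equiv.sum_comp hinv.toPerm fun ξ => dl (o1Flip r ξ)
  rw [← h1, sum_mul]
  have h2 : ∀ ξ, dl (o1Flip r ξ) * Pdir r = Pdir r := fun ξ => by
    have := dl_mul_avgTw (isChar_one (flipGrp r)) (o1Flip_mem r ξ)
    rwa [map_one, one_smul] at this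
  simp only [h2, sum_const, card_univ]
  rw [Fintype.card_fun, Fintype.card_bool, ← Nat.cast_smul_eq_nsmul ℂ]
  simp

theorem o1_lift_Pdir {k : ℕ} (r : Fin d) (z x : Fin k → Fin d → Bool) :
    (2 ^ Fintype.card (Fin d → Bool) : ℂ) * lift (o1Rep _ k) (Pdir r) z x
      = ∑ ξ, if ⇑(o1Flip r ξ) ∘ x = z then 1 else 0 := by
  have := congrArg (fun a => lift (o1Rep (Fin d → Bool) k) a z x) (o1_Pdir_eq r)
  simpa only [map_smul, map_sum, lift_dl, Matrix.smul_apply, smul_eq_mul, Matrix.sum_apply,
    o1Rep_apply] using this

theorem o1_lift_Pdir_eq_zero {k : ℕ} (r : Fin d) {z x : Fin k → Fin d → Bool} {a : Fin k}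
    {j : Fin d} (hj : j ≠ r) (h : z a j ≠ x a j) : lift (o1Rep _ k) (Pdir r) z x = 0 := by
  have h1 := o1_lift_Pdir r z x
  rw [sum_eq_zero, mul_eq_zero] at h1
  · exact h1.resolve_left (by positivity)
  · intro ξ _
    rw [if_neg]
    rintro rfl
    exact h (o1Flip_mem r ξ _ j hj)

theorem o1_partial {k : ℕ} (x : Fin k → Fin d → Bool) (hx : Function.Injective x) (m : ℕ)
    (hm : m ≤ d) (z : Fin k → Fin d → Bool) :
    lift (o1Rep _ k) (star (((List.finRange d).map Pdir).take m).prod) z x
      = if ∀ a j, m ≤ j.val → z a j = x a j then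
          ((∏ s : Fin d with s.val < m, fwWt univ x z s : ℝ) : ℂ) else 0 := by
  induction m generalizing z with
  | zero =>
    simp only [List.take_zero, List.prod_nil, star_one, map_one, Matrix.one_apply, zero_le,
      forall_const, Nat.not_lt_zero, filter_false, prod_empty, Complex.ofReal_one]
    exact if_congr (by simp [funext_iff]) rfl rfl
  | succ m ih =>
    have ih := ih (by omega)
    set r : Fin d := ⟨m, hm⟩ with hr
    have hmr : m = r.val := rfl
    rw [List.prod_take_succ _ _ (by simpa using hm), star_mul, map_mul, Matrix.mul_apply]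
    have e0 : ((List.finRange d).map Pdir)[m]'(by simpa using hm) = Pdir r := by simp [hr]
    rw [e0, (isStarProjection_Pdir r).isSelfAdjoint.star_eq]
    set x' : Fin k → Fin d → Bool := fwUpd r z fun a => x a r with hx'
    rw [sum_eq_single x' ?_ (by simp)]
    · by_cases hz : ∀ a j, m + 1 ≤ j.val → z a j = x a j
      · rw [if_pos hz]
        have hloc : ∀ a, Function.update (x' a) r false = loc r (x a) (z a) := by
          intro a
          funext j
          simp only [hx', fwUpd, Function.update_idem, loc]
          rcases lt_trichotomy j r with h | h | h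
          · simp [h, h.ne]
          · simp [h]
          · simp [h, h.ne', not_lt.2 h.le, hz a j h]
        rw [hmr, fw_prod_lt_succ]
        by_cases hinj : Function.Injective x'
        · have hc : ∀ a j, m ≤ j.val → x' a j = x a j := by
            intro a j hj
            by_cases hjr : j = r
            · simp [hx', fwUpd, hjr]
            · have : j.val ≠ m := fun e => hjr (Fin.ext e)
              simp only [hx', fwUpd, Function.update_of_ne hjr]
              exact hz a j (by omega)
          rw [← hmr, ih, if_pos hc, mul_comm, Complex.ofReal_mul]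
          congr 1
          · congr 1
            exact prod_congr rfl fun s hs => fwWt_upd (mem_filter.1 hs).2 _ _ _ _
          · have hv : ∀ a ∈ (univ : Finset (Fin k)), ∀ b ∈ (univ : Finset (Fin k)), a ≠ b →
                loc r (x a) (z a) = loc r (x b) (z b) → x a r ≠ x b r := by
              intro a _ b _ hab hL he
              refine hab (hinj ?_)
              rw [← hloc, ← hloc] at hL
              funext j
              by_cases hjr : j = r
              · simp [hx', fwUpd, hjr, he]
              · simpa [Function.update_of_ne hjr] using congrFun hL j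
            have h1 := fw_switch univ (fun a => loc r (x a) (z a)) (fun a => x a r)
              (fun a => z a r) hv
            have h2 := o1_lift_Pdir r z x'
            have h3 : ∀ ξ, (⇑(o1Flip r ξ) ∘ x' = z) ↔ ∀ a ∈ (univ : Finset (Fin k)),
                xor (x a r) (ξ (loc r (x a) (z a))) = z a r := by
              intro ξ
              simp only [mem_univ, forall_const, funext_iff (f := ⇑(o1Flip r ξ) ∘ x'),
                Function.comp_apply, o1Flip_apply, hloc]
              refine forall_congr' fun a => ?_
              simp only [hx', fwUpd, Function.update_idem, Function.update_self]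
              exact Function.update_eq_self_iff
            have h4 := congrArg (fun t : ℝ => (t : ℂ)) h1
            simp only [Complex.ofReal_sum, apply_ite Complex.ofReal, Complex.ofReal_one,
              Complex.ofReal_zero, Complex.ofReal_mul, Complex.ofReal_pow, ← h3] at h4
            refine mul_left_cancel₀ (a := (2 ^ Fintype.card (Fin d → Bool) : ℂ)) (by positivity) ?_
            rw [h2]
            refine Eq.trans (by convert rfl) (h4.trans ?_)
            simp [fwWt, fwW, apply_ite Complex.ofReal]
        · rw [lift_o1Rep_eq_zero _ hx hinj, mul_zero]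
          have : fwWt univ x z r = 0 := by
            refine if_neg fun h => hinj fun a b hab => ?_
            by_contra hne
            refine (h a (mem_univ _) b (mem_univ _) hne ?_).1 ?_
            · show loc r (x a) (z a) = loc r (x b) (z b)
              rw [← hloc, ← hloc, hab]
            · simpa [hx', fwUpd] using congrFun hab r
          simp [this]
      · rw [if_neg hz, ih, if_neg, mul_zero]
        intro h
        refine hz fun a j hj => ?_
        have hjr : j ≠ r := by rintro rfl; omega
        simpa [hx', fwUpd, Function.update_of_ne hjr] using h a j (by omega)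
    · intro y _ hy
      by_cases h1 : ∀ a j, j ≠ r → z a j = y a j
      · rw [ih, if_neg, mul_zero]
        intro h2
        refine hy (funext fun a => funext fun j => ?_)
        by_cases hjr : j = r
        · simpa [hx', fwUpd, hjr] using h2 a r le_rfl
        · simp [hx', fwUpd, Function.update_of_ne hjr, h1 a j hjr]
      · push Not at h1
        obtain ⟨a, j, hj, h⟩ := h1
        rw [o1_lift_Pdir_eq_zero r hj h, zero_mul]

end flip

/-- The law of `k` cards after one pass (directions in the order `0, 1, ...`). -/
theorem sum_star_Qd_eq_ker {d k : ℕ} (x y : Fin k → Fin d → Bool) (hx : Function.Injective x) :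
    ∑ g ∈ univ.filter (fun g : Perm (Fin d → Bool) => ⇑g ∘ x = y), (star (Qd d)) g
      = (ker univ x y : ℂ) := by
  have h := o1_partial x hx d le_rfl y
  rw [List.take_of_length_le (by simp), if_pos fun a j hj => absurd j.2 (not_lt.2 hj),
    filter_true_of_mem fun s _ => s.2, ← fw_ker_eq, lift_o1Rep] at h
  exact h

theorem o1_exists_intertwiner {X : Type} [Fintype X] [DecidableEq X] (r : IrrRep (Perm X)) :
    ∃ V : Matrix (Fin (lev r.chr) → X) (Fin r.n) ℂ, V ≠ 0 ∧
      (∀ g, o1Rep X (lev r.chr) g * V = V * r.ρ g) ∧ (∀ y j, ¬ Function.Injective y → V y j = 0) ∧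
      ∀ y a j, ∑ z, V (Function.update y a z) j = 0 := by
  classical
  obtain ⟨T, hT, hev⟩ := exists_lev r.isIrr
  set k := lev r.chr with hk
  have hcard : Tᶜ.card = k := by rw [card_compl]; omega
  let x₀ : Fin k → X := fun a => (Tᶜ.equivFinOfCardEq hcard).symm a
  have hx₀ : Function.Injective x₀ :=
    Subtype.val_injective.comp (Tᶜ.equivFinOfCardEq hcard).symm.injective
  have hx₁ : ∀ a, x₀ a ∉ T := fun a => mem_compl.1 ((Tᶜ.equivFinOfCardEq hcard).symm a).2
  have hx₂ : ∀ z, z ∉ T → ∃ a, x₀ a = z := fun z hz =>
    ⟨Tᶜ.equivFinOfCardEq hcard ⟨z, mem_compl.2 hz⟩, by simp [x₀]⟩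
  set E := lift r.ρ (symz T) with hE
  have hE0 : E ≠ 0 := (r.ev_ne_zero_iff (isStarProjection_symz T).nonneg).1 hev
  obtain ⟨i, j₀, hij⟩ : ∃ i j, E i j ≠ 0 := by
    by_contra h
    push Not at h
    exact hE0 (Matrix.ext h)
  refine ⟨Matrix.of fun y j => ∑ g ∈ univ.filter (fun g : Perm X => ⇑g ∘ x₀ = y),
    (E * r.ρ g⁻¹) i j, ?_, ?_, ?_, ?_⟩
  · intro h
    have h1 := congrFun (congrFun h x₀) j₀
    rw [Matrix.of_apply, Matrix.zero_apply, sum_congr rfl (g := fun _ => E i j₀), sum_const,
      nsmul_eq_mul, mul_eq_zero] at h1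
    · rcases h1 with h1 | h1
      · rw [Nat.cast_eq_zero, card_eq_zero] at h1
        have : (1 : Perm X) ∈ univ.filter fun g : Perm X => ⇑g ∘ x₀ = x₀ := by simp
        rw [h1] at this
        simp at this
      · exact hij h1
    · intro g hg
      have hg' : g⁻¹ ∈ suppGrp T := by
        refine Subgroup.inv_mem _ fun z hz => ?_
        obtain ⟨a, rfl⟩ := hx₂ z hz
        exact congrFun (mem_filter.1 hg).2 a
      have := avgTw_mul_dl (isChar_one (suppGrp T)) hg'
      rw [map_one, one_smul] at this
      rw [hE, ← lift_dl r.ρ, ← map_mul]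
      exact congrArg (fun a => lift r.ρ a i j₀) this
  · intro h
    ext y j
    rw [Matrix.mul_apply, sum_eq_single (⇑h⁻¹ ∘ y) ?_ (fun h => (h (mem_univ _)).elim),
      o1Rep_apply,
      if_pos (by funext a; simp), one_mul, Matrix.mul_apply]
    · simp only [Matrix.of_apply, sum_mul]
      rw [sum_comm]
      simp only [← Matrix.mul_apply, sum_filter]
      refine Fintype.sum_equiv (Equiv.mulLeft h) _ _ fun g => ?_
      simp only [Equiv.coe_mulLeft]
      refine if_congr ?_ ?_ rfl
      · rw [eq_comm, o1_comp_inv]; rfl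
      · rw [mul_assoc, ← map_mul]
        simp
    · intro y' _ hy'
      rw [o1Rep_apply, if_neg, zero_mul]
      intro e
      exact hy' ((o1_comp_inv h y' y).2 e).symm
  · intro y j hy
    refine sum_eq_zero fun g hg => (hy ?_).elim
    rw [← (mem_filter.1 hg).2]
    exact g.injective.comp hx₀
  · intro y a j
    simp only [Matrix.of_apply]
    set Γ : Finset (Perm X) := univ.filter fun g => ∀ b, b ≠ a → g (x₀ b) = y b with hΓ
    have h1 : ∑ z, ∑ g ∈ univ.filter (fun g : Perm X => ⇑g ∘ x₀ = Function.update y a z),
        (E * r.ρ g⁻¹) i j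
        = ∑ g ∈ Γ, (E * r.ρ g⁻¹) i j := by
      simp only [hΓ, sum_filter]
      rw [sum_comm]
      refine sum_congr rfl fun g _ => ?_
      simp only [Function.eq_update_iff, Function.comp_apply, ite_and]
      simp
    set c : GA (Perm X) := ∑ g ∈ Γ, dl g⁻¹ with hc
    have h2 : symz (insert (x₀ a) T) * c = c := by
      have h3 : star c * symz (insert (x₀ a) T) = star c := by
        refine o1_mul_avgSub fun s hs => ?_
        simp only [hc, star_sum, star_dl, inv_inv, sum_mul, dl_mul_dl]
        have hs' : ∀ s ∈ suppGrp (insert (x₀ a) T), ∀ g ∈ Γ, g * s ∈ Γ := by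
          intro s hs g hg
          refine mem_filter.2 ⟨mem_univ _, fun b hb => ?_⟩
          rw [Perm.mul_apply, hs (x₀ b) (by simp [hx₁ b, hx₀.eq_iff, hb])]
          exact (mem_filter.1 hg).2 b hb
        exact sum_nbij' (fun g => g * s) (fun g => g * s⁻¹) (hs' s hs)
          (hs' _ (Subgroup.inv_mem _ hs)) (by simp) (by simp) (fun _ _ => rfl)
      have h4 := congrArg star h3
      rwa [star_mul, star_star, (isStarProjection_symz _).isSelfAdjoint.star_eq] at h4
    have h5 : lift r.ρ (symz (insert (x₀ a) T)) = 0 := by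
      by_contra h
      have := card_add_lev_le ((r.ev_ne_zero_iff (isStarProjection_symz _).nonneg).2 h)
      rw [card_insert_of_notMem (hx₁ a)] at this
      omega
    have h6 : lift r.ρ c = 0 := by rw [← h2, map_mul, h5, zero_mul]
    rw [h1, ← Matrix.sum_apply, ← mul_sum]
    simp only [hc, map_sum, lift_dl] at h6
    rw [h6, mul_zero, Matrix.zero_apply]

theorem opn_Qd_le_sparse {d : ℕ} (hd : 1 ≤ d) {χ : Perm (Fin d → Bool) → ℂ} (hχ : IsIrr χ)
    (hk : 40 * d * lev χ ≤ 2 ^ d) :
    opn χ (Qd d)
      ≤ (32 * (d + 1) : ℝ) ^ lev χ * (40 * d * lev χ / 2 ^ d : ℝ) ^ (lev χ / 64 : ℝ) := by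
  obtain ⟨r, rfl⟩ := hχ
  obtain ⟨V, hV, hint, hinj, hmean⟩ := o1_exists_intertwiner r
  refine r.opn_le_of_intertwiner (isU_o1Rep _) hV hint _ (by positivity) fun w => ?_
  have hf : ∀ y, ¬ Function.Injective y → V.mulVec w y = 0 := fun y hy => by
    simp [Matrix.mulVec, dotProduct, hinj y _ hy]
  refine le_trans (sum_le_sum fun x _ => ?_) (ker_norm_le hd hk (V.mulVec w) hf fun y a => ?_)
  · have hQ : ∀ y, lift (o1Rep _ _) (Qd d) x y = star (lift (o1Rep _ _) (star (Qd d)) y x) := by
      intro y
      rw [lift_star (isU_o1Rep _), Matrix.star_apply, star_star]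
    by_cases hx : Function.Injective x
    · refine le_of_eq ?_
      congr 2
      refine sum_congr rfl fun y _ => ?_
      beta_reduce
      rw [hQ, lift_o1Rep, sum_star_Qd_eq_ker x y hx]
      simp
    · have : (lift (o1Rep _ _) (Qd d)).mulVec (V.mulVec w) x = 0 := by
        refine sum_eq_zero fun y _ => ?_
        beta_reduce
        by_cases hy : Function.Injective y
        · rw [lift_o1Rep_eq_zero _ hy hx, zero_mul]
        · rw [hf y hy, mul_zero]
      rw [this, norm_zero]
      simp
  · simp only [Matrix.mulVec, dotProduct]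
    rw [sum_comm]
    simp only [← sum_mul, hmean, zero_mul, sum_const_zero]

end Crest.Agent.R155
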