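import Crest.Agent.R155.IndA
import Crest.Agent.R155.IndB
import Crest.Agent.R155.Amp
import Crest.Agent.R155.O1
import Crest.Agent.R155.FinalAux

/-!
# The final estimates
-/

set_option linter.unusedSectionVars false

namespace Crest.Agent.R155

open scoped ComplexOrder MatrixOrder ComplexConjugate Matrix.Norms.L2Operator Matrix
open Finset GA Equiv

theorem fin_opn_le_one {d : ℕ} (χ : Perm (Fin d → Bool) → ℂ) : opn χ (Qd d) ≤ 1 :=
  opn_le_one (star_Qd_mul_le d) χ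

theorem fin_sparse {d : ℕ} (hd : 1 ≤ d) {χ : Perm (Fin d → Bool) → ℂ} (hχ : IsIrr χ)
    (hk : 40 * d * lev χ ≤ 2 ^ d) :
    opn χ (Qd d) ^ 64
      ≤ ((32 * (d + 1) : ℝ) ^ 64 * (40 * d * lev χ / 2 ^ d : ℝ)) ^ lev χ := by
  have h := opn_Qd_le_sparse hd hχ hk
  have hu : (0 : ℝ) ≤ 40 * d * lev χ / 2 ^ d := by positivity
  refine (pow_le_pow_left₀ (opn_nonneg _ _) h 64).trans (le_of_eq ?_)
  generalize (32 * (d + 1) : ℝ) = P
  generalize (40 * d * lev χ / 2 ^ d : ℝ) = u at hu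
  rw [mul_pow, mul_pow, ← Real.rpow_natCast (_ ^ (lev χ / 64 : ℝ)), ← Real.rpow_mul hu,
    ← pow_mul, ← pow_mul, mul_comm (lev χ) 64]
  congr 1
  rw [← Real.rpow_natCast]
  congr 1
  push_cast
  ring

theorem fin_damp (ℓ : ℕ) :
    (star (Qd ℓ * phi (-((Real.log (2 ^ ℓ + 1) : ℝ) : ℂ)))
        * (Qd ℓ * phi (-((Real.log (2 ^ ℓ + 1) : ℝ) : ℂ)))) ^ 2
      ≤ cen fun χ : Perm (Fin ℓ → Bool) → ℂ => (((2 ^ ℓ + 1 : ℕ) : ℂ) ^ (4 * lev χ))⁻¹ := by
  set M : ℝ := Real.log (2 ^ ℓ + 1) with hM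
  set φ : GA (Perm (Fin ℓ → Bool)) := phi (-(M : ℂ)) with hφ
  set a : GA (Perm (Fin ℓ → Bool)) := star (Qd ℓ) * Qd ℓ with ha
  have hφs : star φ = φ := by
    rw [hφ, phi, star_cen]
    refine cen_congr fun χ _ => ?_
    rw [← Complex.exp_conj]
    simp
  have hc : ∀ b, φ * b = b * φ := fun b => cen_comm _ b
  have has : star a = a := by simp [ha]
  have ha1 : a * a ≤ 1 := by
    have h := star_mul_le_of_opn (a := a) (c := 1) fun χ _ => by
      refine (opn_mul_le χ _ _).trans ?_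
      rw [opn_star]
      have h1 := fin_opn_le_one χ
      have h2 := opn_nonneg χ (Qd ℓ)
      nlinarith
    simpa [has] using h
  have e1 : star (Qd ℓ * φ) * (Qd ℓ * φ) = φ * a * φ := by
    rw [star_mul, hφs, ha]; simp only [mul_assoc]
  have e2 : (φ * a * φ) ^ 2 = star (φ * φ) * (a * a) * (φ * φ) := by
    rw [star_mul, hφs, sq]
    calc φ * a * φ * (φ * a * φ) = φ * (a * φ) * (φ * a) * φ := by simp only [mul_assoc]
      _ = φ * (φ * a) * (a * φ) * φ := by rw [← hc a]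
      _ = _ := by simp only [mul_assoc]
  rw [e1, e2]
  refine (star_left_conjugate_le_conjugate ha1 (φ * φ)).trans (le_of_eq ?_)
  rw [star_mul, hφs, mul_one, hφ, phi, cen_mul, cen_mul]
  refine cen_congr fun χ _ => ?_
  have hexp : Complex.exp (M : ℂ) = ((2 ^ ℓ + 1 : ℕ) : ℂ) := by
    rw [← Complex.ofReal_exp, hM, Real.exp_log (by positivity)]
    push_cast
    rfl
  rw [← hexp, ← Complex.exp_nat_mul, ← Complex.exp_neg, ← Complex.exp_add, ← Complex.exp_add]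
  congr 1
  push_cast
  ring

theorem fin_log_le (ℓ : ℕ) : Real.log (2 ^ ℓ + 1) ≤ ℓ + 1 := by
  have h1 : (2 : ℝ) ^ ℓ + 1 ≤ 2 ^ (ℓ + 1) := by
    have : (1 : ℝ) ≤ 2 ^ ℓ := one_le_pow₀ one_le_two
    rw [pow_succ]; linarith
  have h2 : Real.log 2 ≤ 1 := by linarith [Real.log_two_lt_d9]
  calc Real.log (2 ^ ℓ + 1) ≤ Real.log (2 ^ (ℓ + 1)) := Real.log_le_log (by positivity) h1
    _ = (ℓ + 1 : ℝ) * Real.log 2 := by rw [Real.log_pow]; push_cast; ring
    _ ≤ (ℓ + 1 : ℝ) * 1 := by gcongr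
    _ = ℓ + 1 := mul_one _

theorem fin_dim {d : ℕ} (hd : 3 ≤ d) {χ : Perm (Fin d → Bool) → ℂ} (hχ : IsIrr χ)
    (h0 : opn χ (Qd d) ≠ 0) : lev χ * Real.log 2 ≤ 3 * Real.log (dim χ) := by
  have hcard : Fintype.card (Fin d → Bool) = 2 ^ d := by simp
  have h1 := hχ.two_pow_le_dim fun T hT => by
    by_contra h
    exact h0 (opn_Qd_eq_zero (by omega) hχ (hcard ▸ hT) h)
  have h2 := lev_le_card χ
  rw [hcard] at h1 h2
  obtain ⟨e, rfl⟩ : ∃ e, d = e + 3 := ⟨d - 3, by omega⟩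
  have h3 : lev χ ≤ 3 * min (lev χ) (2 ^ (e + 3) / 2 - 1) := by
    have h4 : 2 ^ (e + 3) = 8 * 2 ^ e := by ring
    have h5 : 1 ≤ 2 ^ e := Nat.one_le_two_pow
    rw [h4] at h2 ⊢
    omega
  have h6 := Real.log_le_log (by positivity) h1
  rw [Real.log_pow] at h6
  have h7 : (lev χ : ℝ) ≤ 3 * (min (lev χ) (2 ^ (e + 3) / 2 - 1) : ℕ) := by exact_mod_cast h3
  have h8 : 0 < Real.log 2 := Real.log_pos one_lt_two
  nlinarith

/-- The dense case. -/
theorem fin_dense (N : ℕ) (hN : 1 ≤ N) : ∀ᶠ d : ℕ in Filter.atTop, ∀ c₀ : ℝ, 0 < c₀ →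
    (∀ ℓ < d, ∀ χ' : Perm (Fin ℓ → Bool) → ℂ, IsIrr χ' →
      opn χ' (Qd ℓ) ≤ Real.exp (-(c₀ * lev χ'))) →
    ∀ χ : Perm (Fin d → Bool) → ℂ, IsIrr χ → 2 ^ d < lev χ * 2 ^ finY d →
      opn χ (Qd d) = 0 ∨ (lev χ * Real.log 2 ≤ 3 * Real.log (dim χ) ∧
        ∃ J M : ℝ, 0 ≤ M ∧ N * M ≤ J ∧ 1 ≤ J ∧
          opn χ (Qd d) ≤ Real.exp (-(Real.log (dim χ) / 128 * (J * c₀ / (M + J * c₀))))) := by
  obtain ⟨C, ℓ₀, hC, hB⟩ := indB
  filter_upwards [fin_ev_sq (N * 160000), fin_ev_poly (160 * C) (by positivity) 0,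
    finY_tendsto.eventually (Filter.eventually_ge_atTop (ℓ₀ + 1)),
    Filter.eventually_ge_atTop 3] with d h1 h2 h3 h4 c₀ hc₀ hW χ hχ hk
  by_cases h0 : opn χ (Qd d) = 0
  · exact Or.inl h0
  right
  have hD := fin_dim h4 hχ h0
  refine ⟨hD, ?_⟩
  set y := finY d with hy
  set k := lev χ with hkdef
  set D := Real.log (dim χ) with hDdef
  set ℓ := 400 * y + d % 2 with hℓ
  have hℓ1 : ℓ + 1 ≤ 400 * (y + 1) := by omega
  have hsq : N * (ℓ + 1) * (ℓ + 1) ≤ d := by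
    calc N * (ℓ + 1) * (ℓ + 1) ≤ N * (400 * (y + 1)) * (400 * (y + 1)) := by gcongr
      _ = N * 160000 * (y + 1) ^ 2 := by ring
      _ ≤ d := h1
  have hJ : N * (ℓ + 1) ≤ d / (ℓ + 1) := (Nat.le_div_iff_mul_le (by omega)).2 hsq
  have hJ1 : 1 ≤ d / (ℓ + 1) := le_trans (Nat.mul_pos (by omega) (by omega)) hJ
  have hℓd : ℓ < d := by
    have : 1 * (ℓ + 1) * 1 ≤ N * (ℓ + 1) * (ℓ + 1) := by gcongr; omega
    omega
  have hM0 : 0 ≤ Real.log (2 ^ ℓ + 1) := Real.log_nonneg (by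
    have : (0 : ℝ) ≤ 2 ^ ℓ := by positivity
    linarith)
  have hlog2 : 0.69 < Real.log 2 := by linarith [Real.log_two_gt_d9]
  have hkD : (k : ℝ) ≤ 5 * D := by
    have : (0 : ℝ) ≤ k := by positivity
    nlinarith
  have hT : ∀ X, Tree ℓ (Qd ℓ * phi (-((Real.log (2 ^ ℓ + 1) : ℝ) : ℂ))) d X →
      opn χ X ≤ Real.exp (-(D / 128)) := by
    intro X hX
    have h5 := (hχ.opn_pow_four_le X).trans (hB ℓ (by omega) _ (fin_damp ℓ) d X hX χ hχ)
    have h6 : (2 : ℝ) ^ (-(ℓ / 200 : ℝ)) ≤ ((2 : ℝ) ^ y * 2 ^ y)⁻¹ := by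
      rw [← pow_add, ← Real.rpow_natCast, ← Real.rpow_neg (by norm_num)]
      refine Real.rpow_le_rpow_of_exponent_le one_le_two ?_
      have : ((400 * y : ℕ) : ℝ) ≤ ℓ := by exact_mod_cast (by omega : 400 * y ≤ ℓ)
      push_cast at this ⊢
      linarith
    have h7 : (2 : ℝ) ^ d ≤ k * 2 ^ y := by exact_mod_cast hk.le
    have hy0 : (0 : ℝ) < 2 ^ y := by positivity
    have h8 : C * 2 ^ d * (2 : ℝ) ^ (-(ℓ / 200 : ℝ)) ≤ D / 32 := by
      rw [pow_zero, mul_one] at h2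
      calc C * 2 ^ d * (2 : ℝ) ^ (-(ℓ / 200 : ℝ))
          ≤ C * (k * 2 ^ y) * ((2 : ℝ) ^ y * 2 ^ y)⁻¹ := by gcongr
        _ = (160 * C) * k / (160 * 2 ^ y) := by field_simp
        _ ≤ 2 ^ y * k / (160 * 2 ^ y) := by gcongr
        _ = k / 160 := by field_simp
        _ ≤ D / 32 := by linarith
    have h9 : dim χ ^ (-(1 / 16) : ℝ) = Real.exp (-(D / 16)) := by
      rw [Real.rpow_def_of_pos hχ.dim_pos]
      congr 1
      ring
    refine (pow_le_pow_iff_left₀ (opn_nonneg _ _) (Real.exp_pos _).le four_ne_zero).1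
      (h5.trans ?_)
    rw [h9, ← Real.exp_add, ← Real.exp_nat_mul]
    refine Real.exp_le_exp.2 ?_
    push_cast
    linarith
  have hA := amp (ℓ := ℓ) (d := d) (J := d / (ℓ + 1)) (by omega) (by omega) hJ1
    (Nat.div_mul_le_self _ _) hc₀ hM0 (Real.exp_pos _) (hW ℓ hℓd) hχ hT
  refine ⟨(d / (ℓ + 1) : ℕ), Real.log (2 ^ ℓ + 1), hM0, ?_, by exact_mod_cast hJ1, ?_⟩
  · have h5 : ((N * (ℓ + 1) : ℕ) : ℝ) ≤ (d / (ℓ + 1) : ℕ) := by exact_mod_cast hJ
    refine le_trans ?_ h5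
    push_cast
    have := fin_log_le ℓ
    gcongr
  · rw [← Real.exp_mul, neg_mul] at hA
    exact hA

theorem fin_sparse_cond {d k y : ℕ} {A : ℝ} (hk : k * 2 ^ y ≤ 2 ^ d)
    (h : A * (40 * d) ≤ 2 ^ y) : A * (40 * d * k / 2 ^ d : ℝ) ≤ 1 := by
  have h1 : (k : ℝ) * 2 ^ y ≤ 2 ^ d := by exact_mod_cast hk
  rw [← mul_div_assoc, div_le_one (by positivity)]
  calc A * (40 * d * k) = A * (40 * d) * k := by ring
    _ ≤ 2 ^ y * k := by gcongr
    _ ≤ 2 ^ d := by linarith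

theorem fin_sparse_nat {d k y : ℕ} (hk : k * 2 ^ y ≤ 2 ^ d) (h : (1 : ℝ) * (40 * d) ≤ 2 ^ y) :
    40 * d * k ≤ 2 ^ d := by
  have h1 := fin_sparse_cond hk h
  rw [one_mul, div_le_one (by positivity)] at h1
  exact_mod_cast h1

theorem fin_ev_lin (A : ℝ) (hA : 0 ≤ A) (m : ℕ) :
    ∀ᶠ d : ℕ in Filter.atTop, A * ((d : ℝ) + 1) ^ m * (40 * d) ≤ 2 ^ finY d := by
  filter_upwards [fin_ev_poly (A * 40) (by positivity) (m + 1)] with d hd
  refine le_trans ?_ hd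
  rw [pow_succ]
  have h : (0 : ℝ) ≤ A * ((d : ℝ) + 1) ^ m := by positivity
  nlinarith

/-- A spectral gap that is linear in the level, uniformly in the dimension of the cube. -/
theorem exists_uniform_gap : ∃ c₀ : ℝ, 0 < c₀ ∧ ∀ (d : ℕ) (χ : Perm (Fin d → Bool) → ℂ), IsIrr χ →
    opn χ (Qd d) ≤ Real.exp (-(c₀ * lev χ)) := by
  obtain ⟨d₀, hd₀⟩ := Filter.eventually_atTop.1 ((fin_dense 1280 (by norm_num)).and
    ((fin_ev_lin (3 * 32 ^ 64) (by positivity) 64).and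
      ((fin_ev_lin 1 zero_le_one 0).and (Filter.eventually_ge_atTop 1))))
  have hsmall : ∀ᶠ c : ℝ in nhdsWithin 0 (Set.Ioi 0), ∀ d ∈ range d₀,
      ∀ χ ∈ Irr (Perm (Fin d → Bool)), opn χ (Qd d) ≤ Real.exp (-(c * lev χ)) := by
    rw [Filter.eventually_all_finset]
    intro d _
    rw [Filter.eventually_all_finset]
    intro χ hχ
    by_cases h : lev χ = 0
    · exact Filter.Eventually.of_forall fun c => by simpa [h] using fin_opn_le_one χ
    · have h1 := opn_Qd_lt_one (mem_Irr.1 hχ) h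
      have h2 : ContinuousAt (fun c : ℝ => Real.exp (-(c * lev χ))) 0 := by fun_prop
      have h3 : ∀ᶠ c : ℝ in nhds 0, opn χ (Qd d) < Real.exp (-(c * lev χ)) :=
        h2.eventually (lt_mem_nhds (by simpa using h1))
      exact (h3.mono fun c hc => hc.le).filter_mono nhdsWithin_le_nhds
  obtain ⟨c₀, hc₀, hc₁⟩ := (hsmall.and (Ioo_mem_nhdsGT (show (0 : ℝ) < 1 / 1280 by norm_num))).exists
  refine ⟨c₀, hc₁.1, fun d => ?_⟩
  induction d using Nat.strong_induction_on with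
  | _ d ih =>
  intro χ hχ
  by_cases hd : d < d₀
  · exact hc₀ d (mem_range.2 hd) χ (mem_Irr.2 hχ)
  obtain ⟨h1, h2, h3, h4⟩ := hd₀ d (by omega)
  have hk0 : (0 : ℝ) ≤ lev χ := by positivity
  by_cases hk : lev χ * 2 ^ finY d ≤ 2 ^ d
  · rw [pow_zero, mul_one] at h3
    have h5 := fin_sparse h4 hχ (fin_sparse_nat hk h3)
    have h6 := fin_sparse_cond hk h2
    clear h2 hd₀ h1
    have h7 : (32 * (d + 1) : ℝ) ^ 64 * (40 * d * lev χ / 2 ^ d : ℝ) ≤ Real.exp (-1) := by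
      have h8 : Real.exp 1 ≤ 3 := by linarith only [Real.exp_one_lt_d9]
      clear h5
      rw [Real.exp_neg, mul_pow]
      refine le_trans ?_ (inv_anti₀ (Real.exp_pos 1) h8)
      rw [mul_assoc 3, mul_assoc 3] at h6
      generalize (32 : ℝ) ^ 64 * ((d : ℝ) + 1) ^ 64 * (40 * d * lev χ / 2 ^ d) = t at h6 ⊢
      linarith
    refine (pow_le_pow_iff_left₀ (opn_nonneg _ _) (Real.exp_pos _).le
      (by norm_num : 64 ≠ 0)).1 (h5.trans ((pow_le_pow_left₀ (by positivity) h7 _).trans ?_))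
    rw [← Real.exp_nat_mul, ← Real.exp_nat_mul]
    refine Real.exp_le_exp.2 ?_
    push_cast
    clear h5 h6 h7
    nlinarith [hc₁.2]
  · clear h2 hd₀
    rcases h1 c₀ hc₁.1 ih χ hχ (by omega) with h0 | ⟨hD, J, M, hM, hJM, hJ, h5⟩
    · rw [h0]; exact (Real.exp_pos _).le
    · refine h5.trans (Real.exp_le_exp.2 (neg_le_neg ?_))
      have hlog2 : 0.69 < Real.log 2 := by linarith [Real.log_two_gt_d9]
      have hkD : (lev χ : ℝ) ≤ 5 * Real.log (dim χ) := by nlinarith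
      have hpos : 0 < M + J * c₀ := by nlinarith [hc₁.1]
      have hθ : 640 * c₀ ≤ J * c₀ / (M + J * c₀) := by
        rw [le_div_iff₀ hpos]
        push_cast at hJM
        have h6 : 640 * (M + J * c₀) ≤ J := by nlinarith [hc₁.2]
        nlinarith [hc₁.1]
      calc c₀ * lev χ = (lev χ / 640) * (640 * c₀) := by ring
        _ ≤ Real.log (dim χ) / 128 * (J * c₀ / (M + J * c₀)) := by
          have := hc₁.1
          exact mul_le_mul (by linarith) hθ (by positivity) (by linarith)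

theorem fin_sparse_term {C : ℝ} {d : ℕ} (hd : 1 ≤ d) {χ : Perm (Fin d → Bool) → ℂ} (hχ : IsIrr χ)
    (hk : 40 * d * lev χ ≤ 2 ^ d)
    (hA : (ev χ ((star (Qd d) * Qd d) ^ 2)).re ≤ dim χ ^ (-(1 / 16) : ℝ)
      * ((((2 : ℝ) ^ d) ^ lev χ / ((lev χ).factorial : ℝ)) ^ (5 / 4 : ℝ)
        * Real.exp (C * lev χ))) :
    dim χ ^ 2 * opn χ (Qd d) ^ (2 * 1600) ≤
      ((120 * ((d : ℝ) + 1)) ^ 40 * Real.exp (32 * C) * ((32 * (d + 1) : ℝ) ^ 64) ^ 48
        * (40 * d * lev χ / 2 ^ d : ℝ)) ^ lev χ := by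
  have h1 := (hχ.opn_pow_four_le _).trans hA
  have h2 := fin_sparse hd hχ hk
  set k := lev χ with hkdef
  set u : ℝ := 40 * d * k / 2 ^ d with hu
  set P : ℝ := (32 * (d + 1) : ℝ) ^ 64 with hP
  set F : ℝ := ((2 : ℝ) ^ d) ^ k / (k.factorial : ℝ) with hF
  set o := opn χ (Qd d) with ho
  have ho0 : 0 ≤ o := opn_nonneg _ _
  have hu0 : 0 ≤ u := by positivity
  have hu1 : u ≤ 1 := by
    rw [hu, div_le_one (by positivity)]
    exact_mod_cast hk
  have hP0 : 0 ≤ P := by positivity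
  have hF0 : 0 ≤ F := by positivity
  have hdim := hχ.dim_pos
  clear_value o F P u k
  clear hA ho hP
  have h3 : dim χ ^ 2 * (o ^ 4) ^ 32 ≤ F ^ 40 * Real.exp (32 * C) ^ k := by
    have e1 : (dim χ ^ (-(1 / 16) : ℝ)) ^ 32 = (dim χ ^ 2)⁻¹ := by
      rw [← Real.rpow_natCast, ← Real.rpow_mul hdim.le, ← Real.rpow_natCast,
        ← Real.rpow_neg hdim.le]
      norm_num
    have e2 : (F ^ (5 / 4 : ℝ)) ^ 32 = F ^ 40 := by
      rw [← Real.rpow_natCast, ← Real.rpow_mul hF0, ← Real.rpow_natCast]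
      norm_num
    have e3 : Real.exp (C * k) ^ 32 = Real.exp (32 * C) ^ k := by
      rw [← Real.exp_nat_mul, ← Real.exp_nat_mul]
      congr 1
      push_cast
      ring
    have h4 := pow_le_pow_left₀ (by positivity) h1 32
    rw [mul_pow, mul_pow, e1, e2, e3] at h4
    calc dim χ ^ 2 * (o ^ 4) ^ 32
        ≤ dim χ ^ 2 * ((dim χ ^ 2)⁻¹ * (F ^ 40 * Real.exp (32 * C) ^ k)) := by gcongr
      _ = _ := by field_simp
  have h5 : F * u ^ k ≤ (120 * ((d : ℝ) + 1)) ^ k := by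
    have e1 : F * u ^ k = (40 * d : ℝ) ^ k * ((k : ℝ) ^ k / (k.factorial : ℝ)) := by
      rw [hF, hu, div_pow, mul_pow (40 * d : ℝ)]
      field_simp
    have h6 := Real.pow_div_factorial_le_exp (k : ℝ) (by positivity) k
    have h7 : Real.exp k ≤ 3 ^ k := by
      rw [← mul_one (k : ℝ), Real.exp_nat_mul]
      exact pow_le_pow_left₀ (Real.exp_pos _).le (by linarith [Real.exp_one_lt_d9]) k
    rw [e1]
    calc (40 * d : ℝ) ^ k * ((k : ℝ) ^ k / (k.factorial : ℝ)) ≤ (40 * (d + 1) : ℝ) ^ k * 3 ^ k := by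
          gcongr
          · linarith
          · exact h6.trans h7
      _ = _ := by rw [← mul_pow]; congr 1; ring
  have h8 : (u ^ 8) ^ k ≤ u ^ k :=
    pow_le_pow_left₀ (by positivity) (pow_le_of_le_one hu0 hu1 (by norm_num)) k
  have e4 : o ^ (2 * 1600) = (o ^ 4) ^ 32 * (o ^ 64) ^ 48 := by
    rw [← pow_mul, ← pow_mul, ← pow_add]
  have h9 : (o ^ 64) ^ 48 ≤ ((P * u) ^ k) ^ 48 := pow_le_pow_left₀ (pow_nonneg ho0 _) h2 48
  have e5 : F ^ 40 * Real.exp (32 * C) ^ k * ((P * u) ^ k) ^ 48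
      = (F * u ^ k) ^ 40 * Real.exp (32 * C) ^ k * (P ^ 48) ^ k * (u ^ 8) ^ k := by
    have e6 : ((P * u) ^ k) ^ 48 = (P ^ 48) ^ k * ((u ^ k) ^ 40 * (u ^ 8) ^ k) := by
      rw [← pow_mul u 8 k, mul_comm 8 k, pow_mul u k 8, ← pow_add, ← pow_mul P 48 k,
        mul_comm 48 k, pow_mul P k 48, ← mul_pow, ← mul_pow]
    rw [e6, mul_pow F]
    generalize (P ^ 48) ^ k = a
    generalize (u ^ k) ^ 40 = b
    generalize (u ^ 8) ^ k = c
    generalize F ^ 40 = e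
    ring
  calc dim χ ^ 2 * o ^ (2 * 1600) = dim χ ^ 2 * (o ^ 4) ^ 32 * (o ^ 64) ^ 48 := by
        rw [e4, mul_assoc]
    _ ≤ F ^ 40 * Real.exp (32 * C) ^ k * ((P * u) ^ k) ^ 48 :=
        mul_le_mul h3 h9 (pow_nonneg (pow_nonneg ho0 _) _) (by positivity)
    _ = (F * u ^ k) ^ 40 * Real.exp (32 * C) ^ k * (P ^ 48) ^ k * (u ^ 8) ^ k := e5
    _ ≤ ((120 * ((d : ℝ) + 1)) ^ k) ^ 40 * Real.exp (32 * C) ^ k * (P ^ 48) ^ k * u ^ k := by
        gcongr
    _ = _ := by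
        rw [← pow_mul _ k 40, mul_comm k 40, pow_mul, ← mul_pow, ← mul_pow, ← mul_pow]

theorem fin_const {a b c e : ℝ} (ha : 0 ≤ a) (hb : 0 ≤ b) (hc : 0 ≤ c) (he : 0 ≤ e) (i j l : ℕ) :
    ∃ (A : ℝ) (m : ℕ), 0 ≤ A ∧ ∀ x : ℝ, a * ((c * x) ^ i * b * ((e * x) ^ j) ^ l) = A * x ^ m := by
  refine ⟨a * (c ^ i * b * (e ^ j) ^ l), i + j * l, by positivity, fun x => ?_⟩
  rw [pow_add, pow_mul, mul_pow c, mul_pow e, mul_pow (e ^ j)]
  ring

theorem fin_term {η : ℝ} (hη : 0 < η) (hη1 : η ≤ 1) : ∀ᶠ d : ℕ in Filter.atTop,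
    ∀ χ : Perm (Fin d → Bool) → ℂ, IsIrr χ → lev χ ≠ 0 →
      dim χ ^ 2 * opn χ (Qd d) ^ (2 * 1600) ≤ η * (1 / 8) ^ lev χ := by
  obtain ⟨c₀, hc₀, hW⟩ := exists_uniform_gap
  obtain ⟨C, hC, hA⟩ := indA
  obtain ⟨N, hN⟩ := exists_nat_ge (1 / c₀)
  obtain ⟨A, m, hA0, hA1⟩ := fin_const (div_pos (by norm_num : (0 : ℝ) < 8) hη).le
    (Real.exp_pos (32 * C)).le (by norm_num : (0 : ℝ) ≤ 120) (by norm_num : (0 : ℝ) ≤ 32) 40 64 48
  filter_upwards [fin_dense (N + 1) (by omega), fin_ev_lin A hA0 m,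
    fin_ev_lin 1 zero_le_one 0, Filter.eventually_ge_atTop 1, fin_ev_sq 2,
    tendsto_natCast_atTop_atTop.eventually (Filter.eventually_ge_atTop (-5 * Real.log η))]
    with d h1 h2 h3 h4 h5 h6 χ hχ hk0
  rw [pow_zero, mul_one] at h3
  by_cases hk : lev χ * 2 ^ finY d ≤ 2 ^ d
  · have h7 := fin_sparse_term h4 hχ (fin_sparse_nat hk h3) (hA d χ hχ)
    rw [← hA1] at h2
    have h8 := fin_sparse_cond hk h2
    rw [mul_assoc (8 / η)] at h8
    clear h2 hA1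
    have h9 : 0 ≤ (120 * ((d : ℝ) + 1)) ^ 40 * Real.exp (32 * C) * ((32 * (d + 1) : ℝ) ^ 64) ^ 48
        * (40 * d * lev χ / 2 ^ d : ℝ) :=
      mul_nonneg (mul_nonneg (mul_nonneg (pow_nonneg (by positivity) _) (Real.exp_pos _).le)
        (pow_nonneg (pow_nonneg (by positivity) _) _)) (by positivity)
    generalize (120 * ((d : ℝ) + 1)) ^ 40 * Real.exp (32 * C) * ((32 * (d + 1) : ℝ) ^ 64) ^ 48
        * (40 * d * lev χ / 2 ^ d : ℝ) = t at h7 h8 h9
    have h10 : t ≤ η * (1 / 8) := by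
      rw [div_mul_eq_mul_div, div_le_one hη] at h8
      linarith
    refine h7.trans ((pow_le_pow_left₀ h9 h10 _).trans ?_)
    rw [mul_pow]
    gcongr
    exact pow_le_of_le_one hη.le hη1 hk0
  · rcases h1 c₀ hc₀ (fun ℓ _ => hW ℓ) χ hχ (by omega) with h0 | ⟨hD, J, M, hM, hJM, hJ, h7⟩
    · rw [h0, zero_pow (by norm_num), mul_zero]; positivity
    · have hdk : d ≤ lev χ := by
        have h8 : d ≤ 2 ^ finY d := by
          have : (d : ℝ) ≤ 2 ^ finY d := by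
            have : (0 : ℝ) ≤ d := by positivity
            linarith
          exact_mod_cast this
        have h9 : 2 ^ finY d * 2 ^ finY d ≤ 2 ^ d := by
          rw [← pow_add]
          exact Nat.pow_le_pow_right (by norm_num) (by nlinarith)
        by_contra hlt
        have : lev χ * 2 ^ finY d ≤ 2 ^ finY d * 2 ^ finY d :=
          Nat.mul_le_mul_right _ (by omega)
        omega
      have hlog2 : 0.69 < Real.log 2 := by linarith [Real.log_two_gt_d9]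
      have hk1 : (0 : ℝ) ≤ lev χ := by positivity
      have hkD : (lev χ : ℝ) ≤ 5 * Real.log (dim χ) := by nlinarith
      have hdk' : (d : ℝ) ≤ lev χ := by exact_mod_cast hdk
      have hpos : 0 < M + J * c₀ := by nlinarith
      have hθ : 1 / 2 ≤ J * c₀ / (M + J * c₀) := by
        rw [le_div_iff₀ hpos]
        push_cast at hJM
        rw [div_le_iff₀ hc₀] at hN
        have h8 : M ≤ N * c₀ * M := by nlinarith
        have h9 : N * M * c₀ ≤ J * c₀ := by gcongr; linarith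
        nlinarith
      set D := Real.log (dim χ) with hDdef
      have hD0 : 0 ≤ D := by linarith
      have h8 : opn χ (Qd d) ≤ Real.exp (-(D / 256)) := by
        refine h7.trans (Real.exp_le_exp.2 (neg_le_neg ?_))
        calc D / 256 = D / 128 * (1 / 2) := by ring
          _ ≤ _ := by gcongr
      have h9 := pow_le_pow_left₀ (opn_nonneg _ _) h8 (2 * 1600)
      have e1 : dim χ = Real.exp D := (Real.exp_log hχ.dim_pos).symm
      have e2 : η * (1 / 8) ^ lev χ = Real.exp (Real.log η - lev χ * (3 * Real.log 2)) := by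
        have e3 : Real.exp (3 * Real.log 2) = 8 := by
          rw [show (3 : ℝ) = ((3 : ℕ) : ℝ) by norm_num, Real.exp_nat_mul, Real.exp_log two_pos]
          norm_num
        rw [Real.exp_sub, Real.exp_log hη, Real.exp_nat_mul, e3, one_div, inv_pow, div_eq_mul_inv]
      calc dim χ ^ 2 * opn χ (Qd d) ^ (2 * 1600)
          ≤ dim χ ^ 2 * Real.exp (-(D / 256)) ^ (2 * 1600) := by gcongr
        _ = Real.exp (-(21 / 2 * D)) := by
            rw [e1, ← Real.exp_nat_mul, ← Real.exp_nat_mul, ← Real.exp_add]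
            congr 1
            push_cast
            ring
        _ ≤ _ := by
            rw [e2]
            refine Real.exp_le_exp.2 ?_
            linarith

theorem tendsto_sum : Filter.Tendsto (fun d : ℕ =>
    ∑ χ ∈ (Irr (Perm (Fin d → Bool))).erase (fun _ => 1), dim χ ^ 2 * opn χ (Qd d) ^ (2 * 1600))
    Filter.atTop (nhds 0) := by
  refine tendsto_order.2 ⟨fun a ha => Filter.Eventually.of_forall fun d =>
    ha.trans_le (sum_nonneg fun χ _ => mul_nonneg (sq_nonneg _) (pow_nonneg (opn_nonneg _ _) _)),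
    fun a ha => ?_⟩
  have hη : 0 < min (a / 8) 1 := lt_min (by positivity) one_pos
  filter_upwards [fin_term hη (min_le_right _ _)] with d hd
  set η := min (a / 8) 1 with hηdef
  set n := Fintype.card (Fin d → Bool)
  calc ∑ χ ∈ (Irr (Perm (Fin d → Bool))).erase (fun _ => 1),
        dim χ ^ 2 * opn χ (Qd d) ^ (2 * 1600)
      ≤ ∑ χ ∈ (Irr (Perm (Fin d → Bool))).erase (fun _ => 1), η * (1 / 8) ^ lev χ := by
        refine sum_le_sum fun χ hχ => ?_
        have h1 := mem_Irr.1 (mem_of_mem_erase hχ)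
        exact hd χ h1 fun h => ne_of_mem_erase hχ (h1.lev_eq_zero_iff.1 h)
    _ ≤ ∑ χ ∈ Irr (Perm (Fin d → Bool)), η * (1 / 8) ^ lev χ :=
        sum_le_sum_of_subset_of_nonneg (erase_subset _ _) fun _ _ _ => by positivity
    _ = ∑ k ∈ range (n + 1), ∑ χ ∈ Irr (Perm (Fin d → Bool)) with lev χ = k,
          η * (1 / 8) ^ k := by
        rw [sum_fiberwise_of_maps_to' (fun χ _ => mem_range.2 (Nat.lt_succ_of_le (lev_le_card χ)))
          (fun k => η * (1 / 8 : ℝ) ^ k)]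
    _ ≤ ∑ k ∈ range (n + 1), 2 * η * (1 / 2) ^ k := by
        refine sum_le_sum fun k _ => ?_
        rw [sum_const, nsmul_eq_mul]
        have h1 : ((((Irr (Perm (Fin d → Bool))).filter fun χ => lev χ = k).card : ℕ) : ℝ)
            ≤ 2 ^ (2 * k + 1) := by exact_mod_cast card_lev_le k
        calc _ ≤ (2 : ℝ) ^ (2 * k + 1) * (η * (1 / 8) ^ k) := by gcongr
          _ = 2 * η * (4 * (1 / 8)) ^ k := by rw [pow_succ, pow_mul, mul_pow]; ring
          _ = _ := by norm_num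
    _ = 2 * η * ∑ k ∈ range (n + 1), (1 / 2 : ℝ) ^ k := by rw [mul_sum]
    _ ≤ 2 * η * 2 := by gcongr; exact sum_geometric_two_le _
    _ < a := by
        have : η ≤ a / 8 := min_le_left _ _
        linarith

end Crest.Agent.R155
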