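import Crest.Agent.R155.GA

/-!
# Functionals on the group algebra, push-forward, restriction, induction, tensor products
-/

set_option linter.unusedSectionVars false

namespace Crest.Agent.R155

open scoped ComplexOrder MatrixOrder ComplexConjugate
open Finset GA

variable {G K H : Type} [Group G] [Fintype G] [DecidableEq G] [Group K] [Fintype K] [DecidableEq K]
  [Group H] [Fintype H] [DecidableEq H]

/-- The functional `a ↦ ∑ a g * χ g` attached to a function `χ` on the group. -/
noncomputable def ev (χ : G → ℂ) : GA G →ₗ[ℂ] ℂ where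
  toFun a := ∑ g, a g * χ g
  map_add' a b := by simp [add_mul, sum_add_distrib]
  map_smul' c a := by simp [mul_sum, mul_assoc]


theorem ev_apply (χ : G → ℂ) (a : GA G) : ev χ a = ∑ g, a g * χ g := rfl


@[simp] theorem ev_dl (χ : G → ℂ) (g : G) : ev χ (dl g) = χ g := by
  simp [ev_apply, dl_apply]

@[simp] theorem ev_one (χ : G → ℂ) : ev χ (1 : GA G) = χ 1 := by
  simp [ev_apply, one_apply]

theorem trace_lift {ι : Type} [Fintype ι] [DecidableEq ι] (π : G →* Matrix ι ι ℂ) (a : GA G) :
    (lift π a).trace = ev (fun g => (π g).trace) a := by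
  simp [lift_apply, ev_apply, Matrix.trace_sum]

theorem trace_lift_mul {ι : Type} [Fintype ι] [DecidableEq ι] (π : G →* Matrix ι ι ℂ) (a : GA G)
    (T : Matrix ι ι ℂ) : (lift π a * T).trace = ev (fun g => (π g * T).trace) a := by
  simp [lift_apply, ev_apply, Matrix.trace_sum, Matrix.sum_mul]

/-- A positive tracial functional. -/
structure IsTr (τ : GA G →ₗ[ℂ] ℂ) : Prop where
  comm : ∀ a b, τ (a * b) = τ (b * a)
  pos : ∀ a, 0 ≤ a → 0 ≤ τ a

theorem IsTr.mono {τ : GA G →ₗ[ℂ] ℂ} (h : IsTr τ) {a b : GA G} (hab : a ≤ b) : τ a ≤ τ b := by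
  have := h.pos _ (sub_nonneg.2 hab)
  rwa [map_sub, sub_nonneg] at this

theorem IsTr.mul_nonneg {τ : GA G →ₗ[ℂ] ℂ} (h : IsTr τ) {a b : GA G} (ha : 0 ≤ a) (hb : 0 ≤ b) :
    0 ≤ τ (a * b) := by
  obtain ⟨c, hc, rfl⟩ := exists_star_mul_self ha
  rw [mul_assoc, h.comm]
  apply h.pos
  have := star_left_conjugate_nonneg hb c
  rwa [hc] at this

theorem IsTr.add {τ σ : GA G →ₗ[ℂ] ℂ} (h : IsTr τ) (h' : IsTr σ) : IsTr (τ + σ) :=
  ⟨fun a b => by simp [h.comm a b, h'.comm a b], fun a ha => add_nonneg (h.pos a ha) (h'.pos a ha)⟩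

theorem IsTr.zero : IsTr (0 : GA G →ₗ[ℂ] ℂ) := ⟨fun _ _ => rfl, fun _ _ => le_rfl⟩

theorem IsTr.smul {τ : GA G →ₗ[ℂ] ℂ} (h : IsTr τ) {c : ℂ} (hc : 0 ≤ c) : IsTr (c • τ) :=
  ⟨fun a b => by simp [h.comm a b], fun a ha => by
    simpa using _root_.mul_nonneg hc (h.pos a ha)⟩

theorem IsTr.sum {α : Type*} (s : Finset α) {τ : α → GA G →ₗ[ℂ] ℂ} (h : ∀ i ∈ s, IsTr (τ i)) :
    IsTr (∑ i ∈ s, τ i) := by
  classical
  induction s using Finset.induction_on with
  | empty => simpa using IsTr.zero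
  | insert i s hi ih =>
    rw [sum_insert hi]
    exact (h i (mem_insert_self _ _)).add (ih fun j hj => h j (mem_insert_of_mem hj))

/-- The Araki-Lieb-Thirring inequality for exponent two. -/
theorem IsTr.alt {τ : GA G →ₗ[ℂ] ℂ} (h : IsTr τ) (x y : GA G) :
    τ ((star (x * y) * (x * y)) ^ 2) ≤ τ ((star x * x) ^ 2 * (y * star y) ^ 2) := by
  set A := star x * x with hA
  set B := y * star y with hB
  have hAs : star A = A := by simp [hA]
  have hBs : star B = B := by simp [hB]
  have h1 : τ ((star (x * y) * (x * y)) ^ 2) = τ (A * B * (A * B)) := by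
    have : (star (x * y) * (x * y)) ^ 2 = star y * (A * B * A * y) := by
      simp only [hA, hB, star_mul, pow_two, mul_assoc]
    rw [this, h.comm]
    simp only [hB, mul_assoc]
  have h2 := h.pos _ (star_mul_self_nonneg (A * B - B * A))
  have h3 : star (A * B - B * A) * (A * B - B * A)
      = B * (A * A * B) - B * (A * B * A) - A * B * (A * B) + A * (B * B * A) := by
    simp only [star_sub, star_mul, hAs, hBs]
    noncomm_ring
  rw [h3, map_add, map_sub, map_sub, h.comm B (A * A * B), h.comm B (A * B * A),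
    h.comm A (B * B * A)] at h2
  have e1 : A * A * B * B = A ^ 2 * B ^ 2 := by noncomm_ring
  have e2 : A * B * A * B = A * B * (A * B) := by noncomm_ring
  have e3 : τ (B * B * A * A) = τ (A ^ 2 * B ^ 2) := by
    rw [h.comm (A ^ 2)]; congr 1; noncomm_ring
  rw [e1, e2, e3] at h2
  rw [h1]
  have h4 : (0 : ℂ) ≤ 2 * (τ (A ^ 2 * B ^ 2) - τ (A * B * (A * B))) := by
    convert h2 using 1; ring
  have h5 : (0 : ℂ) ≤ τ (A ^ 2 * B ^ 2) - τ (A * B * (A * B)) := by
    have := _root_.mul_nonneg (show (0 : ℂ) ≤ 1 / 2 by norm_num [Complex.le_def]) h4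
    convert this using 1; ring
  exact sub_nonneg.1 h5

theorem IsTr.star_sq {τ : GA G →ₗ[ℂ] ℂ} (h : IsTr τ) (x : GA G) :
    τ ((star (star x) * star x) ^ 2) = τ ((star x * x) ^ 2) := by
  have : (star (star x) * star x) ^ 2 = x * (star x * x * star x) := by
    simp only [star_star, pow_two, mul_assoc]
  rw [this, h.comm]
  simp only [pow_two, mul_assoc]

/-- The functional `a ↦ tr (π a * T)` for a positive `T` commuting with a unitary `π`. -/
theorem isTr_trace {ι : Type} [Fintype ι] [DecidableEq ι] {π : G →* Matrix ι ι ℂ} (hπ : IsU π)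
    {T : Matrix ι ι ℂ} (hT : 0 ≤ T) (hc : ∀ g, T * π g = π g * T) :
    IsTr (ev (fun g => (π g * T).trace)) := by
  refine ⟨fun a b => ?_, fun a ha => ?_⟩
  · rw [← trace_lift_mul, ← trace_lift_mul, map_mul, map_mul, mul_assoc, Matrix.trace_mul_comm,
      mul_assoc, commute_lift π hc a, ← mul_assoc]
  · rw [← trace_lift_mul]
    obtain ⟨b, hb, rfl⟩ := exists_star_mul_self ha
    have hs : star (lift π b) = lift π b := by rw [← lift_star hπ, hb]
    rw [map_mul, mul_assoc, Matrix.trace_mul_comm]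
    have := star_left_conjugate_nonneg hT (lift π b)
    rw [hs] at this
    exact (Matrix.nonneg_iff_posSemidef.1 this).trace_nonneg

/-! ### push-forward and restriction along a homomorphism -/

/-- Push-forward along a group homomorphism. -/
noncomputable def push (φ : K →* G) : GA K →ₐ[ℂ] GA G := lift ((dlHom G).comp φ)

theorem isU_comp {A : Type*} [Monoid A] [Star A] {π : G →* A} (hπ : IsU π) (φ : K →* G) :
    IsU (π.comp φ) := fun k => by simp [hπ (φ k)]

@[simp] theorem push_dl (φ : K →* G) (k : K) : push φ (dl k) = dl (φ k) := by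
  simp [push]

theorem push_apply (φ : K →* G) (a : GA K) (g : G) :
    push φ a g = ∑ k, if g = φ k then a k else 0 := by
  simp [push, lift_apply, sum_apply, dl_apply]

theorem push_apply_of_inj {φ : K →* G} (hφ : Function.Injective φ) (a : GA K) (k : K) :
    push φ a (φ k) = a k := by
  simp [push_apply, hφ.eq_iff]

theorem push_apply_of_notMem {φ : K →* G} (a : GA K) {g : G} (hg : g ∉ φ.range) :
    push φ a g = 0 := by
  rw [push_apply]
  exact sum_eq_zero fun k _ => if_neg fun h => hg ⟨k, h.symm⟩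

theorem push_star (φ : K →* G) (a : GA K) : push φ (star a) = star (push φ a) :=
  lift_star (isU_comp isU_dlHom φ) a

theorem push_nonneg (φ : K →* G) {a : GA K} (ha : 0 ≤ a) : 0 ≤ push φ a :=
  lift_nonneg (isU_comp isU_dlHom φ) ha

theorem push_mono (φ : K →* G) {a b : GA K} (h : a ≤ b) : push φ a ≤ push φ b :=
  lift_mono (isU_comp isU_dlHom φ) h

theorem lift_push {A : Type*} [Ring A] [Algebra ℂ A] (π : G →* A) (φ : K →* G) (a : GA K) :
    lift π (push φ a) = lift (π.comp φ) a := by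
  conv_lhs => rw [← sum_smul_dl a]
  simp [lift_apply (π.comp φ)]

theorem push_push (φ : K →* G) (ψ : H →* K) (a : GA H) :
    push φ (push ψ a) = push (φ.comp ψ) a := by
  rw [push, lift_push]; rfl

theorem push_id (a : GA G) : push (MonoidHom.id G) a = a := by
  ext g; simp [push_apply]

theorem ev_push (χ : G → ℂ) (φ : K →* G) (a : GA K) : ev χ (push φ a) = ev (χ ∘ φ) a := by
  conv_lhs => rw [← sum_smul_dl a]
  simp [ev_apply (χ ∘ φ)]

/-- Restriction of a function along a homomorphism (conditional expectation when injective). -/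
def pull (φ : K →* G) : GA G →ₗ[ℂ] GA K where
  toFun a := fun k => a (φ k)
  map_add' _ _ := rfl
  map_smul' _ _ := rfl


@[simp] theorem pull_apply (φ : K →* G) (a : GA G) (k : K) : pull φ a k = a (φ k) := rfl


theorem pull_pull (φ : K →* G) (ψ : H →* K) (a : GA G) :
    pull ψ (pull φ a) = pull (φ.comp ψ) a := rfl


theorem pull_star (φ : K →* G) (a : GA G) : pull φ (star a) = star (pull φ a) := by
  ext k; simp

theorem pull_push {φ : K →* G} (hφ : Function.Injective φ) (a : GA K) :
    pull φ (push φ a) = a := by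
  ext k; simp [push_apply_of_inj hφ]

theorem pull_one {φ : K →* G} (hφ : Function.Injective φ) : pull φ (1 : GA G) = 1 := by
  have := pull_push hφ 1
  rwa [map_one] at this

theorem push_pull_of_supp {φ : K →* G} (hφ : Function.Injective φ) {a : GA G}
    (ha : ∀ g, g ∉ φ.range → a g = 0) : push φ (pull φ a) = a := by
  ext g
  by_cases hg : g ∈ φ.range
  · obtain ⟨k, rfl⟩ := hg
    simp [push_apply_of_inj hφ]
  · rw [push_apply_of_notMem _ hg, ha g hg]

theorem pull_push_mul (φ : K →* G) (b : GA K) (a : GA G) :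
    pull φ (push φ b * a) = b * pull φ a := by
  conv_lhs => rw [← sum_smul_dl b]
  conv_rhs => rw [← sum_smul_dl b]
  simp only [map_sum, map_smul, push_dl, sum_mul, smul_mul_assoc]
  refine sum_congr rfl fun k _ => ?_
  congr 1
  ext j
  simp [dl_mul_apply]

theorem pull_mul_push (φ : K →* G) (a : GA G) (b : GA K) :
    pull φ (a * push φ b) = pull φ a * b := by
  conv_lhs => rw [← sum_smul_dl b]
  conv_rhs => rw [← sum_smul_dl b]
  simp only [map_sum, map_smul, push_dl, mul_sum, mul_smul_comm]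
  refine sum_congr rfl fun k _ => ?_
  congr 1
  ext j
  simp [mul_dl_apply]

theorem pull_mul_of_supp {φ : K →* G} (hφ : Function.Injective φ) {a : GA G}
    (ha : ∀ g, g ∉ φ.range → a g = 0) (b : GA G) : pull φ (a * b) = pull φ a * pull φ b := by
  conv_lhs => rw [← push_pull_of_supp hφ ha]
  rw [pull_push_mul]

theorem pull_nonneg {φ : K →* G} (hφ : Function.Injective φ) {a : GA G} (ha : 0 ≤ a) :
    0 ≤ pull φ a := by
  rw [nonneg_iff] at ha ⊢
  have : lift (regRep K) (pull φ a) = (lift (regRep G) a).submatrix φ φ := by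
    ext x y; simp [lift_regRep_apply]
  rw [this]
  have _ := hφ
  exact ha.submatrix _

theorem pull_mono {φ : K →* G} (hφ : Function.Injective φ) {a b : GA G} (h : a ≤ b) :
    pull φ a ≤ pull φ b := by
  have := pull_nonneg hφ (sub_nonneg.2 h)
  rwa [map_sub, sub_nonneg] at this

/-! ### induction of functionals -/

/-- The functional induced along `φ`. -/
noncomputable def ind (φ : K →* G) (τ : GA K →ₗ[ℂ] ℂ) : GA G →ₗ[ℂ] ℂ where
  toFun a := (Fintype.card K : ℂ)⁻¹ * ∑ h : G, τ (pull φ (dl h⁻¹ * a * dl h))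
  map_add' a b := by simp [mul_add, add_mul, sum_add_distrib]
  map_smul' c a := by simp [← mul_sum, mul_left_comm]

theorem ind_apply (φ : K →* G) (τ : GA K →ₗ[ℂ] ℂ) (a : GA G) :
    ind φ τ a = (Fintype.card K : ℂ)⁻¹ * ∑ h : G, τ (pull φ (dl h⁻¹ * a * dl h)) := rfl

theorem conj_apply (h : G) (a : GA G) (g : G) : (dl h⁻¹ * a * dl h) g = a (h * g * h⁻¹) := by
  simp [mul_dl_apply, dl_mul_apply, mul_assoc]

theorem tr_comm_of_conj {τ : GA G →ₗ[ℂ] ℂ} (h : ∀ g a, τ (dl g⁻¹ * a * dl g) = τ a) (a b : GA G) :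
    τ (a * b) = τ (b * a) := by
  conv_lhs => rw [← sum_smul_dl a]
  conv_rhs => rw [← sum_smul_dl a]
  simp only [sum_mul, mul_sum, smul_mul_assoc, mul_smul_comm, map_sum, map_smul]
  refine sum_congr rfl fun g _ => ?_
  rw [← h g (dl g * b)]
  simp [← mul_assoc, dl_mul_dl, dl_one]

theorem ind_conj (φ : K →* G) (τ : GA K →ₗ[ℂ] ℂ) (g : G) (a : GA G) :
    ind φ τ (dl g⁻¹ * a * dl g) = ind φ τ a := by
  rw [ind_apply, ind_apply]
  congr 1
  refine Fintype.sum_equiv (Equiv.mulLeft g) _ _ fun h => ?_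
  simp [← mul_assoc, dl_mul_dl]
  simp [mul_assoc, dl_mul_dl]

theorem ind_pos {φ : K →* G} (hφ : Function.Injective φ) {τ : GA K →ₗ[ℂ] ℂ}
    (hτ : ∀ a, 0 ≤ a → 0 ≤ τ a) {a : GA G} (ha : 0 ≤ a) : 0 ≤ ind φ τ a := by
  rw [ind_apply]
  refine _root_.mul_nonneg (by positivity) (sum_nonneg fun h _ => hτ _ (pull_nonneg hφ ?_))
  have := star_left_conjugate_nonneg ha (dl h)
  rwa [star_dl] at this

theorem isTr_ind {φ : K →* G} (hφ : Function.Injective φ) {τ : GA K →ₗ[ℂ] ℂ}
    (hτ : ∀ a, 0 ≤ a → 0 ≤ τ a) : IsTr (ind φ τ) :=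
  ⟨tr_comm_of_conj (ind_conj φ τ), fun _ ha => ind_pos hφ hτ ha⟩

/-- Induction is monotone for the order of positive functionals. -/
theorem ind_mono {φ : K →* G} (hφ : Function.Injective φ) {τ σ : GA K →ₗ[ℂ] ℂ}
    (h : ∀ a, 0 ≤ a → τ a ≤ σ a) {a : GA G} (ha : 0 ≤ a) : ind φ τ a ≤ ind φ σ a := by
  have := ind_pos hφ (τ := σ - τ) (fun a ha => by simpa using h a ha) ha
  simp only [ind_apply, LinearMap.sub_apply, sum_sub_distrib, mul_sub] at this ⊢
  exact sub_nonneg.1 this

theorem ind_add (φ : K →* G) (τ σ : GA K →ₗ[ℂ] ℂ) : ind φ (τ + σ) = ind φ τ + ind φ σ := by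
  ext a; simp [ind_apply, sum_add_distrib, mul_add]

theorem ind_smul (φ : K →* G) (c : ℂ) (τ : GA K →ₗ[ℂ] ℂ) : ind φ (c • τ) = c • ind φ τ := by
  ext a; simp [ind_apply, ← mul_sum, mul_left_comm]

theorem ind_sum {α : Type*} (φ : K →* G) (s : Finset α) (τ : α → GA K →ₗ[ℂ] ℂ) :
    ind φ (∑ i ∈ s, τ i) = ∑ i ∈ s, ind φ (τ i) := by
  ext a
  simp only [ind_apply, LinearMap.coe_sum, Finset.sum_apply, ← mul_sum]
  rw [sum_comm]

/-- Transitivity of induction. -/
theorem ind_ind (φ : K →* G) (ψ : H →* K) (τ : GA H →ₗ[ℂ] ℂ) :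
    ind φ (ind ψ τ) = ind (φ.comp ψ) τ := by
  ext a
  simp only [ind_apply, ← mul_sum]
  rw [sum_comm]
  have key : ∀ k : K, ∑ h : G, τ (pull ψ (dl k⁻¹ * pull φ (dl h⁻¹ * a * dl h) * dl k))
      = ∑ h : G, τ (pull (φ.comp ψ) (dl h⁻¹ * a * dl h)) := by
    intro k
    refine Fintype.sum_equiv (Equiv.mulRight (φ k)) _ _ fun h => ?_
    congr 1
    ext j
    simp only [pull_apply, conj_apply, Equiv.coe_mulRight, MonoidHom.comp_apply, map_mul, map_inv]
    congr 1
    group
  simp only [key, sum_const, card_univ, nsmul_eq_mul]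
  have : (Fintype.card K : ℂ) ≠ 0 := by exact_mod_cast Fintype.card_ne_zero
  field_simp

theorem ind_one {φ : K →* G} (hφ : Function.Injective φ) (τ : GA K →ₗ[ℂ] ℂ) :
    ind φ τ 1 = (Fintype.card G : ℂ) / (Fintype.card K : ℂ) * τ 1 := by
  simp [ind_apply, dl_mul_dl, dl_one, pull_one hφ, div_eq_mul_inv, mul_left_comm, mul_assoc]

theorem ind_id_of_isTr {τ : GA G →ₗ[ℂ] ℂ} (h : IsTr τ) : ind (MonoidHom.id G) τ = τ := by
  ext a
  have : ∀ g : G, τ (pull (MonoidHom.id G) (dl g⁻¹ * a * dl g)) = τ a := fun g => by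
    change τ (dl g⁻¹ * a * dl g) = τ a
    rw [h.comm, ← mul_assoc, dl_mul_dl, mul_inv_cancel, dl_one, one_mul]
  have h0 : (Fintype.card G : ℂ) ≠ 0 := by exact_mod_cast Fintype.card_ne_zero
  simp only [ind_apply, this, sum_const, card_univ, nsmul_eq_mul]
  field_simp

/-! ### uniform measures on subgroups, twisted by a character -/

open Classical in
/-- The uniform probability on a subgroup, twisted by a function `σ` (a sign character or `1`). -/
noncomputable def avgTw (S : Subgroup G) (σ : G → ℂ) : GA G :=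
  fun g => if g ∈ S then σ g / (Nat.card S : ℂ) else 0

/-- The uniform probability on a subgroup. -/
noncomputable def avgSub (S : Subgroup G) : GA G := avgTw S fun _ => 1

/-- `σ` is a unitary one-dimensional character on the subgroup `S`. -/
structure IsChar (S : Subgroup G) (σ : G → ℂ) : Prop where
  one : σ 1 = 1
  mul : ∀ g ∈ S, ∀ h ∈ S, σ (g * h) = σ g * σ h
  inv : ∀ g ∈ S, σ g⁻¹ = conj (σ g)


theorem isChar_one (S : Subgroup G) : IsChar S fun _ => 1 := ⟨rfl, by simp, by simp⟩


theorem avgTw_of_notMem {S : Subgroup G} (σ : G → ℂ) {g : G} (hg : g ∉ S) : avgTw S σ g = 0 := by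
  simp [avgTw, hg]


theorem avgTw_of_mem {S : Subgroup G} (σ : G → ℂ) {g : G} (hg : g ∈ S) :
    avgTw S σ g = σ g / (Nat.card S : ℂ) := by
  simp [avgTw, hg]


theorem star_avgTw {S : Subgroup G} {σ : G → ℂ} (h : IsChar S σ) :
    star (avgTw S σ) = avgTw S σ := by
  ext g
  by_cases hg : g ∈ S
  · simp [avgTw_of_mem σ hg, avgTw_of_mem σ (S.inv_mem hg), h.inv g hg]
  · have : g⁻¹ ∉ S := fun h' => hg (by simpa using S.inv_mem h')
    simp [avgTw_of_notMem σ hg, avgTw_of_notMem σ this]

theorem dl_mul_avgTw {S : Subgroup G} {σ : G → ℂ} (h : IsChar S σ) {s : G} (hs : s ∈ S) :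
    dl s * avgTw S σ = conj (σ s) • avgTw S σ := by
  ext g
  rw [dl_mul_apply, smul_apply]
  by_cases hg : g ∈ S
  · rw [avgTw_of_mem σ (S.mul_mem (S.inv_mem hs) hg), avgTw_of_mem σ hg,
      h.mul _ (S.inv_mem hs) _ hg, h.inv s hs, mul_div_assoc]
  · have : s⁻¹ * g ∉ S := fun h' => hg (by simpa using S.mul_mem hs h')
    simp [avgTw_of_notMem σ hg, avgTw_of_notMem σ this]

theorem avgTw_mul_dl {S : Subgroup G} {σ : G → ℂ} (h : IsChar S σ) {s : G} (hs : s ∈ S) :
    avgTw S σ * dl s = conj (σ s) • avgTw S σ := by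
  ext g
  rw [mul_dl_apply, smul_apply]
  by_cases hg : g ∈ S
  · rw [avgTw_of_mem σ (S.mul_mem hg (S.inv_mem hs)), avgTw_of_mem σ hg,
      h.mul _ hg _ (S.inv_mem hs), h.inv s hs]
    ring
  · have : g * s⁻¹ ∉ S := fun h' => hg (by simpa using S.mul_mem h' hs)
    simp [avgTw_of_notMem σ hg, avgTw_of_notMem σ this]


theorem IsChar.mul_conj {S : Subgroup G} {σ : G → ℂ} (h : IsChar S σ) {s : G} (hs : s ∈ S) :
    σ s * conj (σ s) = 1 := by
  rw [← h.inv s hs, ← h.mul _ hs _ (S.inv_mem hs), mul_inv_cancel, h.one]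

/-- A smaller twisted average is absorbed by a larger one with the same character. -/
theorem avgTw_mul_avgTw_of_le {S S' : Subgroup G} {σ σ' : G → ℂ} (h : IsChar S σ) (hle : S' ≤ S)
    (hσ : ∀ g ∈ S', σ' g = σ g) : avgTw S' σ' * avgTw S σ = avgTw S σ := by
  classical
  conv_lhs => rw [← sum_smul_dl (avgTw S' σ')]
  rw [sum_mul]
  have h0 : (Nat.card S' : ℂ) ≠ 0 := by exact_mod_cast (Nat.card_pos (α := S')).ne'
  have : ∀ g : G, (avgTw S' σ' g • dl g) * avgTw S σ
      = (if g ∈ S' then (Nat.card S' : ℂ)⁻¹ else 0) • avgTw S σ := by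
    intro g
    by_cases hg : g ∈ S'
    · rw [smul_mul_assoc, dl_mul_avgTw h (hle hg), avgTw_of_mem _ hg, hσ g hg, smul_smul, if_pos hg]
      congr 1
      have := h.mul_conj (hle hg)
      field_simp
      exact this
    · simp [avgTw_of_notMem _ hg, hg]
  simp only [this, ← sum_smul]
  rw [sum_ite, sum_const_zero, add_zero, sum_const, nsmul_eq_mul]
  have hc : (#{g : G | g ∈ S'} : ℂ) = Nat.card S' := by
    rw [Nat.card_eq_fintype_card, Fintype.card_subtype]
  rw [hc, mul_inv_cancel₀ h0, one_smul]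

theorem avgTw_mul_avgTw_of_le' {S S' : Subgroup G} {σ σ' : G → ℂ} (h : IsChar S σ)
    (h' : IsChar S' σ') (hle : S' ≤ S) (hσ : ∀ g ∈ S', σ' g = σ g) :
    avgTw S σ * avgTw S' σ' = avgTw S σ := by
  have := congrArg star (avgTw_mul_avgTw_of_le h hle hσ)
  rwa [star_mul, star_avgTw h, star_avgTw h'] at this

theorem avgTw_mul_self {S : Subgroup G} {σ : G → ℂ} (h : IsChar S σ) :
    avgTw S σ * avgTw S σ = avgTw S σ := avgTw_mul_avgTw_of_le h le_rfl fun _ _ => rfl

theorem isStarProjection_avgTw {S : Subgroup G} {σ : G → ℂ} (h : IsChar S σ) :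
    IsStarProjection (avgTw S σ) := ⟨avgTw_mul_self h, star_avgTw h⟩

theorem avgTw_nonneg {S : Subgroup G} {σ : G → ℂ} (h : IsChar S σ) : 0 ≤ avgTw S σ :=
  (isStarProjection_avgTw h).nonneg

theorem avgTw_le_one {S : Subgroup G} {σ : G → ℂ} (h : IsChar S σ) : avgTw S σ ≤ 1 :=
  (isStarProjection_avgTw h).le_one

/-- Two twisted averages with a common group element of different signs annihilate each other. -/
theorem avgTw_mul_avgTw_eq_zero {S S' : Subgroup G} {σ σ' : G → ℂ} (h : IsChar S σ)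
    (h' : IsChar S' σ') {s : G} (hs : s ∈ S) (hs' : s ∈ S') (hne : σ s ≠ σ' s) :
    avgTw S σ * avgTw S' σ' = 0 := by
  have h1 : avgTw S σ * dl s * avgTw S' σ' = conj (σ s) • (avgTw S σ * avgTw S' σ') := by
    rw [avgTw_mul_dl h hs, smul_mul_assoc]
  have h2 : avgTw S σ * dl s * avgTw S' σ' = conj (σ' s) • (avgTw S σ * avgTw S' σ') := by
    rw [mul_assoc, dl_mul_avgTw h' hs', mul_smul_comm]
  have h3 : (conj (σ s) - conj (σ' s)) • (avgTw S σ * avgTw S' σ') = 0 := by
    rw [sub_smul, ← h1, ← h2, sub_self]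
  have h4 : conj (σ s) - conj (σ' s) ≠ 0 := by
    rw [sub_ne_zero]
    exact fun e => hne (by simpa using congrArg conj e)
  exact (smul_eq_zero.1 h3).resolve_left h4

theorem conj_avgTw (S : Subgroup G) (σ : G → ℂ) (h : G) :
    dl h * avgTw S σ * dl h⁻¹
      = avgTw (S.map (MulAut.conj h).toMonoidHom) fun g => σ (h⁻¹ * g * h) := by
  ext g
  have hc : Nat.card (S.map (MulAut.conj h).toMonoidHom) = Nat.card S :=
    (Nat.card_congr (S.equivMapOfInjective _ (MulAut.conj h).injective).toEquiv).symm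
  have := conj_apply h⁻¹ (avgTw S σ) g
  rw [inv_inv] at this
  rw [this]
  by_cases hg : h⁻¹ * g * h ∈ S
  · rw [avgTw_of_mem _ hg, avgTw_of_mem, hc]
    exact ⟨_, hg, by simp [mul_assoc]⟩
  · rw [avgTw_of_notMem _ hg, avgTw_of_notMem]
    rintro ⟨s, hs, rfl⟩
    exact hg (by simpa [mul_assoc] using hs)

/-! ### tensor products -/

/-- The tensor product of a family of functions, as a function on the product group. -/
noncomputable def tens {κ : Type} [Fintype κ] (x : κ → GA H) : GA (κ → H) :=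
  fun g => ∏ k, x k (g k)


theorem tens_apply {κ : Type} [Fintype κ] (x : κ → GA H) (g : κ → H) :
    tens x g = ∏ k, x k (g k) := rfl

theorem tens_mul {κ : Type} [Fintype κ] [DecidableEq κ] (x y : κ → GA H) :
    tens (fun k => x k * y k) = tens x * tens y := by
  ext g
  simp only [tens_apply, mul_apply]
  rw [Finset.prod_univ_sum]
  simp [prod_mul_distrib]

theorem tens_one {κ : Type} [Fintype κ] [DecidableEq κ] :
    tens (fun _ : κ => (1 : GA H)) = 1 := by
  ext g
  simp only [tens_apply, one_apply, prod_ite_zero, prod_const_one, mem_univ, forall_const]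
  simp [funext_iff]


theorem tens_star {κ : Type} [Fintype κ] (x : κ → GA H) :
    tens (fun k => star (x k)) = star (tens x) := by
  ext g; simp [tens_apply]

theorem tens_nonneg {κ : Type} [Fintype κ] [DecidableEq κ] {x : κ → GA H} (hx : ∀ k, 0 ≤ x k) :
    0 ≤ tens x := by
  choose b hb hb' using fun k => exists_star_mul_self (hx k)
  have : x = fun k => star (b k) * b k := funext fun k => by rw [hb k, ← hb' k]
  rw [this, tens_mul, tens_star]
  exact star_mul_self_nonneg _

theorem tens_mono {κ : Type} [Fintype κ] [DecidableEq κ] {x y : κ → GA H} (hx : ∀ k, 0 ≤ x k)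
    (hxy : ∀ k, x k ≤ y k) : tens x ≤ tens y := by
  have key : ∀ s : Finset κ, tens x ≤ tens (fun k => if k ∈ s then y k else x k) := by
    intro s
    induction s using Finset.induction_on with
    | empty => simp
    | insert i s hi ih =>
      refine ih.trans (sub_nonneg.1 ?_)
      have : tens (fun k => if k ∈ insert i s then y k else x k)
          - tens (fun k => if k ∈ s then y k else x k)
          = tens (fun k => if k = i then y i - x i else if k ∈ s then y k else x k) := by
        ext g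
        simp only [GA.sub_apply, tens_apply]
        rw [← Finset.mul_prod_erase univ _ (mem_univ i), ← Finset.mul_prod_erase univ _ (mem_univ i),
          ← Finset.mul_prod_erase univ _ (mem_univ i)]
        have e1 : ∏ k ∈ univ.erase i, (if k ∈ insert i s then y k else x k) (g k)
            = ∏ k ∈ univ.erase i, (if k ∈ s then y k else x k) (g k) :=
          prod_congr rfl fun k hk => by simp [(mem_erase.1 hk).1]
        have e2 : ∏ k ∈ univ.erase i, (if k = i then y i - x i else if k ∈ s then y k else x k) (g k)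
            = ∏ k ∈ univ.erase i, (if k ∈ s then y k else x k) (g k) :=
          prod_congr rfl fun k hk => by simp [(mem_erase.1 hk).1]
        rw [e1, e2]
        simp [hi, sub_mul]
      rw [this]
      refine tens_nonneg fun k => ?_
      by_cases hk : k = i
      · simp [hk, hxy i]
      · by_cases hks : k ∈ s
        · simp [hk, hks, (hx k).trans (hxy k)]
        · simp [hk, hks, hx k]
  simpa using key univ

end Crest.Agent.R155
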