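import Mathlib

/-!
# The complex group algebra of a finite group, as functions on the group

`GA G` is `G → ℂ` with convolution product, the adjoint `a* g = conj (a g⁻¹)` and the order of
positive-definite functions.
-/

namespace Crest.Agent.R155

open scoped ComplexOrder MatrixOrder ComplexConjugate
open Finset

/-- The group algebra of a finite group as functions. -/
def GA (G : Type) : Type := G → ℂ

namespace GA

variable {G : Type}

instance : CoeFun (GA G) (fun _ => G → ℂ) := ⟨fun a => a⟩

instance : AddCommGroup (GA G) := inferInstanceAs (AddCommGroup (G → ℂ))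
noncomputable instance : Module ℂ (GA G) := inferInstanceAs (Module ℂ (G → ℂ))

@[ext] theorem ext {a b : GA G} (h : ∀ g, a g = b g) : a = b := funext h

@[simp] theorem add_apply (a b : GA G) (g : G) : (a + b) g = a g + b g := rfl
@[simp] theorem sub_apply (a b : GA G) (g : G) : (a - b) g = a g - b g := rfl
@[simp] theorem neg_apply (a : GA G) (g : G) : (-a) g = -a g := rfl
@[simp] theorem zero_apply (g : G) : (0 : GA G) g = 0 := rfl
@[simp] theorem smul_apply (c : ℂ) (a : GA G) (g : G) : (c • a) g = c * a g := rfl

theorem sum_apply {α : Type*} (s : Finset α) (f : α → GA G) (g : G) :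
    (∑ i ∈ s, f i) g = ∑ i ∈ s, f i g := by
  classical
  induction s using Finset.induction_on with
  | empty => simp
  | insert i s hi ih => simp [Finset.sum_insert hi, ih]

variable [Group G] [Fintype G] [DecidableEq G]

instance : One (GA G) := ⟨fun g => if g = 1 then 1 else 0⟩
noncomputable instance : Mul (GA G) := ⟨fun a b g => ∑ h, a h * b (h⁻¹ * g)⟩
instance : Star (GA G) := ⟨fun a g => conj (a g⁻¹)⟩

omit [Fintype G] in
theorem one_apply (g : G) : (1 : GA G) g = if g = 1 then 1 else 0 := rfl
omit [DecidableEq G] in
theorem mul_apply (a b : GA G) (g : G) : (a * b) g = ∑ h, a h * b (h⁻¹ * g) := rfl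
omit [Fintype G] [DecidableEq G] in
@[simp] theorem star_apply (a : GA G) (g : G) : (star a) g = conj (a g⁻¹) := rfl

omit [DecidableEq G] in
theorem mul_apply' (a b : GA G) (g : G) : (a * b) g = ∑ h, a (g * h⁻¹) * b h := by
  rw [mul_apply]
  refine Fintype.sum_equiv ((Equiv.inv G).trans (Equiv.mulRight g)) _ _ fun h => ?_
  simp

noncomputable instance : Ring (GA G) where
  __ := (inferInstance : AddCommGroup (GA G))
  left_distrib a b c := by ext g; simp [mul_apply, mul_add, sum_add_distrib]
  right_distrib a b c := by ext g; simp [mul_apply, add_mul, sum_add_distrib]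
  zero_mul a := by ext g; simp [mul_apply]
  mul_zero a := by ext g; simp [mul_apply]
  mul_assoc a b c := by
    ext g
    simp only [mul_apply, sum_mul, mul_sum]
    rw [sum_comm]
    refine sum_congr rfl fun h _ => ?_
    refine Fintype.sum_equiv (Equiv.mulLeft h⁻¹) _ _ fun k => ?_
    simp [mul_assoc]
  one_mul a := by ext g; simp [mul_apply, one_apply]
  mul_one a := by ext g; simp [mul_apply', one_apply]

noncomputable instance : Algebra ℂ (GA G) :=
  Algebra.ofModule
    (fun c a b => by ext g; simp [mul_apply, mul_sum, mul_assoc])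
    (fun c a b => by ext g; simp [mul_apply, mul_sum, mul_left_comm])

noncomputable instance : StarRing (GA G) where
  star_involutive a := by ext g; simp
  star_mul a b := by
    ext g
    rw [star_apply, mul_apply, mul_apply', map_sum]
    refine Fintype.sum_equiv (Equiv.inv G) _ _ fun h => ?_
    simp [mul_comm]
  star_add a b := by ext g; simp

instance : StarModule ℂ (GA G) where
  star_smul c a := by ext g; simp

/-- The point mass at `g`. -/
def dl (g : G) : GA G := fun h => if h = g then 1 else 0

omit [Group G] [Fintype G] in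
theorem dl_apply (g h : G) : dl g h = if h = g then 1 else 0 := rfl

omit [Fintype G] in
theorem dl_one : dl (1 : G) = 1 := rfl

theorem dl_mul_apply (g : G) (a : GA G) (h : G) : (dl g * a) h = a (g⁻¹ * h) := by
  simp [mul_apply, dl_apply]

theorem mul_dl_apply (a : GA G) (g h : G) : (a * dl g) h = a (h * g⁻¹) := by
  simp [mul_apply', dl_apply]

theorem dl_mul_dl (g h : G) : dl g * dl h = dl (g * h) := by
  ext k; rw [dl_mul_apply, dl_apply, dl_apply]; simp [inv_mul_eq_iff_eq_mul]

omit [Fintype G] in
theorem star_dl (g : G) : star (dl g) = dl g⁻¹ := by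
  ext k; simp [dl_apply, inv_eq_iff_eq_inv]

/-- `dl` as a monoid homomorphism. -/
noncomputable def dlHom (G : Type) [Group G] [Fintype G] [DecidableEq G] : G →* GA G where
  toFun := dl
  map_one' := dl_one
  map_mul' g h := (dl_mul_dl g h).symm

@[simp] theorem dlHom_apply (g : G) : dlHom G g = dl g := rfl

theorem sum_smul_dl (a : GA G) : ∑ g, a g • dl g = a := by
  ext h; simp [sum_apply, dl_apply]

end GA

open GA

section lift

variable {G : Type} [Group G] [Fintype G] [DecidableEq G]
variable {A : Type*} [Ring A] [Algebra ℂ A]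

/-- The algebra map of the group algebra determined by a representation. -/
noncomputable def lift (π : G →* A) : GA G →ₐ[ℂ] A :=
  AlgHom.ofLinearMap
    { toFun := fun a => ∑ g, a g • π g
      map_add' := fun a b => by simp [add_smul, sum_add_distrib]
      map_smul' := fun c a => by simp [smul_sum, mul_smul] }
    (by simp [one_apply])
    (fun a b => by
      simp only [LinearMap.coe_mk, AddHom.coe_mk, mul_apply, sum_smul, sum_mul, mul_sum]
      rw [sum_comm]
      conv_rhs => rw [sum_comm]
      refine sum_congr rfl fun h _ => ?_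
      refine Fintype.sum_equiv (Equiv.mulLeft h⁻¹) _ _ fun k => ?_
      simp [mul_smul, ← map_mul, smul_comm (a h)])

theorem lift_apply (π : G →* A) (a : GA G) : lift π a = ∑ g, a g • π g := rfl

@[simp] theorem lift_dl (π : G →* A) (g : G) : lift π (dl g) = π g := by
  simp [lift_apply, dl_apply]

theorem commute_lift (π : G →* A) {T : A} (h : ∀ g, T * π g = π g * T) (a : GA G) :
    T * lift π a = lift π a * T := by
  simp [lift_apply, mul_sum, sum_mul, h]

/-- A representation in a star algebra is unitary. -/
def IsU {G A : Type*} [Group G] [Monoid A] [Star A] (π : G →* A) : Prop :=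
  ∀ g, π g⁻¹ = star (π g)

theorem lift_star [StarRing A] [StarModule ℂ A] {π : G →* A} (hπ : IsU π) (a : GA G) :
    lift π (star a) = star (lift π a) := by
  simp only [lift_apply, star_sum, star_smul, star_apply]
  refine Fintype.sum_equiv (Equiv.inv G) _ _ fun g => ?_
  simp [← hπ g⁻¹]

theorem isU_dlHom : IsU (dlHom G) := fun g => (star_dl g).symm

end lift

section order

variable {G : Type} [Group G] [Fintype G] [DecidableEq G]

/-- The left regular representation. -/
noncomputable def regRep (G : Type) [Group G] [Fintype G] [DecidableEq G] :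
    G →* Matrix G G ℂ where
  toFun g := Matrix.of fun x y => if x = g * y then 1 else 0
  map_one' := by ext x y; simp [Matrix.one_apply]
  map_mul' g h := by
    ext x y
    simp [Matrix.mul_apply, mul_assoc]

theorem regRep_apply (g x y : G) : regRep G g x y = if x = g * y then 1 else 0 := rfl

theorem isU_regRep : IsU (regRep G) := fun g => by
  ext x y
  simp only [regRep_apply, Matrix.star_apply]
  by_cases h : y = g * x
  · simp [h]
  · have : ¬ x = g⁻¹ * y := fun h' => h (by simp [h'])
    simp [h, this]

theorem lift_regRep_apply (a : GA G) (x y : G) : lift (regRep G) a x y = a (x * y⁻¹) := by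
  simp only [lift_apply, Matrix.sum_apply, Matrix.smul_apply, regRep_apply, smul_eq_mul, mul_ite,
    mul_one, mul_zero]
  rw [Finset.sum_eq_single (x * y⁻¹)]
  · simp
  · intro b _ hb
    rw [if_neg]
    rintro rfl
    simp at hb
  · simp

theorem lift_regRep_injective : Function.Injective (lift (regRep G)) := fun a b h => by
  ext g
  have := congrFun (congrFun h g) 1
  simpa [lift_regRep_apply] using this

/-- The order of positive-definite functions. -/
noncomputable instance : PartialOrder (GA G) :=
  PartialOrder.lift (lift (regRep G)) lift_regRep_injective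

theorem le_def {a b : GA G} : a ≤ b ↔ lift (regRep G) a ≤ lift (regRep G) b := Iff.rfl

theorem nonneg_iff {a : GA G} : 0 ≤ a ↔ (lift (regRep G) a).PosSemidef := by
  rw [le_def, map_zero, Matrix.nonneg_iff_posSemidef]

theorem exists_lift_regRep {M : Matrix G G ℂ} (h : ∀ x y k, M (x * k) (y * k) = M x y) :
    ∃ a : GA G, lift (regRep G) a = M := by
  refine ⟨fun g => M g 1, ?_⟩
  ext x y
  rw [lift_regRep_apply]
  rw [← h (x * y⁻¹) 1 y]; simp

theorem exists_star_mul_self {a : GA G} (ha : 0 ≤ a) : ∃ b : GA G, star b = b ∧ a = b * b := by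
  have hp : (0 : Matrix G G ℂ) ≤ lift (regRep G) a := (nonneg_iff.1 ha).nonneg
  set M := lift (regRep G) a with hM
  have key : ∀ x y k, CFC.sqrt M (x * k) (y * k) = CFC.sqrt M x y := by
    intro x y k
    let N : Matrix G G ℂ := (CFC.sqrt M).submatrix (Equiv.mulRight k) (Equiv.mulRight k)
    have hN : (0 : Matrix G G ℂ) ≤ N :=
      ((Matrix.nonneg_iff_posSemidef.1 (CFC.sqrt_nonneg M)).submatrix _).nonneg
    have hNN : N * N = M := by
      have h1 : N * N = (CFC.sqrt M * CFC.sqrt M).submatrix (Equiv.mulRight k)
          (Equiv.mulRight k) := by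
        simp only [N]
        rw [Matrix.submatrix_mul_equiv]
      rw [h1, CFC.sqrt_mul_sqrt_self M hp]
      ext u v
      simp [hM, lift_regRep_apply]
    have : CFC.sqrt M = N := CFC.sqrt_unique hNN hN
    have h2 := congrFun (congrFun this x) y
    simpa [N] using h2.symm
  obtain ⟨b, hb⟩ := exists_lift_regRep key
  refine ⟨b, lift_regRep_injective ?_, lift_regRep_injective ?_⟩
  · rw [lift_star isU_regRep, hb]
    exact (CFC.sqrt_nonneg M).isSelfAdjoint
  · rw [map_mul, hb, CFC.sqrt_mul_sqrt_self M hp]

instance : StarOrderedRing (GA G) :=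
  .of_nonneg_iff'
    (fun {x y} h z => by
      rw [le_def] at h ⊢
      simpa using h)
    (fun a => ⟨fun ha => by
        obtain ⟨b, hb, rfl⟩ := exists_star_mul_self ha
        exact ⟨b, by rw [hb]⟩,
      fun ⟨b, hb⟩ => by
        rw [hb, le_def, map_zero, map_mul, lift_star isU_regRep]
        exact star_mul_self_nonneg _⟩)

theorem lift_nonneg {A : Type*} [Ring A] [Algebra ℂ A] [StarRing A] [StarModule ℂ A]
    [PartialOrder A] [StarOrderedRing A] {π : G →* A} (hπ : IsU π) {a : GA G} (ha : 0 ≤ a) :
    0 ≤ lift π a := by
  obtain ⟨b, hb, rfl⟩ := exists_star_mul_self ha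
  have : lift π (b * b) = star (lift π b) * lift π b := by
    rw [← lift_star hπ, hb, map_mul]
  rw [this]
  exact star_mul_self_nonneg _

theorem lift_mono {A : Type*} [Ring A] [Algebra ℂ A] [StarRing A] [StarModule ℂ A]
    [PartialOrder A] [StarOrderedRing A] {π : G →* A} (hπ : IsU π) {a b : GA G} (h : a ≤ b) :
    lift π a ≤ lift π b := by
  have := lift_nonneg hπ (sub_nonneg.2 h)
  rwa [map_sub, sub_nonneg] at this

theorem smul_nonneg' {c : ℂ} (hc : 0 ≤ c) {a : GA G} (ha : 0 ≤ a) : 0 ≤ c • a := by
  rw [nonneg_iff] at ha ⊢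
  rw [map_smul]
  exact ha.smul hc

theorem nonneg_iff_quad {a : GA G} :
    0 ≤ a ↔ star a = a ∧ ∀ c : G → ℂ, 0 ≤ ∑ x, ∑ y, conj (c x) * a (x * y⁻¹) * c y := by
  rw [nonneg_iff, Matrix.posSemidef_iff_dotProduct_mulVec]
  have h1 : (lift (regRep G) a).IsHermitian ↔ star a = a := by
    constructor
    · intro h
      apply lift_regRep_injective
      rw [lift_star isU_regRep]
      exact h
    · intro h
      change star _ = _
      rw [← lift_star isU_regRep, h]
  rw [h1]
  refine and_congr Iff.rfl (forall_congr' fun c => ?_)
  simp [dotProduct, Matrix.mulVec, lift_regRep_apply, mul_sum, mul_assoc]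

end order

end Crest.Agent.R155
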