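import Crest.Agent.R155.Step
import Crest.Agent.R155.Conv
import Crest.Agent.R155.Triv
import Crest.Agent.R155.Cube
import Crest.Agent.R155.IndAux

/-!
# The trace bound at a given level
-/

set_option linter.unusedSectionVars false

namespace Crest.Agent.R155

open scoped ComplexOrder MatrixOrder ComplexConjugate Matrix.Norms.L2Operator Matrix
open Finset GA Equiv

/-- the bound of the first induction -/
noncomputable def indAb (C : ℝ) (n k : ℕ) : ℝ :=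
  ((n : ℝ) ^ k / k.factorial) ^ (5 / 4 : ℝ)
    * Real.exp (C * k * (2 - (n : ℝ) ^ (-(1 / 2000) : ℝ)))

theorem indAb_nonneg (C : ℝ) (n k : ℕ) : 0 ≤ indAb C n k := by unfold indAb; positivity

theorem indA_rpow_le_one {n : ℕ} (hn : 1 ≤ n) : (n : ℝ) ^ (-(1 / 2000) : ℝ) ≤ 1 :=
  Real.rpow_le_one_of_one_le_of_nonpos (by exact_mod_cast hn) (by norm_num)

theorem one_le_indAb {C : ℝ} (hC : 0 ≤ C) {n k : ℕ} (hn : 1 ≤ n) (hk : k ≤ n) :
    1 ≤ indAb C n k := by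
  have h1 : 1 ≤ ((n : ℝ) ^ k / k.factorial) ^ (5 / 4 : ℝ) :=
    Real.one_le_rpow (ind_one_le_pow_div (by exact_mod_cast hk)) (by norm_num)
  have h2 : 1 ≤ Real.exp (C * k * (2 - (n : ℝ) ^ (-(1 / 2000) : ℝ))) :=
    Real.one_le_exp (mul_nonneg (by positivity) (by linarith [indA_rpow_le_one hn]))
  exact one_le_mul_of_one_le_of_one_le h1 h2

theorem indAb_le_exp {C : ℝ} (hC : 0 ≤ C) {m j K : ℕ} (hm : 1 ≤ m) (hj : j ≤ K) :
    indAb C m j ≤ Real.exp (5 / 4 * K * Real.log m + 2 * C * K) := by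
  have hm' : (1 : ℝ) ≤ m := by exact_mod_cast hm
  have hj' : (j : ℝ) ≤ K := by exact_mod_cast hj
  rw [Real.exp_add]
  refine mul_le_mul ?_ (Real.exp_le_exp.2 ?_) (Real.exp_pos _).le (Real.exp_pos _).le
  · have h1 : (m : ℝ) ^ j / j.factorial ≤ Real.exp (K * Real.log m) := by
      rw [← ind_pow_eq_exp (by linarith)]
      refine (div_le_self (by positivity) ?_).trans (pow_le_pow_right₀ hm' hj)
      exact_mod_cast Nat.factorial_pos j
    refine (Real.rpow_le_rpow (by positivity) h1 (by norm_num)).trans_eq ?_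
    rw [← Real.exp_mul]; congr 1; ring
  · have h1 : 0 ≤ C * j * (m : ℝ) ^ (-(1 / 2000) : ℝ) := by positivity
    have h2 := mul_le_mul_of_nonneg_left hj' hC
    linarith

theorem indAb_prod_le {C : ℝ} (hC : 0 ≤ C) {m k : ℕ} (hm : 1 ≤ m) (hk : k ≤ 4 * m)
    (kk : (Fin 2 → Bool) → ℕ) (hs : ∑ i, kk i ≤ k) :
    ∏ i, indAb C m (kk i) ≤ (((4 * m : ℕ) : ℝ) ^ k / k.factorial) ^ (5 / 4 : ℝ)
      * Real.exp (C * k * (2 - (m : ℝ) ^ (-(1 / 2000) : ℝ))) := by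
  unfold indAb
  rw [Finset.prod_mul_distrib, Real.finsetProd_rpow _ _ (fun i _ => by positivity),
    ← Real.exp_sum]
  refine mul_le_mul (Real.rpow_le_rpow (by positivity) ?_ (by norm_num)) (Real.exp_le_exp.2 ?_)
    (Real.exp_pos _).le (by positivity)
  · have h1 := ind_prod_le Finset.univ kk (Nat.cast_nonneg (α := ℝ) m)
    have h2 : ((Finset.univ : Finset (Fin 2 → Bool)).card : ℝ) * m = ((4 * m : ℕ) : ℝ) := by
      simp
    rw [h2] at h1
    exact h1.trans (ind_pow_div_mono hs (by exact_mod_cast hk))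
  · rw [← Finset.sum_mul, ← Finset.mul_sum]
    refine mul_le_mul_of_nonneg_right (mul_le_mul_of_nonneg_left ?_ hC)
      (by linarith [indA_rpow_le_one hm])
    exact_mod_cast hs

theorem indA_child {C : ℝ} (hC : 0 ≤ C) {β : Type} [Fintype β] [DecidableEq β] {x : GA (Perm β)}
    {m k : ℕ} (hm : 1 ≤ m) (hk1 : 1 ≤ k) (hk : k ≤ 4 * m)
    (ih : ∀ j ≤ m, Hyp (indq j) j (indAb C m j) x) {j : ℕ} (hjk : j ≤ k) (hjm : j ≤ m) :
    Hyp (indq k) j (Real.exp (25 * (k : ℝ) ^ (1687 / 1700 : ℝ)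
      + (5 / 4 * (⌈(k : ℝ) ^ (98 / 100 : ℝ)⌉₊ : ℝ) * Real.log m
        + 2 * C * (⌈(k : ℝ) ^ (98 / 100 : ℝ)⌉₊ : ℝ))) * indAb C m j) x := by
  set K := ⌈(k : ℝ) ^ (98 / 100 : ℝ)⌉₊ with hK
  have hk' : (1 : ℝ) ≤ k := by exact_mod_cast hk1
  have hm' : (1 : ℝ) ≤ m := by exact_mod_cast hm
  have hKk : K ≤ k := by
    refine Nat.ceil_le.2 ?_
    conv_rhs => rw [← Real.rpow_one (k : ℝ)]
    exact Real.rpow_le_rpow_of_exponent_le hk' (by norm_num)
  have hK' : (k : ℝ) ^ (98 / 100 : ℝ) ≤ K := Nat.le_ceil _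
  set j' := min m (max j K) with hj'
  have h1 : indq k ≤ indt j' := by
    rcases le_total m (max j K) with h | h
    · rw [hj', min_eq_left h]; exact indq_le_indt_of_four hm hk
    · rw [hj', min_eq_right h]
      exact indq_le_indt_of_pow hk1 (hK'.trans (by exact_mod_cast le_max_right j K))
  have h2 := Hyp.conv (one_le_indq j') (one_le_indt j') h1 (le_indq_mul_indt j')
    (indAb_nonneg _ _ _) (ih j' (min_le_left _ _))
  refine h2.mono le_rfl (by omega) ?_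
  rw [Real.exp_add, mul_assoc (Real.exp _)]
  refine mul_le_mul (Real.exp_le_exp.2 ?_) ?_ (indAb_nonneg _ _ _) (Real.exp_pos _).le
  · have h3 : (j' : ℝ) ≤ k := by exact_mod_cast (show j' ≤ k by omega)
    have h4 := Real.rpow_le_rpow (Nat.cast_nonneg _) h3 (show (0 : ℝ) ≤ 1687 / 1700 by norm_num)
    linarith [ind_cost_le j']
  · rcases le_total K j with h | h
    · rw [show j' = j by omega]
      refine le_mul_of_one_le_left (indAb_nonneg _ _ _) (Real.one_le_exp ?_)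
      have := Real.log_nonneg hm'
      positivity
    · exact (indAb_le_exp hC hm (show j' ≤ K by omega)).trans
        (le_mul_of_one_le_right (Real.exp_pos _).le (one_le_indAb hC hm hjm))

theorem indA_hyp {C : ℝ} {k₀ : ℕ} (hC : 1296200 ≤ C * ((4 : ℝ) ^ (1 / 2000 : ℝ) - 1))
    (hk₀ : 32 ≤ ((4 : ℝ) ^ (1 / 2000 : ℝ) - 1) * (k₀ : ℝ) ^ (16 / 1000 : ℝ))
    (hC0 : 0 ≤ C) (hC1 : 17 / 16 * Real.log ((k₀ ^ 8 + 4 : ℕ) : ℝ) ≤ C) (d : ℕ) :
    ∀ k ≤ 2 ^ d, Hyp (indq k) k (indAb C (2 ^ d) k) (Qd d) := by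
  induction d using Nat.strong_induction_on with
  | _ d ih =>
  intro k hk
  have hn : 1 ≤ 2 ^ d := Nat.one_le_two_pow
  have hn' : (1 : ℝ) ≤ ((2 ^ d : ℕ) : ℝ) := by exact_mod_cast hn
  have hc : Fintype.card (Fin d → Bool) = 2 ^ d := by simp
  have htriv := hyp_triv (star_Qd_mul_le d) (indq k) k
  rw [hc] at htriv
  have hk0 : (0 : ℝ) ≤ k := Nat.cast_nonneg _
  by_cases h1 : k ^ 8 ≤ 2 ^ d
  · refine htriv.mono le_rfl le_rfl ((ind_triv_le hn h1).trans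
      (le_mul_of_one_le_right (by positivity) (Real.one_le_exp ?_)))
    exact mul_nonneg (by positivity) (by linarith [indA_rpow_le_one hn])
  by_cases h2 : 2 ^ d ≤ k₀ ^ 8 + 4
  · refine htriv.mono le_rfl le_rfl (le_trans ?_ (le_mul_of_one_le_left (Real.exp_pos _).le
      (Real.one_le_rpow (ind_one_le_pow_div (by exact_mod_cast hk)) (by norm_num))))
    rw [Real.rpow_def_of_pos (by linarith)]
    refine Real.exp_le_exp.2 ?_
    have h3 : Real.log ((2 ^ d : ℕ) : ℝ) ≤ Real.log ((k₀ ^ 8 + 4 : ℕ) : ℝ) :=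
      Real.log_le_log (by linarith) (by exact_mod_cast h2)
    have h4 := mul_le_mul_of_nonneg_left (indA_rpow_le_one hn) (show 0 ≤ C * k by positivity)
    have h5 := mul_le_mul_of_nonneg_right (show 17 / 16 * Real.log ((2 ^ d : ℕ) : ℝ) ≤ C by
      linarith) hk0
    linarith
  obtain ⟨d', rfl⟩ : ∃ d', d = d' + 2 := by
    refine ⟨d - 2, ?_⟩
    by_contra h3
    have : 2 ^ d ≤ 2 ^ 1 := Nat.pow_le_pow_right (by norm_num) (by omega)
    omega
  have ih' := ih d' (by omega)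
  obtain ⟨e, y, hy, hQ⟩ := Qd_add_two d'
  have h4 : 2 ^ (d' + 2) = 4 * 2 ^ d' := by ring
  have hm : 1 ≤ 2 ^ d' := Nat.one_le_two_pow
  have hc' : Fintype.card (Fin d' → Bool) = 2 ^ d' := by simp
  rw [h4] at hk h1 h2 hc
  rw [hQ, h4]
  have hkk : k₀ ≤ k := by
    by_contra h5
    have := Nat.pow_le_pow_left (show k ≤ k₀ by omega) 8
    omega
  have hk1 : 1 ≤ k := by
    rcases Nat.eq_zero_or_pos k with rfl | h
    · simp at h1
    · exact h
  have h5 := step e hy (one_le_indq k) (k := k) (Bf := fun j => Real.exp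
      (25 * (k : ℝ) ^ (1687 / 1700 : ℝ) + (5 / 4 * (⌈(k : ℝ) ^ (98 / 100 : ℝ)⌉₊ : ℝ)
        * Real.log ((2 ^ d' : ℕ) : ℝ) + 2 * C * (⌈(k : ℝ) ^ (98 / 100 : ℝ)⌉₊ : ℝ)))
        * indAb C (2 ^ d') j)
    (fun j => mul_nonneg (Real.exp_pos _).le (indAb_nonneg _ _ _))
    (fun j hjk hjm => indA_child hC0 hm hk1 hk ih' hjk (by rwa [hc'] at hjm))
    (fun kk _ hs => by
      rw [Finset.prod_mul_distrib]
      exact mul_le_mul_of_nonneg_left (indAb_prod_le hC0 hm hk kk hs) (by positivity))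
  refine h5.mono le_rfl le_rfl ?_
  rw [hc]
  generalize 2 ^ d' = m at *
  have hκ0 : 0 ≤ (4 : ℝ) ^ (1 / 2000 : ℝ) - 1 := by
    have := Real.one_le_rpow (show (1 : ℝ) ≤ 4 by norm_num) (show (0 : ℝ) ≤ 1 / 2000 by norm_num)
    linarith
  have h6 := indA_step (K := ⌈(k : ℝ) ^ (98 / 100 : ℝ)⌉₊) hm (not_le.1 h1) hC
    (hk₀.trans (mul_le_mul_of_nonneg_left (Real.rpow_le_rpow (Nat.cast_nonneg _)
      (by exact_mod_cast hkk) (by norm_num)) hκ0)) hC0 (Nat.ceil_lt_add_one (by positivity)).le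
  rw [ind_pow_eq_exp (by positivity), ← Real.exp_sum, indAb, ← mul_assoc, ← Real.exp_add,
    mul_left_comm, ← Real.exp_add]
  refine mul_le_mul_of_nonneg_left (Real.exp_le_exp.2 ?_) (by positivity)
  simp only [Finset.sum_const, Finset.card_univ, Fintype.card_pi, Fintype.card_bool,
    Finset.prod_const, Fintype.card_fin, nsmul_eq_mul]
  push_cast at h6 ⊢
  linarith

theorem indA : ∃ C : ℝ, 0 ≤ C ∧ ∀ (d : ℕ) (χ : Perm (Fin d → Bool) → ℂ), IsIrr χ →
    (ev χ ((star (Qd d) * Qd d) ^ 2)).re ≤ dim χ ^ (-(1 / 16) : ℝ)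
      * ((((2 : ℝ) ^ d) ^ lev χ / ((lev χ).factorial : ℝ)) ^ (5 / 4 : ℝ)
        * Real.exp (C * lev χ)) := by
  have hκ0 : 0 < (4 : ℝ) ^ (1 / 2000 : ℝ) - 1 := by
    have := Real.one_lt_rpow (show (1 : ℝ) < 4 by norm_num) (show (0 : ℝ) < 1 / 2000 by norm_num)
    linarith
  set κ := (4 : ℝ) ^ (1 / 2000 : ℝ) - 1 with hκ
  obtain ⟨k₀, hk₀⟩ : ∃ k₀ : ℕ, 32 ≤ κ * (k₀ : ℝ) ^ (16 / 1000 : ℝ) := by
    have h := ((tendsto_rpow_atTop (show (0 : ℝ) < 16 / 1000 by norm_num)).comp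
      tendsto_natCast_atTop_atTop).const_mul_atTop hκ0
    exact (h.eventually_ge_atTop 32).exists
  have hl : 0 ≤ Real.log ((k₀ ^ 8 + 4 : ℕ) : ℝ) := Real.log_natCast_nonneg _
  set C := 1296200 / κ + 17 / 16 * Real.log ((k₀ ^ 8 + 4 : ℕ) : ℝ) with hCdef
  have hC0 : 0 ≤ C := by positivity
  have hC : 1296200 ≤ C * κ := by
    rw [hCdef, add_mul, div_mul_cancel₀ _ hκ0.ne']
    have : 0 ≤ 17 / 16 * Real.log ((k₀ ^ 8 + 4 : ℕ) : ℝ) * κ := by positivity
    linarith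
  have hC1 : 17 / 16 * Real.log ((k₀ ^ 8 + 4 : ℕ) : ℝ) ≤ C :=
    le_add_of_nonneg_left (by positivity)
  refine ⟨2 * C + 25, by linarith, fun d χ hχ => ?_⟩
  have h1 := indA_hyp hC hk₀ hC0 hC1 d (lev χ) ((lev_le_card χ).trans (by simp))
  have h2 := Hyp.final (one_le_indq _) (one_le_indt _) (le_indq_mul_indt _) (indAb_nonneg _ _ _) h1
    hχ le_rfl
  refine h2.trans (mul_le_mul_of_nonneg_left ?_ (Real.rpow_nonneg hχ.dim_pos.le _))
  rw [indAb, mul_left_comm, ← Real.exp_add]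
  push_cast
  refine mul_le_mul_of_nonneg_left (Real.exp_le_exp.2 ?_) (by positivity)
  have h3 := ind_cost_le (lev χ)
  have h4 : (lev χ : ℝ) ^ (1687 / 1700 : ℝ) ≤ lev χ := by
    rcases Nat.eq_zero_or_pos (lev χ) with h | h
    · rw [h]; simp
    · conv_rhs => rw [← Real.rpow_one (lev χ : ℝ)]
      exact Real.rpow_le_rpow_of_exponent_le (by exact_mod_cast h) (by norm_num)
  have h5 : 0 ≤ C * lev χ * ((2 : ℝ) ^ d) ^ (-(1 / 2000) : ℝ) := by positivity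
  linarith

end Crest.Agent.R155
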