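import Crest.Agent.R155.Fn

/-!
# Irreducible unitary representations and characters of a finite group
-/

set_option linter.unusedSectionVars false

namespace Crest.Agent.R155

open scoped ComplexOrder MatrixOrder ComplexConjugate Matrix.Norms.L2Operator Matrix
open Finset GA

/-- An irreducible unitary matrix representation (irreducible in the sense of Schur: the
commutant consists of scalars). -/
structure IrrRep (G : Type) [Group G] where
  n : ℕ
  ρ : G →* Matrix (Fin n) (Fin n) ℂ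
  unit : IsU ρ
  pos : 0 < n
  irr : ∀ A : Matrix (Fin n) (Fin n) ℂ, (∀ g, A * ρ g = ρ g * A) → ∃ c : ℂ, A = c • 1

variable {G K : Type} [Group G] [Fintype G] [DecidableEq G] [Group K] [Fintype K] [DecidableEq K]

/-- The character of an irreducible representation. -/
noncomputable def IrrRep.chr (r : IrrRep G) : G → ℂ := fun g => (r.ρ g).trace

/-- Irreducible characters. -/
def IsIrr (χ : G → ℂ) : Prop := ∃ r : IrrRep G, r.chr = χ

theorem IrrRep.isIrr (r : IrrRep G) : IsIrr r.chr := ⟨r, rfl⟩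

/-- The degree of a character, as a real number. -/
noncomputable def dim (χ : G → ℂ) : ℝ := (χ 1).re

theorem IrrRep.chr_one (r : IrrRep G) : r.chr 1 = r.n := by simp [IrrRep.chr]

theorem IrrRep.dim_chr (r : IrrRep G) : dim r.chr = r.n := by simp [dim, r.chr_one]

theorem IrrRep.ev_chr (r : IrrRep G) (a : GA G) : ev r.chr a = (lift r.ρ a).trace :=
  (trace_lift r.ρ a).symm

theorem IsIrr.coe_dim {χ : G → ℂ} (h : IsIrr χ) : (dim χ : ℂ) = χ 1 := by
  obtain ⟨r, rfl⟩ := h
  simp [r.dim_chr, r.chr_one]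

theorem IsIrr.one_le_dim {χ : G → ℂ} (h : IsIrr χ) : 1 ≤ dim χ := by
  obtain ⟨r, rfl⟩ := h
  rw [r.dim_chr]; exact_mod_cast r.pos

theorem IsIrr.dim_pos {χ : G → ℂ} (h : IsIrr χ) : 0 < dim χ := one_pos.trans_le h.one_le_dim

theorem IsIrr.one_ne_zero {χ : G → ℂ} (h : IsIrr χ) : χ 1 ≠ 0 := by
  rw [← h.coe_dim]; exact_mod_cast h.dim_pos.ne'

theorem IsIrr.isTr {χ : G → ℂ} (h : IsIrr χ) : IsTr (ev χ) := by
  obtain ⟨r, rfl⟩ := h
  have := isTr_trace r.unit (T := 1) zero_le_one (by simp)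
  simp only [mul_one] at this
  exact this

theorem IsIrr.conj_eq {χ : G → ℂ} (h : IsIrr χ) (g k : G) : χ (k * g * k⁻¹) = χ g := by
  obtain ⟨r, rfl⟩ := h
  simp only [IrrRep.chr, map_mul]
  rw [Matrix.trace_mul_comm, ← mul_assoc, ← map_mul, inv_mul_cancel, map_one, one_mul]

theorem IsIrr.inv_eq {χ : G → ℂ} (h : IsIrr χ) (g : G) : χ g⁻¹ = conj (χ g) := by
  obtain ⟨r, rfl⟩ := h
  simp only [IrrRep.chr, r.unit g]
  exact Matrix.trace_conjTranspose _

theorem irr_isIrr_of_hom {σ : G → ℂ} (h : IsChar ⊤ σ) : IsIrr σ := by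
  refine ⟨⟨1, ⟨⟨fun g => σ g • 1, by simp [h.one]⟩, fun g k => ?_⟩, fun g => ?_, one_pos,
    fun A _ => ⟨A 0 0, ?_⟩⟩, ?_⟩
  · simp [h.mul g trivial k trivial, smul_smul, mul_comm]
  · simp [h.inv g trivial]
  · ext i j
    rw [Subsingleton.elim i 0, Subsingleton.elim j 0]
    simp
  · funext g
    simp [IrrRep.chr]

/-- Transport of an irreducible representation along a group isomorphism. -/
def IrrRep.compEquiv (r : IrrRep G) (e : K ≃* G) : IrrRep K where
  n := r.n
  ρ := r.ρ.comp e.toMonoidHom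
  unit := isU_comp r.unit _
  pos := r.pos
  irr A hA := r.irr A fun g => by simpa using hA (e.symm g)

theorem IrrRep.chr_compEquiv (r : IrrRep G) (e : K ≃* G) : (r.compEquiv e).chr = r.chr ∘ e := rfl

theorem isIrr_one : IsIrr (fun _ : G => (1 : ℂ)) := by
  exact irr_isIrr_of_hom (isChar_one ⊤)

/-- A unitary one-dimensional character is irreducible. -/
theorem isIrr_of_hom {σ : G → ℂ} (h : IsChar ⊤ σ) : IsIrr σ := by
  exact irr_isIrr_of_hom h

theorem IsIrr.comp_equiv {χ : G → ℂ} (h : IsIrr χ) (e : K ≃* G) : IsIrr (χ ∘ e) := by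
  obtain ⟨r, rfl⟩ := h
  exact ⟨r.compEquiv e, rfl⟩

/-- Restriction of a representation to an invariant subspace given by an isometry. -/
noncomputable def irrRestrict {ι κ : Type} [Fintype ι] [DecidableEq ι] [Fintype κ] [DecidableEq κ]
    (π : G →* Matrix ι ι ℂ) (W : Matrix ι κ ℂ) (hW : Wᴴ * W = 1)
    (hi : ∀ g, π g * W = W * (Wᴴ * π g * W)) : G →* Matrix κ κ ℂ where
  toFun g := Wᴴ * π g * W
  map_one' := by simp [hW]
  map_mul' g h := by
    rw [map_mul, Matrix.mul_assoc, Matrix.mul_assoc, hi h]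
    simp only [Matrix.mul_assoc]

theorem irr_isU_restrict {ι κ : Type} [Fintype ι] [DecidableEq ι] [Fintype κ] [DecidableEq κ]
    {π : G →* Matrix ι ι ℂ} (hπ : IsU π) (W : Matrix ι κ ℂ) (hW : Wᴴ * W = 1)
    (hi : ∀ g, π g * W = W * (Wᴴ * π g * W)) : IsU (irrRestrict π W hW hi) := fun g => by
  change Wᴴ * π g⁻¹ * W = (Wᴴ * π g * W)ᴴ
  rw [hπ g]
  simp [Matrix.mul_assoc, Matrix.star_eq_conjTranspose]

theorem irr_split {ι : Type} [Fintype ι] [DecidableEq ι] {H : Matrix ι ι ℂ} (hH : H.IsHermitian)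
    (hns : ¬ ∃ c : ℂ, H = c • 1) :
    ∃ (c : ι → Bool) (W : ∀ b, Matrix ι {i // c i = b} ℂ), (∀ b, ∃ i, c i ≠ b) ∧
      (∑ b, W b * (W b)ᴴ = 1) ∧ (∀ b, (W b)ᴴ * W b = 1) ∧
      ∀ M : Matrix ι ι ℂ, H * M = M * H → ∀ b b', b ≠ b' → (W b)ᴴ * M * W b' = 0 := by
  classical
  set U : Matrix ι ι ℂ := (hH.eigenvectorUnitary : Matrix ι ι ℂ) with hU
  have hU1 : Uᴴ * U = 1 := Unitary.coe_star_mul_self hH.eigenvectorUnitary
  have hU2 : U * Uᴴ = 1 := Unitary.coe_mul_star_self hH.eigenvectorUnitary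
  set D : Matrix ι ι ℂ := Matrix.diagonal fun i => (hH.eigenvalues i : ℂ) with hD
  have hsp : H = U * D * Uᴴ := hH.spectral_theorem
  have hex : ∃ i j, hH.eigenvalues i ≠ hH.eigenvalues j := by
    by_contra hcon
    push Not at hcon
    apply hns
    rcases isEmpty_or_nonempty ι with hι | ⟨⟨i₀⟩⟩
    · exact ⟨0, Subsingleton.elim _ _⟩
    · refine ⟨hH.eigenvalues i₀, ?_⟩
      have : D = (hH.eigenvalues i₀ : ℂ) • 1 := by
        ext i j
        rw [hD, Matrix.diagonal_apply, Matrix.smul_apply, Matrix.one_apply, hcon i i₀]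
        split_ifs <;> simp
      conv_lhs => rw [hsp, this]
      simp [hU2]
  obtain ⟨i₀, j₀, hij⟩ := hex
  have hent : ∀ (M : Matrix ι ι ℂ) (b b' : Bool)
      (i : {i // decide (hH.eigenvalues i = hH.eigenvalues i₀) = b})
      (j : {i // decide (hH.eigenvalues i = hH.eigenvalues i₀) = b'}),
      ((U.submatrix id Subtype.val)ᴴ * M * U.submatrix id Subtype.val : Matrix _ _ ℂ) i j =
        (Uᴴ * M * U) i.1 j.1 := fun M b b' i j => rfl
  refine ⟨fun i => decide (hH.eigenvalues i = hH.eigenvalues i₀),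
    fun b => U.submatrix id Subtype.val, fun b => ?_, ?_, fun b => ?_, fun M hM b b' hb => ?_⟩
  · cases b
    · exact ⟨i₀, by simp⟩
    · exact ⟨j₀, by simp [hij.symm]⟩
  · rw [← hU2]
    ext x y
    simp only [Matrix.sum_apply, Matrix.mul_apply, Matrix.submatrix_apply,
      Matrix.conjTranspose_apply, id]
    exact Fintype.sum_fiberwise (fun i => decide (hH.eigenvalues i = hH.eigenvalues i₀))
      fun i => U x i * star (U y i)
  · ext i j
    have := hent 1 b b i j
    simp only [Matrix.mul_one] at this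
    rw [this, hU1, Matrix.one_apply, Matrix.one_apply]
    simp [Subtype.ext_iff]
  · ext i j
    rw [hent M b b' i j, Matrix.zero_apply]
    have h1 : D * (Uᴴ * M * U) = (Uᴴ * M * U) * D := by
      have h2 : D = Uᴴ * H * U := by
        rw [hsp]
        simp only [← Matrix.mul_assoc, hU1, Matrix.one_mul]
        rw [Matrix.mul_assoc, hU1, Matrix.mul_one]
      have h3 : ∀ X Y : Matrix ι ι ℂ, (Uᴴ * X * U) * (Uᴴ * Y * U) = Uᴴ * (X * Y) * U := by
        intro X Y
        simp only [Matrix.mul_assoc]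
        rw [← Matrix.mul_assoc U, hU2, Matrix.one_mul]
      rw [h2, h3, h3, hM]
    have h4 := congrFun (congrFun h1 i.1) j.1
    rw [hD, Matrix.diagonal_mul, Matrix.mul_diagonal, mul_comm] at h4
    have h5 : (hH.eigenvalues i.1 : ℂ) ≠ hH.eigenvalues j.1 := by
      intro h
      have h' : hH.eigenvalues i.1 = hH.eigenvalues j.1 := by exact_mod_cast h
      apply hb
      rw [← i.2, ← j.2]
      simp only [h']
    by_contra h6
    exact h5 (mul_left_cancel₀ h6 h4)

theorem irr_exists_herm {ι : Type} [Fintype ι] [DecidableEq ι] {π : G →* Matrix ι ι ℂ}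
    (hπ : IsU π) {A : Matrix ι ι ℂ} (hA : ∀ g, A * π g = π g * A) (hns : ¬ ∃ c : ℂ, A = c • 1) :
    ∃ H : Matrix ι ι ℂ, H.IsHermitian ∧ (∀ g, H * π g = π g * H) ∧ ¬ ∃ c : ℂ, H = c • 1 := by
  have hA' : ∀ g, Aᴴ * π g = π g * Aᴴ := by
    intro g
    have := congrArg Matrix.conjTranspose (hA g⁻¹)
    rw [hπ g] at this
    simpa [Matrix.star_eq_conjTranspose] using this.symm
  by_contra hcon
  push Not at hcon
  obtain ⟨c₁, h₁⟩ := hcon (A + Aᴴ) (Matrix.isHermitian_add_transpose_self A)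
    fun g => by rw [add_mul, mul_add, hA, hA']
  obtain ⟨c₂, h₂⟩ := hcon (Complex.I • A + (Complex.I • A)ᴴ)
    (Matrix.isHermitian_add_transpose_self _) fun g => by
      simp [add_mul, mul_add, hA, hA']
  apply hns
  refine ⟨(c₁ - Complex.I * c₂) / 2, ?_⟩
  ext i j
  have e1 := congrFun (congrFun h₁ i) j
  have e2 := congrFun (congrFun h₂ i) j
  simp only [Matrix.add_apply, Matrix.smul_apply, Matrix.conjTranspose_apply, smul_eq_mul,
    star_mul', Complex.star_def, Complex.conj_I] at e1 e2 ⊢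
  linear_combination e1 / 2 - Complex.I * e2 / 2 +
    (A i j - (starRingEnd ℂ) (A j i)) / 2 * Complex.I_mul_I

theorem irr_decomp_aux (n : ℕ) : ∀ {ι : Type} [Fintype ι] [DecidableEq ι], Fintype.card ι = n →
    ∀ {π : G →* Matrix ι ι ℂ}, IsU π → ∀ {T : Matrix ι ι ℂ}, T.IsHermitian →
    (∀ g, T * π g = π g * T) →
    ∃ (J : Type) (_ : Fintype J) (r : J → IrrRep G)
      (V : ∀ j, Matrix ι (Fin (r j).n) ℂ) (t : J → ℝ),
      (∑ j, V j * (V j)ᴴ = 1) ∧ (∀ j, (V j)ᴴ * V j = 1) ∧ (∀ j k, j ≠ k → (V j)ᴴ * V k = 0) ∧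
      (∀ j g, π g * V j = V j * (r j).ρ g) ∧ (∀ j, T * V j = (t j : ℂ) • V j) := by
  induction n using Nat.strong_induction_on with
  | _ n ih =>
  intro ι _ _ hn π hπ T hT hc
  by_cases hirr : ∀ A : Matrix ι ι ℂ, (∀ g, A * π g = π g * A) → ∃ c : ℂ, A = c • 1
  · rcases isEmpty_or_nonempty ι with hι | ⟨⟨i₀⟩⟩
    · exact ⟨Empty, inferInstance, fun j => j.elim, fun j => j.elim, fun j => j.elim,
        Subsingleton.elim _ _, fun j => j.elim, fun j => j.elim, fun j => j.elim, fun j => j.elim⟩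
    · let e := (Fintype.equivFin ι).symm
      let W : Matrix ι (Fin (Fintype.card ι)) ℂ := (1 : Matrix ι ι ℂ).submatrix id e
      have hW1 : Wᴴ * W = 1 := by
        simp only [W, Matrix.conjTranspose_submatrix, Matrix.conjTranspose_one]
        rw [← Matrix.submatrix_mul _ _ _ _ _ Function.bijective_id, Matrix.one_mul,
          Matrix.submatrix_one_equiv]
      have hW2 : W * Wᴴ = 1 := by
        simp only [W, Matrix.conjTranspose_submatrix, Matrix.conjTranspose_one]
        rw [Matrix.submatrix_mul_equiv, Matrix.one_mul, Matrix.submatrix_id_id]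
      have hi : ∀ g, π g * W = W * (Wᴴ * π g * W) := fun g => by
        simp only [← Matrix.mul_assoc, hW2, Matrix.one_mul]
      obtain ⟨c, rfl⟩ := hirr T hc
      have hc' : (c.re : ℂ) = c := by
        have := congrFun (congrFun hT.eq i₀) i₀
        simp only [Matrix.conjTranspose_apply, Matrix.smul_apply, Matrix.one_apply_eq, smul_eq_mul,
          mul_one, Complex.star_def] at this
        exact Complex.conj_eq_iff_re.1 this
      have : Nonempty ι := ⟨i₀⟩
      refine ⟨Unit, inferInstance, fun _ => ⟨Fintype.card ι, irrRestrict π W hW1 hi,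
        irr_isU_restrict hπ W hW1 hi, Fintype.card_pos, fun A hA => ?_⟩, fun _ => W,
        fun _ => c.re, by simpa using hW2, fun _ => hW1, fun j k h => (h rfl).elim,
        fun _ g => hi g, fun _ => by simp [hc']⟩
      obtain ⟨d, hd⟩ := hirr (W * A * Wᴴ) fun g => by
        have h1 : A * (Wᴴ * π g * W) = (Wᴴ * π g * W) * A := hA g
        calc W * A * Wᴴ * π g = W * (A * (Wᴴ * π g * W)) * Wᴴ := by
              simp only [Matrix.mul_assoc, hW2, Matrix.mul_one]
          _ = π g * (W * A * Wᴴ) := by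
              rw [h1]; simp only [← Matrix.mul_assoc, hW2, Matrix.one_mul]
      refine ⟨d, ?_⟩
      calc A = Wᴴ * (W * A * Wᴴ) * W := by
            simp only [← Matrix.mul_assoc, hW1, Matrix.one_mul]
            rw [Matrix.mul_assoc, hW1, Matrix.mul_one]
        _ = d • 1 := by rw [hd]; simp [hW1]
  · obtain ⟨H, hH, hHπ, hHT, hns⟩ : ∃ H : Matrix ι ι ℂ, H.IsHermitian ∧
        (∀ g, H * π g = π g * H) ∧ H * T = T * H ∧ ¬ ∃ c : ℂ, H = c • 1 := by
      by_cases hTs : ∃ c : ℂ, T = c • 1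
      · push Not at hirr
        obtain ⟨A, hA, hA'⟩ := hirr
        obtain ⟨H, h1, h2, h3⟩ := irr_exists_herm hπ hA (by push Not; exact hA')
        obtain ⟨c, rfl⟩ := hTs
        exact ⟨H, h1, h2, by simp, h3⟩
      · exact ⟨T, hT, hc, rfl, hTs⟩
    obtain ⟨c, W, hne, hW1, hW2, hW3⟩ := irr_split hH hns
    have hinv : ∀ M : Matrix ι ι ℂ, H * M = M * H → ∀ b,
        M * W b = W b * ((W b)ᴴ * M * W b) := by
      intro M hM b
      calc M * W b = (∑ b', W b' * (W b')ᴴ) * (M * W b) := by rw [hW1, Matrix.one_mul]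
        _ = ∑ b', W b' * ((W b')ᴴ * M * W b) := by
            rw [Matrix.sum_mul]; simp only [Matrix.mul_assoc]
        _ = _ := Finset.sum_eq_single b (fun b' _ hb => by rw [hW3 M hM b' b hb, Matrix.mul_zero])
            (fun h => (h (Finset.mem_univ _)).elim)
    have hi : ∀ b g, π g * W b = W b * ((W b)ᴴ * π g * W b) := fun b g => hinv _ (hHπ g) b
    have key : ∀ b, ∃ (J : Type) (_ : Fintype J) (r : J → IrrRep G)
        (V : ∀ j, Matrix {i // c i = b} (Fin (r j).n) ℂ) (t : J → ℝ),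
        (∑ j, V j * (V j)ᴴ = 1) ∧ (∀ j, (V j)ᴴ * V j = 1) ∧ (∀ j k, j ≠ k → (V j)ᴴ * V k = 0) ∧
        (∀ j g, irrRestrict π (W b) (hW2 b) (hi b) g * V j = V j * (r j).ρ g) ∧
        (∀ j, ((W b)ᴴ * T * W b) * V j = (t j : ℂ) • V j) := by
      intro b
      obtain ⟨i, hib⟩ := hne b
      refine ih _ (hn ▸ Fintype.card_subtype_lt (p := fun i => c i = b) hib) rfl
        (irr_isU_restrict hπ _ _ _) (Matrix.isHermitian_conjTranspose_mul_mul _ hT) fun g => ?_
      change (W b)ᴴ * T * W b * ((W b)ᴴ * π g * W b) = (W b)ᴴ * π g * W b * ((W b)ᴴ * T * W b)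
      rw [Matrix.mul_assoc _ (W b), ← hi b g, Matrix.mul_assoc _ (W b), ← hinv T hHT b]
      simp only [Matrix.mul_assoc]
      rw [← Matrix.mul_assoc T, hc g, Matrix.mul_assoc]
    choose J fJ r V t h1 h2 h3 h4 h5 using key
    refine ⟨Σ b, J b, inferInstance, fun x => r x.1 x.2, fun x => W x.1 * V x.1 x.2,
      fun x => t x.1 x.2, ?_, ?_, ?_, ?_, ?_⟩
    · rw [Fintype.sum_sigma, ← hW1]
      refine Finset.sum_congr rfl fun b _ => ?_
      calc ∑ j, W b * V b j * (W b * V b j)ᴴ = W b * (∑ j, V b j * (V b j)ᴴ) * (W b)ᴴ := by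
            rw [Matrix.mul_sum, Matrix.sum_mul]
            simp only [Matrix.conjTranspose_mul, Matrix.mul_assoc]
        _ = _ := by rw [h1 b, Matrix.mul_one]
    · rintro ⟨b, j⟩
      simp only [Matrix.conjTranspose_mul, Matrix.mul_assoc]
      rw [← Matrix.mul_assoc (W b)ᴴ, hW2, Matrix.one_mul, h2]
    · rintro ⟨b, j⟩ ⟨b', k⟩ hjk
      simp only [Matrix.conjTranspose_mul, Matrix.mul_assoc]
      rw [← Matrix.mul_assoc (W b)ᴴ]
      by_cases hb : b = b'
      · subst hb
        rw [hW2, Matrix.one_mul, h3 b j k fun h => hjk (by rw [h])]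
      · have := hW3 1 (by simp) b b' hb
        rw [Matrix.mul_one] at this
        rw [this, Matrix.zero_mul, Matrix.mul_zero]
    · rintro ⟨b, j⟩ g
      simp only
      rw [← Matrix.mul_assoc, hi b g, Matrix.mul_assoc, Matrix.mul_assoc (W b), ← h4 b j g]
      rfl
    · rintro ⟨b, j⟩
      simp only
      rw [← Matrix.mul_assoc, hinv T hHT b, Matrix.mul_assoc, h5 b j, Matrix.mul_smul]

/-- Orthogonal decomposition of a unitary representation into irreducible ones, compatible with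
a commuting Hermitian matrix. -/
theorem exists_decomp {ι : Type} [Fintype ι] [DecidableEq ι] {π : G →* Matrix ι ι ℂ} (hπ : IsU π)
    {T : Matrix ι ι ℂ} (hT : T.IsHermitian) (hc : ∀ g, T * π g = π g * T) :
    ∃ (J : Type) (_ : Fintype J) (_ : DecidableEq J) (r : J → IrrRep G)
      (V : ∀ j, Matrix ι (Fin (r j).n) ℂ) (t : J → ℝ),
      (∑ j, V j * (V j)ᴴ = 1) ∧ (∀ j, (V j)ᴴ * V j = 1) ∧ (∀ j k, j ≠ k → (V j)ᴴ * V k = 0) ∧
      (∀ j g, π g * V j = V j * (r j).ρ g) ∧ (∀ j, T * V j = (t j : ℂ) • V j) := by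
  obtain ⟨J, fJ, r, V, t, h⟩ := irr_decomp_aux _ rfl hπ hT hc
  exact ⟨J, fJ, Classical.decEq _, r, V, t, h⟩

theorem irr_chr_eq_of_intertwine (r s : IrrRep G) {B : Matrix (Fin r.n) (Fin s.n) ℂ}
    (hB : ∀ g, r.ρ g * B = B * s.ρ g) (h0 : B ≠ 0) : r.chr = s.chr := by
  have hB' : ∀ g, Bᴴ * r.ρ g = s.ρ g * Bᴴ := by
    intro g
    have := congrArg Matrix.conjTranspose (hB g⁻¹)
    rw [r.unit g, s.unit g] at this
    simpa [Matrix.star_eq_conjTranspose] using this
  obtain ⟨c, hc⟩ := s.irr (Bᴴ * B) fun g => by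
    rw [Matrix.mul_assoc, ← hB, ← Matrix.mul_assoc, hB', Matrix.mul_assoc]
  obtain ⟨c', hc'⟩ := r.irr (B * Bᴴ) fun g => by
    rw [Matrix.mul_assoc, hB', ← Matrix.mul_assoc, ← hB, Matrix.mul_assoc]
  have hc0 : c ≠ 0 := by
    rintro rfl
    rw [zero_smul] at hc
    exact h0 (Matrix.conjTranspose_mul_self_eq_zero.1 hc)
  have hcc : c = c' := by
    have h1 : B * (Bᴴ * B) = (B * Bᴴ) * B := (Matrix.mul_assoc _ _ _).symm
    rw [hc, hc', Matrix.mul_smul, Matrix.smul_mul, Matrix.mul_one, Matrix.one_mul] at h1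
    exact smul_left_injective ℂ h0 h1
  funext g
  have h2 : (r.ρ g * (B * Bᴴ)).trace = (s.ρ g * (Bᴴ * B)).trace := by
    rw [← Matrix.mul_assoc, hB, Matrix.mul_assoc, Matrix.trace_mul_comm, Matrix.mul_assoc]
  rw [hc, hc', ← hcc] at h2
  simp only [Matrix.mul_smul, Matrix.mul_one, Matrix.trace_smul, smul_eq_mul] at h2
  exact mul_left_cancel₀ hc0 h2

/-- The average of a matrix over the action on both sides. -/
noncomputable def irrAvg (r s : IrrRep G) (E : Matrix (Fin r.n) (Fin s.n) ℂ) :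
    Matrix (Fin r.n) (Fin s.n) ℂ := ∑ g, r.ρ g * E * s.ρ g⁻¹

theorem irr_avg_intertwine (r s : IrrRep G) (E : Matrix (Fin r.n) (Fin s.n) ℂ) (h : G) :
    r.ρ h * irrAvg r s E = irrAvg r s E * s.ρ h := by
  rw [irrAvg, Matrix.mul_sum, Matrix.sum_mul]
  refine Fintype.sum_equiv (Equiv.mulLeft h) _ _ fun g => ?_
  simp only [Equiv.coe_mulLeft, map_mul, mul_inv_rev, Matrix.mul_assoc]
  rw [← map_mul s.ρ h⁻¹ h, inv_mul_cancel, map_one, Matrix.mul_one]

theorem irr_sum_chr (r s : IrrRep G) : ∑ g, r.chr g * s.chr g⁻¹ =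
    ∑ i, ∑ j, irrAvg r s (Matrix.single i j 1) i j := by
  simp only [irrAvg, IrrRep.chr, Matrix.trace, Matrix.diag_apply, Finset.sum_mul_sum, Matrix.sum_apply]
  rw [Finset.sum_comm]
  refine Finset.sum_congr rfl fun i _ => ?_
  rw [Finset.sum_comm]
  refine Finset.sum_congr rfl fun j _ => Finset.sum_congr rfl fun g _ => ?_
  rw [Matrix.mul_assoc, Matrix.mul_apply, Finset.sum_eq_single i]
  · simp
  · intro b _ hb
    rw [Matrix.single_mul_apply_of_ne _ _ _ _ _ hb, mul_zero]
  · simp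

/-- Orthogonality relations. -/
theorem IsIrr.orth {χ ψ : G → ℂ} (hχ : IsIrr χ) (hψ : IsIrr ψ) :
    ∑ g, χ g * ψ g⁻¹ = if χ = ψ then (Fintype.card G : ℂ) else 0 := by
  obtain ⟨r, rfl⟩ := hχ
  split_ifs with h
  · rw [← h, irr_sum_chr]
    have hn : (r.n : ℂ) ≠ 0 := by exact_mod_cast r.pos.ne'
    have h1 : ∀ i j, irrAvg r r (Matrix.single i j 1) i j =
        if i = j then (Fintype.card G : ℂ) / r.n else 0 := by
      intro i j
      obtain ⟨c, hc⟩ := r.irr _ fun g => (irr_avg_intertwine r r (Matrix.single i j 1) g).symm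
      have h2 := congrArg Matrix.trace hc
      rw [irrAvg, Matrix.trace_sum] at h2
      have h3 : ∀ g, (r.ρ g * Matrix.single i j (1 : ℂ) * r.ρ g⁻¹).trace =
          (Matrix.single i j (1 : ℂ)).trace := fun g => by
        rw [Matrix.trace_mul_comm, ← Matrix.mul_assoc, ← map_mul, inv_mul_cancel, map_one,
          Matrix.one_mul]
      rw [hc, Matrix.smul_apply, Matrix.one_apply]
      split_ifs with hij
      · subst hij
        simp only [h3, Matrix.trace_single_eq_same, Finset.sum_const, Finset.card_univ,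
          nsmul_eq_mul, mul_one, Matrix.trace_smul, Matrix.trace_one, Fintype.card_fin,
          smul_eq_mul] at h2
        rw [h2, smul_eq_mul, mul_one, mul_div_cancel_right₀ _ hn]
      · simp
    simp only [h1, Finset.sum_ite_eq, Finset.mem_univ, if_true, Finset.sum_const,
      Finset.card_univ, Fintype.card_fin, nsmul_eq_mul]
    field_simp
  · obtain ⟨s, rfl⟩ := hψ
    rw [irr_sum_chr]
    refine Finset.sum_eq_zero fun i _ => Finset.sum_eq_zero fun j _ => ?_
    have : irrAvg r s (Matrix.single i j 1) = 0 := by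
      by_contra h0
      exact h (irr_chr_eq_of_intertwine r s (irr_avg_intertwine r s _) h0)
    rw [this, Matrix.zero_apply]

theorem irr_linearIndependent :
    LinearIndependent ℂ fun χ : {χ : G → ℂ | IsIrr χ} => (χ : G → ℂ) := by
  classical
  rw [linearIndependent_iff']
  intro s c hs ψ hψ
  have h1 : ∑ g, (∑ χ ∈ s, c χ • (χ : G → ℂ)) g * (ψ : G → ℂ) g⁻¹ = 0 := by rw [hs]; simp
  simp only [Finset.sum_apply, Pi.smul_apply, smul_eq_mul, Finset.sum_mul, mul_assoc] at h1
  rw [Finset.sum_comm] at h1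
  simp only [← Finset.mul_sum] at h1
  rw [Finset.sum_eq_single ψ (fun χ _ hχ => by
    rw [IsIrr.orth χ.2 ψ.2, if_neg (fun h => hχ (Subtype.ext h)), mul_zero])
    (fun h => (h hψ).elim), IsIrr.orth ψ.2 ψ.2, if_pos rfl] at h1
  exact (mul_eq_zero.1 h1).resolve_right (by exact_mod_cast Fintype.card_ne_zero)

theorem finite_isIrr : {χ : G → ℂ | IsIrr χ}.Finite := by
  exact Set.finite_coe_iff.1 irr_linearIndependent.finite

/-- The finite set of irreducible characters. -/
noncomputable def Irr (G : Type) [Group G] [Fintype G] [DecidableEq G] : Finset (G → ℂ) :=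
  (finite_isIrr (G := G)).toFinset

@[simp] theorem mem_Irr {χ : G → ℂ} : χ ∈ Irr G ↔ IsIrr χ := by simp [Irr]

theorem card_Irr_le : (Irr G).card ≤ Nat.card (ConjClasses G) := by
  classical
  have : Fintype (ConjClasses G) := Fintype.ofFinite _
  have : Fintype {χ : G → ℂ | IsIrr χ} := finite_isIrr.fintype
  have h1 : LinearIndependent ℂ fun χ : {χ : G → ℂ | IsIrr χ} =>
      fun c : ConjClasses G => (χ : G → ℂ) (Quotient.out c) := by
    refine LinearIndependent.of_comp (LinearMap.funLeft ℂ ℂ (ConjClasses.mk : G → _)) ?_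
    convert irr_linearIndependent (G := G) using 1
    funext χ g
    have h2 : IsConj g (Quotient.out (ConjClasses.mk g)) :=
      ConjClasses.mk_eq_mk_iff_isConj.1 (Quotient.out_eq _).symm
    obtain ⟨k, hk⟩ := isConj_iff.1 h2
    change (χ : G → ℂ) (Quotient.out (ConjClasses.mk g)) = _
    rw [← hk]
    exact IsIrr.conj_eq χ.2 g k
  have h3 := h1.fintype_card_le_finrank
  rw [Module.finrank_fintype_fun_eq_card] at h3
  rw [Nat.card_eq_fintype_card, Irr, Set.Finite.card_toFinset]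
  exact h3

/-- The central idempotent of a character. -/
noncomputable def eI (χ : G → ℂ) : GA G := fun g => χ 1 / (Fintype.card G : ℂ) * χ g⁻¹

/-- The central element acting by the scalar `f χ` on the irreducible character `χ`. -/
noncomputable def cen (f : (G → ℂ) → ℂ) : GA G := ∑ χ ∈ Irr G, f χ • eI χ

theorem IrrRep.lift_eI (r : IrrRep G) {χ : G → ℂ} (hχ : IsIrr χ) :
    lift r.ρ (eI χ) = if χ = r.chr then 1 else 0 := by
  have hG : (Fintype.card G : ℂ) ≠ 0 := by exact_mod_cast Fintype.card_ne_zero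
  have hn : (r.n : ℂ) ≠ 0 := by exact_mod_cast r.pos.ne'
  obtain ⟨c, hc⟩ := r.irr (lift r.ρ (eI χ)) fun h => by
    rw [← lift_dl r.ρ h, ← map_mul, ← map_mul]
    congr 1
    ext g
    rw [dl_mul_apply, mul_dl_apply]
    simp only [eI, mul_inv_rev, inv_inv]
    rw [← hχ.conj_eq (g⁻¹ * h) h, mul_assoc h, mul_inv_cancel_right]
  have h2 := congrArg Matrix.trace hc
  rw [← r.ev_chr, ev_apply] at h2
  simp only [eI, mul_assoc, ← Finset.mul_sum, mul_comm (χ _⁻¹)] at h2
  rw [r.isIrr.orth hχ] at h2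
  simp only [Matrix.trace_smul, Matrix.trace_one, Fintype.card_fin, smul_eq_mul] at h2
  rw [hc]
  by_cases h : χ = r.chr
  · rw [if_pos h.symm, h, r.chr_one, div_mul_cancel₀ _ hG] at h2
    have : c = 1 := mul_right_cancel₀ hn (by rw [← h2, one_mul])
    rw [if_pos h, this, one_smul]
  · rw [if_neg (Ne.symm h), mul_zero] at h2
    rw [if_neg h, (mul_eq_zero.1 h2.symm).resolve_right hn, zero_smul]

theorem IrrRep.lift_cen (r : IrrRep G) (f : (G → ℂ) → ℂ) : lift r.ρ (cen f) = f r.chr • 1 := by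
  rw [cen, map_sum, Finset.sum_eq_single r.chr]
  · rw [map_smul, r.lift_eI r.isIrr, if_pos rfl]
  · intro χ hχ hne
    rw [map_smul, r.lift_eI (mem_Irr.1 hχ), if_neg hne, smul_zero]
  · intro h
    exact (h (mem_Irr.2 r.isIrr)).elim

theorem irr_le_of_forall {a b : GA G} (h : ∀ r : IrrRep G, lift r.ρ a ≤ lift r.ρ b) : a ≤ b := by
  obtain ⟨J, _, _, r, V, t, h1, -, -, h4, -⟩ := exists_decomp (isU_regRep (G := G))
    (T := 0) Matrix.isHermitian_zero (by simp)
  rw [← sub_nonneg, nonneg_iff]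
  have h5 : ∀ j, lift (regRep G) (b - a) * V j = V j * lift (r j).ρ (b - a) := by
    intro j
    simp only [lift_apply, Matrix.sum_mul, Matrix.mul_sum, Matrix.smul_mul, Matrix.mul_smul, h4]
  have h6 : lift (regRep G) (b - a) = ∑ j, V j * lift (r j).ρ (b - a) * (V j)ᴴ := by
    conv_lhs => rw [← Matrix.mul_one (lift (regRep G) (b - a)), ← h1, Matrix.mul_sum]
    simp only [← Matrix.mul_assoc, h5]
  rw [h6]
  refine Matrix.posSemidef_sum _ fun j _ => Matrix.PosSemidef.mul_mul_conjTranspose_same ?_ _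
  rw [map_sub]
  exact Matrix.le_iff.1 (h (r j))

theorem eq_of_forall_irr {a b : GA G} (h : ∀ r : IrrRep G, lift r.ρ a = lift r.ρ b) : a = b := by
  exact le_antisymm (irr_le_of_forall fun r => (h r).le) (irr_le_of_forall fun r => (h r).ge)

theorem le_of_forall_irr {a b : GA G} (h : ∀ r : IrrRep G, lift r.ρ a ≤ lift r.ρ b) : a ≤ b := by
  exact irr_le_of_forall h

theorem eI_eq_cen {χ : G → ℂ} (hχ : IsIrr χ) : eI χ = cen fun ψ => if ψ = χ then 1 else 0 := by
  refine eq_of_forall_irr fun r => ?_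
  rw [r.lift_eI hχ, r.lift_cen]
  by_cases h : χ = r.chr
  · simp [h]
  · simp [h, Ne.symm h]

theorem cen_congr {f g : (G → ℂ) → ℂ} (h : ∀ χ, IsIrr χ → f χ = g χ) : cen f = cen g :=
  sum_congr rfl fun χ hχ => by rw [h χ (mem_Irr.1 hχ)]

theorem cen_one : cen (fun _ : G → ℂ => (1 : ℂ)) = 1 := by
  exact eq_of_forall_irr fun r => by rw [r.lift_cen, one_smul, map_one]

theorem cen_const (c : ℂ) : cen (fun _ : G → ℂ => c) = c • 1 := by
  exact eq_of_forall_irr fun r => by rw [r.lift_cen, map_smul, map_one]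

theorem cen_mul (f g : (G → ℂ) → ℂ) : cen f * cen g = cen fun χ => f χ * g χ := by
  exact eq_of_forall_irr fun r => by
    rw [map_mul, r.lift_cen, r.lift_cen, r.lift_cen, smul_mul_smul_comm, one_mul]

theorem cen_add (f g : (G → ℂ) → ℂ) : cen f + cen g = cen fun χ => f χ + g χ := by
  exact eq_of_forall_irr fun r => by rw [map_add, r.lift_cen, r.lift_cen, r.lift_cen, add_smul]

theorem cen_sum {α : Type*} (s : Finset α) (f : α → (G → ℂ) → ℂ) :
    ∑ i ∈ s, cen (f i) = cen fun χ => ∑ i ∈ s, f i χ := by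
  exact eq_of_forall_irr fun r => by simp only [map_sum, r.lift_cen, Finset.sum_smul]

theorem smul_cen (c : ℂ) (f : (G → ℂ) → ℂ) : c • cen f = cen fun χ => c * f χ := by
  exact eq_of_forall_irr fun r => by rw [map_smul, r.lift_cen, r.lift_cen, smul_smul]

theorem star_cen (f : (G → ℂ) → ℂ) : star (cen f) = cen fun χ => conj (f χ) := by
  exact eq_of_forall_irr fun r => by
    rw [lift_star r.unit, r.lift_cen, r.lift_cen, star_smul, star_one]; rfl

theorem cen_comm (f : (G → ℂ) → ℂ) (a : GA G) : cen f * a = a * cen f := by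
  exact eq_of_forall_irr fun r => by simp only [map_mul, r.lift_cen, smul_mul_assoc,
    mul_smul_comm, one_mul, mul_one]

theorem cen_mono {f g : (G → ℂ) → ℂ} (h : ∀ χ, IsIrr χ → f χ ≤ g χ) : cen f ≤ cen g := by
  refine le_of_forall_irr fun r => ?_
  rw [r.lift_cen, r.lift_cen, Matrix.le_iff, ← sub_smul]
  exact Matrix.PosSemidef.one.smul (sub_nonneg.2 (h _ r.isIrr))

theorem cen_nonneg {f : (G → ℂ) → ℂ} (h : ∀ χ, IsIrr χ → 0 ≤ f χ) : 0 ≤ cen f := by
  have := cen_mono (f := fun _ => 0) h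
  rwa [cen_const, zero_smul] at this

theorem isStarProjection_cen (P : (G → ℂ) → Prop) [DecidablePred P] :
    IsStarProjection (cen fun χ => if P χ then 1 else 0 : GA G) := by
  refine ⟨?_, ?_⟩
  · change cen _ * cen _ = _
    rw [cen_mul]
    exact cen_congr fun χ _ => by split_ifs <;> simp
  · change star (cen _) = _
    rw [star_cen]
    exact cen_congr fun χ _ => by split_ifs <;> simp

theorem isStarProjection_eI {χ : G → ℂ} (hχ : IsIrr χ) : IsStarProjection (eI χ) := by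
  rw [eI_eq_cen hχ]
  exact isStarProjection_cen fun ψ => ψ = χ

theorem eI_comm {χ : G → ℂ} (hχ : IsIrr χ) (a : GA G) : eI χ * a = a * eI χ := by
  rw [eI_eq_cen hχ, cen_comm]

theorem IsIrr.ev_cen_mul {χ : G → ℂ} (hχ : IsIrr χ) (f : (G → ℂ) → ℂ) (a : GA G) :
    ev χ (cen f * a) = f χ * ev χ a := by
  obtain ⟨r, rfl⟩ := hχ
  rw [r.ev_chr, r.ev_chr, map_mul, r.lift_cen, smul_mul_assoc, one_mul, Matrix.trace_smul,
    smul_eq_mul]

/-- Transport of central elements along a group isomorphism. -/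
theorem push_cen_equiv (e : K ≃* G) (f : (G → ℂ) → ℂ) :
    push e.toMonoidHom (cen fun α : K → ℂ => f (α ∘ e.symm)) = cen f := by
  refine eq_of_forall_irr fun r => ?_
  rw [lift_push, r.lift_cen]
  refine ((r.compEquiv e).lift_cen _).trans ?_
  rw [r.chr_compEquiv]
  congr 2
  funext g
  simp

end Crest.Agent.R155
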