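import Crest.Agent.R155.Irr

/-!
# Traces, multiplicities and Frobenius reciprocity
-/

set_option linter.unusedSectionVars false

namespace Crest.Agent.R155

open scoped ComplexOrder MatrixOrder ComplexConjugate Matrix.Norms.L2Operator Matrix
open Finset GA

variable {G K : Type} [Group G] [Fintype G] [DecidableEq G] [Group K] [Fintype K] [DecidableEq K]

theorem i2_card_ne : (Fintype.card G : ℂ) ≠ 0 := by exact_mod_cast Fintype.card_ne_zero

theorem i2_n_ne (r : IrrRep G) : (r.n : ℂ) ≠ 0 := by exact_mod_cast r.pos.ne'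

theorem i2_lift_mul_V {ι : Type} [Fintype ι] [DecidableEq ι] {π : G →* Matrix ι ι ℂ}
    (r : IrrRep G) {V : Matrix ι (Fin r.n) ℂ} (h : ∀ g, π g * V = V * r.ρ g) (a : GA G) :
    lift π a * V = V * lift r.ρ a := by
  simp only [lift_apply, Matrix.sum_mul, Matrix.mul_sum, Matrix.smul_mul, Matrix.mul_smul, h]

theorem i2_VH_mul {ι : Type} [Fintype ι] [DecidableEq ι] {π : G →* Matrix ι ι ℂ} (hπ : IsU π)
    (r : IrrRep G) {V : Matrix ι (Fin r.n) ℂ} (h : ∀ g, π g * V = V * r.ρ g) (g : G) :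
    Vᴴ * π g = r.ρ g * Vᴴ := by
  have h1 := congrArg Matrix.conjTranspose (h g⁻¹)
  rw [Matrix.conjTranspose_mul, Matrix.conjTranspose_mul, hπ g, r.unit g] at h1
  simpa [Matrix.star_eq_conjTranspose] using h1

theorem i2_VVH_comm {ι : Type} [Fintype ι] [DecidableEq ι] {π : G →* Matrix ι ι ℂ} (hπ : IsU π)
    (r : IrrRep G) {V : Matrix ι (Fin r.n) ℂ} (h : ∀ g, π g * V = V * r.ρ g) (g : G) :
    V * Vᴴ * π g = π g * (V * Vᴴ) := by
  rw [Matrix.mul_assoc, i2_VH_mul hπ r h, ← Matrix.mul_assoc, ← h, Matrix.mul_assoc]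

theorem i2_trace_decomp {ι : Type} [Fintype ι] [DecidableEq ι] {π : G →* Matrix ι ι ℂ}
    {T : Matrix ι ι ℂ} {J : Type} [Fintype J] {r : J → IrrRep G}
    {V : ∀ j, Matrix ι (Fin (r j).n) ℂ} {t : J → ℝ} (h1 : ∑ j, V j * (V j)ᴴ = 1)
    (h2 : ∀ j, (V j)ᴴ * V j = 1) (h4 : ∀ j g, π g * V j = V j * (r j).ρ g)
    (h5 : ∀ j, T * V j = (t j : ℂ) • V j) (a : GA G) :
    (lift π a * T).trace = ∑ j, (t j : ℂ) * ev (r j).chr a := by
  conv_lhs => rw [← Matrix.mul_one (lift π a * T), ← h1, Matrix.mul_sum, Matrix.trace_sum]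
  refine sum_congr rfl fun j _ => ?_
  rw [← Matrix.mul_assoc, Matrix.mul_assoc (lift π a), h5, Matrix.mul_smul, Matrix.smul_mul,
    i2_lift_mul_V (r j) (h4 j), Matrix.trace_smul, Matrix.trace_mul_comm, ← Matrix.mul_assoc, h2,
    Matrix.one_mul, (r j).ev_chr, smul_eq_mul]

theorem i2_t_proj {ι : Type} [Fintype ι] [DecidableEq ι] {P : Matrix ι ι ℂ}
    (hP : IsStarProjection P) (r : IrrRep G) {V : Matrix ι (Fin r.n) ℂ} (h2 : Vᴴ * V = 1) {t : ℝ}
    (h5 : P * V = (t : ℂ) • V) : t = 0 ∨ t = 1 := by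
  have h1 : P * (P * V) = P * V := by rw [← Matrix.mul_assoc, hP.isIdempotentElem.eq]
  rw [h5, Matrix.mul_smul, h5, smul_smul] at h1
  have h3 := congrArg (fun M => (Vᴴ * M).trace) h1
  simp only [Matrix.mul_smul, h2, Matrix.trace_smul, Matrix.trace_one, Fintype.card_fin,
    smul_eq_mul] at h3
  have h4 : (t : ℂ) * t = t := mul_right_cancel₀ (i2_n_ne r) h3
  have h6 : t * t = t := by exact_mod_cast h4
  by_cases ht : t = 0
  · exact Or.inl ht
  · exact Or.inr (mul_left_cancel₀ ht (by rw [h6, mul_one]))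

theorem i2_ev_eI (r : IrrRep G) {χ : G → ℂ} (hχ : IsIrr χ) :
    ev r.chr (eI χ) = if χ = r.chr then χ 1 else 0 := by
  rw [r.ev_chr, r.lift_eI hχ]
  split_ifs with h
  · rw [h, r.chr_one]; simp
  · simp

theorem i2_inv_nonneg {χ : G → ℂ} (hχ : IsIrr χ) : 0 ≤ (χ 1)⁻¹ := by
  rw [← hχ.coe_dim, ← Complex.ofReal_inv]
  exact_mod_cast (inv_nonneg.2 hχ.dim_pos.le)

theorem i2_one_nonneg {χ : G → ℂ} (hχ : IsIrr χ) : 0 ≤ χ 1 := by
  rw [← hχ.coe_dim]
  exact_mod_cast hχ.dim_pos.le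

theorem i2_proj_lift {A : Type*} [Ring A] [Algebra ℂ A] [StarRing A] [StarModule ℂ A]
    {π : G →* A} (hπ : IsU π) {e : GA G} (he : IsStarProjection e) :
    IsStarProjection (lift π e) :=
  ⟨by rw [IsIdempotentElem, ← map_mul, he.isIdempotentElem.eq], by
    rw [IsSelfAdjoint, ← lift_star hπ, he.isSelfAdjoint.star_eq]⟩

/-- Averaging a matrix over an irreducible representation. -/
theorem IrrRep.sum_conj (r : IrrRep G) (A : Matrix (Fin r.n) (Fin r.n) ℂ) :
    ∑ g, r.ρ g * A * r.ρ g⁻¹ = ((Fintype.card G : ℂ) * A.trace / r.n) • 1 := by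
  obtain ⟨c, hc⟩ := r.irr (∑ g, r.ρ g * A * r.ρ g⁻¹) (fun h => by
    rw [Matrix.sum_mul, Matrix.mul_sum]
    refine Fintype.sum_equiv (Equiv.mulLeft h⁻¹) _ _ fun g => ?_
    simp only [Equiv.coe_mulLeft, mul_inv_rev, inv_inv, map_mul, ← Matrix.mul_assoc]
    rw [← map_mul, mul_inv_cancel, map_one, Matrix.one_mul])
  have h1 := congrArg Matrix.trace hc
  have h2 : ∀ g, (r.ρ g * A * r.ρ g⁻¹).trace = A.trace := fun g => by
    rw [Matrix.trace_mul_comm, ← Matrix.mul_assoc, ← map_mul, inv_mul_cancel, map_one,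
      Matrix.one_mul]
  simp only [Matrix.trace_sum, h2, sum_const, card_univ, nsmul_eq_mul, Matrix.trace_smul,
    Matrix.trace_one, Fintype.card_fin, smul_eq_mul] at h1
  rw [hc, h1, mul_div_assoc, div_self (i2_n_ne r), mul_one]

/-- Averaging over conjugation inside an isotypic component. -/
theorem eI_mul_sum_conj {χ : G → ℂ} (hχ : IsIrr χ) (a : GA G) :
    eI χ * ∑ g, dl g * a * dl g⁻¹ = ((Fintype.card G : ℂ) * ev χ a / χ 1) • eI χ := by
  refine eq_of_forall_irr fun r => ?_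
  simp only [map_mul, map_sum, lift_dl, map_smul]
  rw [r.sum_conj, r.lift_eI hχ]
  split_ifs with h
  · rw [h, r.ev_chr, r.chr_one, one_mul]
  · simp

/-- Expansion of a tracial functional in irreducible characters. -/
theorem tr_expand {τ : GA G →ₗ[ℂ] ℂ} (hτ : ∀ a b, τ (a * b) = τ (b * a)) (a : GA G) :
    τ a = ∑ χ ∈ Irr G, τ (eI χ) / χ 1 * ev χ a := by
  have h1 : a = ∑ χ ∈ Irr G, eI χ * a := by
    rw [← sum_mul]
    have := cen_one (G := G)
    simp only [cen, one_smul] at this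
    rw [this, one_mul]
  conv_lhs => rw [h1, map_sum]
  refine sum_congr rfl fun χ hχ => ?_
  rw [mem_Irr] at hχ
  have h2 := congrArg τ (eI_mul_sum_conj hχ a)
  have h3 : ∀ g, τ (eI χ * (dl g * a * dl g⁻¹)) = τ (eI χ * a) := fun g => by
    rw [← mul_assoc, hτ, ← mul_assoc, ← eI_comm hχ, mul_assoc, ← mul_assoc (dl g⁻¹), dl_mul_dl,
      inv_mul_cancel, dl_one, one_mul]
  simp only [mul_sum, map_sum, h3, sum_const, card_univ, nsmul_eq_mul, map_smul,
    smul_eq_mul] at h2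
  have h4 := i2_card_ne (G := G)
  have h5 := hχ.one_ne_zero
  apply mul_left_cancel₀ h4
  rw [h2]
  field_simp

theorem IsTr.coeff_nonneg {τ : GA G →ₗ[ℂ] ℂ} (hτ : IsTr τ) {χ : G → ℂ} (hχ : IsIrr χ) :
    0 ≤ τ (eI χ) / χ 1 := by
  rw [div_eq_mul_inv]
  exact _root_.mul_nonneg (hτ.pos _ (isStarProjection_eI hχ).nonneg) (i2_inv_nonneg hχ)

/-- One term of the expansion is at most the whole functional. -/
theorem IsTr.coeff_mul_le {τ : GA G →ₗ[ℂ] ℂ} (hτ : IsTr τ) {χ : G → ℂ} (hχ : IsIrr χ) {a : GA G}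
    (ha : 0 ≤ a) : τ (eI χ) / χ 1 * ev χ a ≤ τ a := by
  conv_rhs => rw [tr_expand hτ.comm a]
  exact single_le_sum (f := fun χ => τ (eI χ) / χ 1 * ev χ a)
    (fun ψ hψ => _root_.mul_nonneg (hτ.coeff_nonneg (mem_Irr.1 hψ)) ((mem_Irr.1 hψ).isTr.pos a ha))
    (mem_Irr.2 hχ)

/-- Plancherel formula. -/
theorem plancherel (a : GA G) : (Fintype.card G : ℂ) * a 1 = ∑ χ ∈ Irr G, χ 1 * ev χ a := by
  let τ : GA G →ₗ[ℂ] ℂ := { toFun := fun a => a 1, map_add' := fun _ _ => rfl,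
                            map_smul' := fun _ _ => rfl }
  have hτ : ∀ a b, τ (a * b) = τ (b * a) := fun a b => by
    change (a * b) 1 = (b * a) 1
    rw [mul_apply, mul_apply']
    refine sum_congr rfl fun h _ => ?_
    simp [mul_comm]
  have h1 := tr_expand hτ a
  change a 1 = ∑ χ ∈ Irr G, eI χ 1 / χ 1 * ev χ a at h1
  rw [h1, mul_sum]
  refine sum_congr rfl fun χ hχ => ?_
  have h4 := i2_card_ne (G := G)
  have h5 := (mem_Irr.1 hχ).one_ne_zero
  simp only [eI, inv_one]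
  field_simp

/-- Multiplicities are natural numbers. -/
theorem exists_mult_nat {ι : Type} [Fintype ι] [DecidableEq ι] {π : G →* Matrix ι ι ℂ}
    (hπ : IsU π) {P : Matrix ι ι ℂ} (hP : IsStarProjection P) (hc : ∀ g, P * π g = π g * P)
    {χ : G → ℂ} (hχ : IsIrr χ) : ∃ m : ℕ, (lift π (eI χ) * P).trace = m * χ 1 := by
  classical
  obtain ⟨J, _, _, r, V, t, h1, h2, -, h4, h5⟩ := exists_decomp hπ hP.isSelfAdjoint hc
  refine ⟨(univ.filter fun j => t j = 1 ∧ χ = (r j).chr).card, ?_⟩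
  rw [i2_trace_decomp h1 h2 h4 h5, card_filter, Nat.cast_sum, sum_mul]
  refine sum_congr rfl fun j _ => ?_
  rw [i2_ev_eI (r j) hχ]
  rcases i2_t_proj hP (r j) (h2 j) (h5 j) with h | h
  · simp [h]
  · by_cases h' : χ = (r j).chr
    · rw [if_pos h', if_pos ⟨h, h'⟩, h]; simp
    · rw [if_neg h', if_neg (fun h'' => h' h''.2)]; simp

/-- The trace of a nonzero projection is at least one. -/
theorem one_le_trace_of_proj {ι : Type} [Fintype ι] [DecidableEq ι] {P : Matrix ι ι ℂ}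
    (hP : IsStarProjection P) (h0 : P ≠ 0) : 1 ≤ P.trace := by
  have hu : IsU (1 : PUnit →* Matrix ι ι ℂ) := fun g => by simp
  obtain ⟨m, hm⟩ := exists_mult_nat hu hP (fun g => by simp) (isIrr_one (G := PUnit))
  have h1 : lift (1 : PUnit →* Matrix ι ι ℂ) (eI fun _ => (1 : ℂ)) = 1 := by
    simp [lift_apply, eI]
  rw [h1, Matrix.one_mul, mul_one] at hm
  have h2 : P.trace ≠ 0 := fun h =>
    h0 ((Matrix.nonneg_iff_posSemidef.1 hP.nonneg).trace_eq_zero_iff.1 h)
  rw [hm] at h2 ⊢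
  have h3 : m ≠ 0 := fun h => h2 (by simp [h])
  exact_mod_cast Nat.one_le_iff_ne_zero.2 h3

theorem IrrRep.ev_ne_zero_iff (r : IrrRep G) {a : GA G} (ha : 0 ≤ a) :
    ev r.chr a ≠ 0 ↔ lift r.ρ a ≠ 0 := by
  rw [r.ev_chr]
  exact not_congr (Matrix.nonneg_iff_posSemidef.1 (lift_nonneg r.unit ha)).trace_eq_zero_iff

theorem IsIrr.one_le_ev {χ : G → ℂ} (hχ : IsIrr χ) {e : GA G} (he : IsStarProjection e)
    (h0 : ev χ e ≠ 0) : 1 ≤ ev χ e := by
  obtain ⟨r, rfl⟩ := hχ
  rw [r.ev_chr]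
  exact one_le_trace_of_proj (i2_proj_lift r.unit he) ((r.ev_ne_zero_iff he.nonneg).1 h0)

/-- In an irreducible representation two nonzero matrices can be connected by a group element. -/
theorem IrrRep.exists_mul_ne_zero (r : IrrRep G) {α β : Type} {A : Matrix α (Fin r.n) ℂ}
    {B : Matrix (Fin r.n) β ℂ} (hA : A ≠ 0) (hB : B ≠ 0) : ∃ g, A * r.ρ g * B ≠ 0 := by
  by_contra hcon
  push Not at hcon
  obtain ⟨i, j, hij⟩ : ∃ i j, B i j ≠ 0 := by
    by_contra h
    push Not at h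
    exact hB (Matrix.ext h)
  set b : Matrix (Fin r.n) Unit ℂ := B.submatrix id fun _ => j with hb
  have hb0 : b ≠ 0 := fun h => hij (congrFun (congrFun h i) ())
  have h1 : ∀ g, A * r.ρ g * b = 0 := fun g => by
    ext x y
    exact congrFun (congrFun (hcon g) x) j
  have h2 : (b * bᴴ).trace ≠ 0 := fun h =>
    hb0 (Matrix.self_mul_conjTranspose_eq_zero.1
      ((Matrix.posSemidef_self_mul_conjTranspose b).trace_eq_zero_iff.1 h))
  have h3 := congrArg (fun M => A * M) (r.sum_conj (b * bᴴ))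
  simp only [Matrix.mul_sum, ← Matrix.mul_assoc, h1, Matrix.zero_mul, sum_const_zero,
    Matrix.mul_smul, Matrix.mul_one] at h3
  rcases smul_eq_zero.1 h3.symm with h | h
  · exact div_ne_zero (mul_ne_zero i2_card_ne h2) (i2_n_ne r) h
  · exact hA h

/-- A positive matrix commuting with a unitary representation is bounded by its trace divided by
the dimension of the irreducible constituent. -/
theorem le_trace_smul_cen {ι : Type} [Fintype ι] [DecidableEq ι] {π : G →* Matrix ι ι ℂ}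
    (hπ : IsU π) {T : Matrix ι ι ℂ} (hT : 0 ≤ T) (hc : ∀ g, T * π g = π g * T) :
    T ≤ T.trace • lift π (cen fun χ => (χ 1)⁻¹) := by
  have hT' := Matrix.nonneg_iff_posSemidef.1 hT
  obtain ⟨J, _, _, r, V, t, h1, h2, -, h4, h5⟩ := exists_decomp hπ hT'.isHermitian hc
  have ht : ∀ j, (0 : ℂ) ≤ t j * (r j).n := fun j => by
    have := (hT'.conjTranspose_mul_mul_same (V j)).trace_nonneg
    rwa [Matrix.mul_assoc, h5, Matrix.mul_smul, h2, Matrix.trace_smul, Matrix.trace_one,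
      Fintype.card_fin, smul_eq_mul] at this
  have htr : T.trace = ∑ j, (t j : ℂ) * (r j).n := by
    have := i2_trace_decomp h1 h2 h4 h5 1
    simpa [IrrRep.chr_one] using this
  have hT2 : T = ∑ j, (t j : ℂ) • (V j * (V j)ᴴ) := by
    conv_lhs => rw [← Matrix.mul_one T, ← h1, Matrix.mul_sum]
    refine sum_congr rfl fun j _ => ?_
    rw [← Matrix.mul_assoc, h5, Matrix.smul_mul]
  have hC : lift π (cen fun χ => (χ 1)⁻¹) = ∑ j, ((r j).n : ℂ)⁻¹ • (V j * (V j)ᴴ) := by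
    conv_lhs => rw [← Matrix.mul_one (lift π _), ← h1, Matrix.mul_sum]
    refine sum_congr rfl fun j _ => ?_
    rw [← Matrix.mul_assoc, i2_lift_mul_V (r j) (h4 j), (r j).lift_cen, (r j).chr_one,
      Matrix.mul_smul, Matrix.mul_one, Matrix.smul_mul]
  rw [hC, smul_sum, ← sub_nonneg]
  conv_rhs => rw [hT2, ← sum_sub_distrib]
  rw [← hT2]
  refine sum_nonneg fun j _ => ?_
  rw [smul_smul, ← sub_smul, Matrix.nonneg_iff_posSemidef]
  refine (Matrix.posSemidef_self_mul_conjTranspose _).smul ?_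
  have h6 : (t j : ℂ) * (r j).n ≤ T.trace := by
    rw [htr]
    exact single_le_sum (f := fun j => (t j : ℂ) * (r j).n) (fun k _ => ht k) (mem_univ j)
  have h7 : (0 : ℂ) ≤ ((r j).n : ℂ)⁻¹ := by
    have := i2_inv_nonneg (r j).isIrr
    rwa [(r j).chr_one] at this
  have h8 := _root_.mul_nonneg (sub_nonneg.2 h6) h7
  have h9 := i2_n_ne (r j)
  convert h8 using 1
  field_simp

/-- The number of irreducible summands below `P` is at most the number of matrix entries needed to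
determine an element of the commutant below `P`. -/
theorem trace_cen_inv_le {ι I : Type} [Fintype ι] [DecidableEq ι] [Fintype I]
    {π : G →* Matrix ι ι ℂ} (hπ : IsU π) {P : Matrix ι ι ℂ} (hP : IsStarProjection P)
    (hc : ∀ g, P * π g = π g * P) (x y : I → ι)
    (h : ∀ A : Matrix ι ι ℂ, (∀ g, A * π g = π g * A) → P * A * P = A →
      (∀ i, A (x i) (y i) = 0) → A = 0) :
    (lift π (cen fun χ => (χ 1)⁻¹) * P).trace.re ≤ Fintype.card I := by
  classical
  obtain ⟨J, _, _, r, V, t, h1, h2, h3, h4, h5⟩ := exists_decomp hπ hP.isSelfAdjoint hc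
  have htr : (lift π (cen fun χ => (χ 1)⁻¹) * P).trace = (Fintype.card {j // t j = 1} : ℂ) := by
    rw [i2_trace_decomp h1 h2 h4 h5, Fintype.card_subtype, card_filter, Nat.cast_sum]
    refine sum_congr rfl fun j _ => ?_
    rw [(r j).ev_chr, (r j).lift_cen, (r j).chr_one, Matrix.trace_smul, Matrix.trace_one,
      Fintype.card_fin, smul_eq_mul, inv_mul_cancel₀ (i2_n_ne (r j)), mul_one]
    rcases i2_t_proj hP (r j) (h2 j) (h5 j) with h | h <;> simp [h]
  let M : ({j // t j = 1} → ℂ) →ₗ[ℂ] Matrix ι ι ℂ :=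
    { toFun := fun c => ∑ j, c j • (V j.1 * (V j.1)ᴴ)
      map_add' := fun c d => by simp [add_smul, sum_add_distrib]
      map_smul' := fun a c => by simp [smul_sum, mul_smul] }
  let E : Matrix ι ι ℂ →ₗ[ℂ] (I → ℂ) :=
    { toFun := fun A i => A (x i) (y i), map_add' := fun _ _ => rfl, map_smul' := fun _ _ => rfl }
  have hinj : Function.Injective (E ∘ₗ M) := by
    rw [injective_iff_map_eq_zero]
    intro c hc0
    have hM : M c = ∑ j, c j • (V j.1 * (V j.1)ᴴ) := rfl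
    have hPV : ∀ j : {j // t j = 1}, P * V j.1 = V j.1 := fun j => by rw [h5, j.2]; simp
    have hVP : ∀ j : {j // t j = 1}, (V j.1)ᴴ * P = (V j.1)ᴴ := fun j => by
      have := congrArg Matrix.conjTranspose (hPV j)
      rwa [Matrix.conjTranspose_mul, show Pᴴ = P from hP.isSelfAdjoint] at this
    have hA := h (M c) (fun g => by
        rw [hM, Matrix.sum_mul, Matrix.mul_sum]
        refine sum_congr rfl fun j _ => ?_
        rw [Matrix.smul_mul, Matrix.mul_smul, i2_VVH_comm hπ (r j.1) (h4 j.1)])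
      (by
        rw [hM, Matrix.mul_sum, Matrix.sum_mul]
        refine sum_congr rfl fun j _ => ?_
        rw [Matrix.mul_smul, Matrix.smul_mul, ← Matrix.mul_assoc, hPV, Matrix.mul_assoc, hVP])
      (fun i => congrFun hc0 i)
    funext k
    have h6 := congrArg (fun A => ((V k.1)ᴴ * A * V k.1).trace) hA
    simp only [hM, Matrix.mul_sum, Matrix.sum_mul, Matrix.trace_sum, Matrix.mul_zero,
      Matrix.zero_mul, Matrix.trace_zero] at h6
    rw [sum_eq_single k] at h6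
    · rw [Matrix.mul_smul, Matrix.smul_mul, ← Matrix.mul_assoc, h2, Matrix.one_mul, h2,
        Matrix.trace_smul, Matrix.trace_one, Fintype.card_fin, smul_eq_mul] at h6
      exact (mul_eq_zero.1 h6).resolve_right (i2_n_ne _)
    · intro j _ hj
      rw [Matrix.mul_smul, ← Matrix.mul_assoc, h3 k.1 j.1 (fun h => hj (Subtype.ext h.symm))]
      simp
    · simp
  have h7 := LinearMap.finrank_le_finrank_of_injective hinj
  simp only [Module.finrank_fintype_fun_eq_card] at h7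
  rw [htr]
  exact_mod_cast h7

/-- A minimal projection below the central idempotent of `χ` (a diagonal matrix unit:
`e g = (n / |G|) * ρ g⁻¹ i i`). -/
theorem IsIrr.exists_min_proj {χ : G → ℂ} (hχ : IsIrr χ) :
    ∃ e : GA G, IsStarProjection e ∧ ev χ e = 1 ∧ ∀ ψ, IsIrr ψ → ψ ≠ χ → ev ψ e = 0 := by
  obtain ⟨r, rfl⟩ := hχ
  let o : Fin r.n := ⟨0, r.pos⟩
  let e : GA G := fun g => (r.n : ℂ) / Fintype.card G * r.ρ g⁻¹ o o
  have he : ∀ g, e g = (r.n : ℂ) / Fintype.card G * r.ρ g⁻¹ o o := fun _ => rfl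
  have h4 := i2_card_ne (G := G)
  have h5 := i2_n_ne r
  have hev : ∀ ψ, IsIrr ψ → ψ 1 * ev ψ e = r.n * lift r.ρ (eI ψ) o o := fun ψ _ => by
    rw [ev_apply, lift_apply, Matrix.sum_apply, mul_sum, mul_sum]
    refine Fintype.sum_equiv (Equiv.inv G) _ _ fun g => ?_
    simp only [he, eI, Equiv.inv_apply, inv_inv, Matrix.smul_apply, smul_eq_mul]
    ring
  refine ⟨e, ⟨?_, ?_⟩, ?_, fun ψ hψ hne => ?_⟩
  · ext g
    rw [mul_apply]
    have h1 : ∀ k, ∑ h, r.ρ h k o * r.ρ h⁻¹ o o =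
        if k = o then (Fintype.card G : ℂ) / r.n else 0 := fun k => by
      have := congrFun (congrFun (r.sum_conj (Matrix.single o o 1)) k) o
      simp only [Matrix.sum_apply, Matrix.trace_single_eq_same, mul_one, Matrix.smul_apply,
        Matrix.one_apply, smul_eq_mul, mul_ite, mul_zero] at this
      rw [← this]
      refine sum_congr rfl fun h _ => ?_
      simp [Matrix.mul_apply, Matrix.single_apply, ite_and]
    have h2 : ∀ h, e h * e (h⁻¹ * g) = ((r.n : ℂ) / Fintype.card G) ^ 2 *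
        ∑ k, r.ρ g⁻¹ o k * (r.ρ h k o * r.ρ h⁻¹ o o) := fun h => by
      simp only [he, mul_inv_rev, inv_inv, map_mul, Matrix.mul_apply, ← mul_assoc, ← sum_mul]
      ring
    simp only [h2]
    rw [← mul_sum, sum_comm]
    simp only [← mul_sum, h1, mul_ite, mul_zero, sum_ite_eq', mem_univ, if_true, he]
    field_simp
  · change star e = e
    ext g
    rw [star_apply, he, he, inv_inv, r.unit g]
    simp
  · have := hev r.chr r.isIrr
    rw [r.lift_eI r.isIrr, if_pos rfl, r.chr_one, Matrix.one_apply_eq] at this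
    exact mul_left_cancel₀ h5 this
  · have := hev ψ hψ
    rw [r.lift_eI hψ, if_neg hne, Matrix.zero_apply, mul_zero] at this
    exact (mul_eq_zero.1 this).resolve_left hψ.one_ne_zero

/-- Dividing a projection in an isotypic component by the degree. -/
theorem exists_proj_div_dim {ι : Type} [Fintype ι] [DecidableEq ι] {π : G →* Matrix ι ι ℂ}
    (hπ : IsU π) {χ : G → ℂ} (hχ : IsIrr χ) {U : Matrix ι ι ℂ} (hU : IsStarProjection U)
    (hc : ∀ g, U * π g = π g * U) (hle : lift π (eI χ) * U = U) :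
    ∃ U' : Matrix ι ι ℂ, IsStarProjection U' ∧ U * U' = U' ∧
      (∀ A : Matrix ι ι ℂ, (∀ g, A * π g = π g * A) → A * U = U * A → A * U' = U' * A) ∧
      χ 1 * U'.trace = U.trace := by
  classical
  obtain ⟨e, he, h1, h2⟩ := hχ.exists_min_proj
  have hce : U * lift π e = lift π e * U := commute_lift π hc e
  refine ⟨lift π e * U, (i2_proj_lift hπ he).mul hU hce.symm, ?_, fun A hA hAU => ?_, ?_⟩
  · rw [← mul_assoc, hce, mul_assoc, hU.isIdempotentElem.eq]
  · rw [← mul_assoc, commute_lift π hA e, mul_assoc, hAU, mul_assoc]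
  · have h3 := tr_expand (isTr_trace hπ hU.nonneg hc).comm e
    rw [sum_eq_single χ] at h3
    · rw [trace_lift_mul, h3, ← trace_lift_mul, hle, h1, mul_one,
        mul_div_cancel₀ _ hχ.one_ne_zero]
    · intro ψ hψ hne
      rw [h2 ψ (mem_Irr.1 hψ) hne, mul_zero]
    · intro h; exact absurd (mem_Irr.2 hχ) h

/-- Three commuting representations: the common isotypic component has dimension at least the
product of the degrees. -/
theorem dim_mul_dim_mul_dim_le {ι G₁ G₂ G₃ : Type} [Fintype ι] [DecidableEq ι]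
    [Group G₁] [Fintype G₁] [DecidableEq G₁] [Group G₂] [Fintype G₂] [DecidableEq G₂]
    [Group G₃] [Fintype G₃] [DecidableEq G₃]
    {π₁ : G₁ →* Matrix ι ι ℂ} {π₂ : G₂ →* Matrix ι ι ℂ} {π₃ : G₃ →* Matrix ι ι ℂ}
    (h₁ : IsU π₁) (h₂ : IsU π₂) (h₃ : IsU π₃)
    (c₁₂ : ∀ g h, π₁ g * π₂ h = π₂ h * π₁ g) (c₁₃ : ∀ g h, π₁ g * π₃ h = π₃ h * π₁ g)
    (c₂₃ : ∀ g h, π₂ g * π₃ h = π₃ h * π₂ g)
    {χ₁ : G₁ → ℂ} {χ₂ : G₂ → ℂ} {χ₃ : G₃ → ℂ} (i₁ : IsIrr χ₁) (i₂ : IsIrr χ₂) (i₃ : IsIrr χ₃)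
    (h0 : lift π₁ (eI χ₁) * lift π₂ (eI χ₂) * lift π₃ (eI χ₃) ≠ 0) :
    dim χ₁ * dim χ₂ * dim χ₃
      ≤ (lift π₁ (eI χ₁) * lift π₂ (eI χ₂) * lift π₃ (eI χ₃)).trace.re := by
  set E₁ := lift π₁ (eI χ₁) with hE₁
  set E₂ := lift π₂ (eI χ₂) with hE₂
  set E₃ := lift π₃ (eI χ₃) with hE₃
  have p₁ : IsStarProjection E₁ := i2_proj_lift h₁ (isStarProjection_eI i₁)
  have p₂ : IsStarProjection E₂ := i2_proj_lift h₂ (isStarProjection_eI i₂)
  have p₃ : IsStarProjection E₃ := i2_proj_lift h₃ (isStarProjection_eI i₃)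
  have a11 : ∀ g, Commute E₁ (π₁ g) := fun g => by
    have := congrArg (lift π₁) (eI_comm i₁ (dl g))
    rw [map_mul, map_mul, lift_dl] at this
    exact this
  have a22 : ∀ g, Commute E₂ (π₂ g) := fun g => by
    have := congrArg (lift π₂) (eI_comm i₂ (dl g))
    rw [map_mul, map_mul, lift_dl] at this
    exact this
  have a33 : ∀ g, Commute E₃ (π₃ g) := fun g => by
    have := congrArg (lift π₃) (eI_comm i₃ (dl g))
    rw [map_mul, map_mul, lift_dl] at this
    exact this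
  have a12 : ∀ g, Commute E₁ (π₂ g) := fun g =>
    (commute_lift π₁ (fun h => (c₁₂ h g).symm) _).symm
  have a13 : ∀ g, Commute E₁ (π₃ g) := fun g =>
    (commute_lift π₁ (fun h => (c₁₃ h g).symm) _).symm
  have a21 : ∀ g, Commute E₂ (π₁ g) := fun g => (commute_lift π₂ (fun h => c₁₂ g h) _).symm
  have a23 : ∀ g, Commute E₂ (π₃ g) := fun g =>
    (commute_lift π₂ (fun h => (c₂₃ h g).symm) _).symm
  have a31 : ∀ g, Commute E₃ (π₁ g) := fun g => (commute_lift π₃ (fun h => c₁₃ g h) _).symm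
  have a32 : ∀ g, Commute E₃ (π₂ g) := fun g => (commute_lift π₃ (fun h => c₂₃ g h) _).symm
  have e12 : Commute E₁ E₂ := commute_lift π₂ a12 _
  have e13 : Commute E₁ E₃ := commute_lift π₃ a13 _
  have e23 : Commute E₂ E₃ := commute_lift π₃ a23 _
  set U := E₁ * E₂ * E₃ with hU
  have pU : IsStarProjection U := (p₁.mul p₂ e12).mul p₃ (e13.mul_left e23)
  have u1 : ∀ g, Commute U (π₁ g) := fun g => ((a11 g).mul_left (a21 g)).mul_left (a31 g)
  have u2 : ∀ g, Commute U (π₂ g) := fun g => ((a12 g).mul_left (a22 g)).mul_left (a32 g)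
  have u3 : ∀ g, Commute U (π₃ g) := fun g => ((a13 g).mul_left (a23 g)).mul_left (a33 g)
  have f1 : E₁ * U = U := by rw [hU, ← mul_assoc, ← mul_assoc, p₁.isIdempotentElem.eq]
  have f2 : E₂ * U = U := by
    rw [hU, e12.eq, ← mul_assoc, ← mul_assoc, p₂.isIdempotentElem.eq]
  have f3 : E₃ * U = U := by
    rw [hU, (e13.mul_left e23).eq, ← mul_assoc, p₃.isIdempotentElem.eq]
  obtain ⟨U₁, q₁, m₁, k₁, t₁⟩ := exists_proj_div_dim h₁ i₁ pU u1 f1
  have v2 : ∀ g, U₁ * π₂ g = π₂ g * U₁ := fun g =>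
    (k₁ _ (fun h => (c₁₂ h g).symm) (u2 g).symm).symm
  have v3 : ∀ g, U₁ * π₃ g = π₃ g * U₁ := fun g =>
    (k₁ _ (fun h => (c₁₃ h g).symm) (u3 g).symm).symm
  obtain ⟨U₂, q₂, m₂, k₂, t₂⟩ := exists_proj_div_dim h₂ i₂ q₁ v2
    (by rw [← hE₂, ← m₁, ← mul_assoc, f2])
  have w3 : ∀ g, U₂ * π₃ g = π₃ g * U₂ := fun g =>
    (k₂ _ (fun h => (c₂₃ h g).symm) (v3 g).symm).symm
  obtain ⟨U₃, q₃, -, -, t₃⟩ := exists_proj_div_dim h₃ i₃ q₂ w3
    (by rw [← hE₃, ← m₂, ← m₁, ← mul_assoc, ← mul_assoc, f3])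
  have htr : U.trace = χ₁ 1 * χ₂ 1 * χ₃ 1 * U₃.trace := by rw [← t₁, ← t₂, ← t₃]; ring
  have hU3 : U₃ ≠ 0 := by
    rintro rfl
    rw [Matrix.trace_zero, mul_zero] at htr
    exact h0 ((Matrix.nonneg_iff_posSemidef.1 pU.nonneg).trace_eq_zero_iff.1 htr)
  have h1 := (Complex.le_def.1 (one_le_trace_of_proj q₃ hU3)).1
  rw [htr, ← i₁.coe_dim, ← i₂.coe_dim, ← i₃.coe_dim, ← Complex.ofReal_mul, ← Complex.ofReal_mul,
    Complex.re_ofReal_mul]
  have h2 : 0 < dim χ₁ * dim χ₂ * dim χ₃ := mul_pos (mul_pos i₁.dim_pos i₂.dim_pos) i₃.dim_pos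
  rw [Complex.one_re] at h1
  nlinarith

/-- A positive element killed by the character is killed by the central idempotent. -/
theorem eI_mul_eq_zero_iff {χ : G → ℂ} (hχ : IsIrr χ) {a : GA G} (ha : 0 ≤ a) :
    eI χ * a = 0 ↔ ev χ a = 0 := by
  classical
  constructor
  · intro h
    have := hχ.ev_cen_mul (fun ψ => if ψ = χ then 1 else 0) a
    rw [← eI_eq_cen hχ, h, map_zero, if_pos rfl, one_mul] at this
    exact this.symm
  · intro h
    refine eq_of_forall_irr fun r => ?_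
    rw [map_mul, r.lift_eI hχ, map_zero]
    split_ifs with h'
    · rw [one_mul]
      by_contra hne
      exact (r.ev_ne_zero_iff ha).2 hne (h' ▸ h)
    · rw [zero_mul]

theorem i2_le_trace_smul_one {ι : Type} [Fintype ι] [DecidableEq ι] {T : Matrix ι ι ℂ}
    (hT : 0 ≤ T) : T ≤ T.trace • (1 : Matrix ι ι ℂ) := by
  have hu : IsU (1 : PUnit →* Matrix ι ι ℂ) := fun g => by simp
  refine (le_trace_smul_cen hu hT (fun g => by simp)).trans ?_
  have h1 : lift (1 : PUnit →* Matrix ι ι ℂ) (cen fun χ => (χ 1)⁻¹) ≤ 1 := by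
    have := lift_mono hu (cen_mono (G := PUnit) (f := fun χ => (χ 1)⁻¹) (g := fun _ => 1)
      (fun χ hχ => by
        rw [← hχ.coe_dim, ← Complex.ofReal_inv]
        exact_mod_cast inv_le_one_of_one_le₀ hχ.one_le_dim))
    rwa [cen_one, map_one] at this
  rw [← sub_nonneg, ← smul_sub, Matrix.nonneg_iff_posSemidef]
  exact (Matrix.nonneg_iff_posSemidef.1 (sub_nonneg.2 h1)).smul
    (Matrix.nonneg_iff_posSemidef.1 hT).trace_nonneg

theorem i2_mul_ev_le {χ : G → ℂ} (hχ : IsIrr χ) {a : GA G} (ha : 0 ≤ a) :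
    χ 1 * ev χ a ≤ (Fintype.card G : ℂ) * a 1 := by
  rw [plancherel]
  exact single_le_sum (f := fun χ => χ 1 * ev χ a)
    (fun ψ hψ => _root_.mul_nonneg (i2_one_nonneg (mem_Irr.1 hψ)) ((mem_Irr.1 hψ).isTr.pos a ha))
    (mem_Irr.2 hχ)

/-- A positive-definite function is bounded by the order of the group times its value at `1`. -/
theorem le_card_smul_one {a : GA G} (ha : 0 ≤ a) : a ≤ ((Fintype.card G : ℂ) * a 1) • 1 := by
  rw [le_def, map_smul, map_one]
  have h := i2_le_trace_smul_one (le_def.1 ha |>.trans_eq' (map_zero _))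
  have h2 : (lift (regRep G) a).trace = (Fintype.card G : ℂ) * a 1 := by
    simp [Matrix.trace, lift_regRep_apply]
  rwa [h2] at h

/-! ### multiplicities and Frobenius reciprocity -/

/-- The multiplicity of `α` in the restriction of `χ` along `φ`. -/
noncomputable def mult (φ : K →* G) (α : K → ℂ) (χ : G → ℂ) : ℂ :=
  (Fintype.card K : ℂ)⁻¹ * ∑ k, α k⁻¹ * χ (φ k)

theorem ev_push_eI (φ : K →* G) (α : K → ℂ) (χ : G → ℂ) :
    ev χ (push φ (eI α)) = α 1 * mult φ α χ := by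
  rw [ev_push, ev_apply, mult, mul_sum, mul_sum]
  refine sum_congr rfl fun k _ => ?_
  simp only [eI, Function.comp_apply]
  ring

theorem exists_mult_eq_nat (φ : K →* G) {α : K → ℂ} (hα : IsIrr α) {χ : G → ℂ} (hχ : IsIrr χ) :
    ∃ m : ℕ, mult φ α χ = m := by
  obtain ⟨r, rfl⟩ := hχ
  obtain ⟨m, hm⟩ := exists_mult_nat (isU_comp r.unit φ) (IsStarProjection.one _)
    (fun g => by simp) hα
  refine ⟨m, mul_left_cancel₀ hα.one_ne_zero ?_⟩
  rw [← ev_push_eI, r.ev_chr, lift_push, mul_comm, ← hm, Matrix.mul_one]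

/-- Restriction of an irreducible character. -/
theorem ev_push_expand (φ : K →* G) {χ : G → ℂ} (hχ : IsIrr χ) (a : GA K) :
    ev χ (push φ a) = ∑ α ∈ Irr K, mult φ α χ * ev α a := by
  have h := tr_expand (τ := ev χ ∘ₗ (push φ).toLinearMap)
    (fun a b => by simp [hχ.isTr.comm (push φ a)]) a
  simp only [LinearMap.comp_apply, AlgHom.toLinearMap_apply] at h
  rw [h]
  refine sum_congr rfl fun α hα => ?_
  rw [ev_push_eI, mul_div_cancel_left₀ _ (mem_Irr.1 hα).one_ne_zero]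

/-- Frobenius reciprocity. -/
theorem ind_ev_expand (φ : K →* G) {α : K → ℂ} (hα : IsIrr α) (a : GA G) :
    ind φ (ev α) a = ∑ χ ∈ Irr G, mult φ α χ * ev χ a := by
  rw [tr_expand (tr_comm_of_conj (ind_conj φ (ev α))) a]
  refine sum_congr rfl fun χ hχ => ?_
  rw [mem_Irr] at hχ
  congr 1
  have h1 : ∀ h : G, dl h⁻¹ * eI χ * dl h = eI χ := fun h => by
    rw [mul_assoc, eI_comm hχ, ← mul_assoc, dl_mul_dl, inv_mul_cancel, dl_one, one_mul]
  have h2 : ev α (pull φ (eI χ)) = χ 1 / Fintype.card G * ∑ k, α k⁻¹ * χ (φ k) := by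
    rw [ev_apply, mul_sum]
    refine Fintype.sum_equiv (Equiv.inv K) _ _ fun k => ?_
    simp only [pull_apply, eI, Equiv.inv_apply, inv_inv, map_inv]
    ring
  have h4 := i2_card_ne (G := G)
  have h5 := hχ.one_ne_zero
  have _ := hα
  simp only [ind_apply, h1, h2, sum_const, card_univ, nsmul_eq_mul, mult]
  field_simp

theorem mult_mul_le_ind (φ : K →* G) {α : K → ℂ} (hα : IsIrr α) {χ : G → ℂ} (hχ : IsIrr χ)
    {a : GA G} (ha : 0 ≤ a) : mult φ α χ * ev χ a ≤ ind φ (ev α) a := by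
  rw [ind_ev_expand φ hα]
  refine single_le_sum (f := fun χ => mult φ α χ * ev χ a) (fun ψ hψ => ?_) (mem_Irr.2 hχ)
  obtain ⟨m, hm⟩ := exists_mult_eq_nat φ hα (mem_Irr.1 hψ)
  exact _root_.mul_nonneg (by rw [hm]; exact Nat.cast_nonneg m) ((mem_Irr.1 hψ).isTr.pos a ha)

/-- If an irreducible character has a nonzero `σ`-isotypic vector for the subgroup `S`, its degree
is at most the index of `S`. -/
theorem IsIrr.dim_mul_card_le {χ : G → ℂ} (hχ : IsIrr χ) {S : Subgroup G} {σ : G → ℂ}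
    (hσ : IsChar S σ) (h0 : ev χ (avgTw S σ) ≠ 0) :
    dim χ * Nat.card S ≤ Fintype.card G := by
  have h1 := hχ.one_le_ev (isStarProjection_avgTw hσ) h0
  have h2 := i2_mul_ev_le hχ (avgTw_nonneg hσ)
  have h3 : χ 1 ≤ χ 1 * ev χ (avgTw S σ) := by
    have := _root_.mul_nonneg (i2_one_nonneg hχ) (sub_nonneg.2 h1)
    rwa [mul_sub, mul_one, sub_nonneg] at this
  have h4 := h3.trans h2
  rw [avgTw_of_mem σ S.one_mem, hσ.one, ← hχ.coe_dim] at h4
  have h5 : dim χ ≤ (Fintype.card G : ℝ) * (1 / (Nat.card S : ℝ)) := by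
    rw [← Complex.real_le_real]; push_cast; exact h4
  have h6 : (0 : ℝ) < Nat.card S := by exact_mod_cast Nat.card_pos
  rwa [mul_one_div, le_div_iff₀ h6] at h5

end Crest.Agent.R155
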