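import Mathlib

/-!
# Kronecker products of families of matrices, and some matrix inequalities
-/

set_option linter.unusedSectionVars false

namespace Crest.Agent.R155

open scoped ComplexOrder MatrixOrder ComplexConjugate Matrix.Norms.L2Operator Matrix Kronecker
open Finset

variable {κ X : Type} [Fintype κ] [DecidableEq κ] [Fintype X] [DecidableEq X]

/-- The Kronecker product of a family of square matrices. -/
noncomputable def kron (M : κ → Matrix X X ℂ) : Matrix (κ → X) (κ → X) ℂ :=
  Matrix.of fun c c' => ∏ k, M k (c k) (c' k)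

theorem kron_apply (M : κ → Matrix X X ℂ) (c c' : κ → X) :
    kron M c c' = ∏ k, M k (c k) (c' k) := rfl

theorem kron_mul (M N : κ → Matrix X X ℂ) : kron M * kron N = kron fun k => M k * N k := by
  ext c c'
  simp only [kron_apply, Matrix.mul_apply]
  rw [Finset.prod_univ_sum]
  simp [prod_mul_distrib]

theorem kron_one : kron (fun _ : κ => (1 : Matrix X X ℂ)) = 1 := by
  ext c c'
  simp only [kron_apply, Matrix.one_apply, prod_ite_zero, prod_const_one, mem_univ, forall_const]
  simp [funext_iff]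

theorem star_kron (M : κ → Matrix X X ℂ) : star (kron M) = kron fun k => star (M k) := by
  ext c c'
  simp [kron_apply, Matrix.star_apply]

theorem trace_kron (M : κ → Matrix X X ℂ) : (kron M).trace = ∏ k, (M k).trace := by
  simp only [Matrix.trace, Matrix.diag, kron_apply]
  rw [Finset.prod_univ_sum]
  simp

theorem kron_smul (s : κ → ℂ) (M : κ → Matrix X X ℂ) :
    kron (fun k => s k • M k) = (∏ k, s k) • kron M := by
  ext c c'
  simp [kron_apply, prod_mul_distrib]

theorem kron_sum {J : Type} [Fintype J] [DecidableEq J] (M : κ → J → Matrix X X ℂ) :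
    kron (fun k => ∑ j, M k j) = ∑ jj : κ → J, kron fun k => M k (jj k) := by
  ext c c'
  simp only [kron_apply, Matrix.sum_apply]
  rw [Finset.prod_univ_sum]
  simp

theorem kron_diagonal (f : κ → X → ℂ) :
    kron (fun k => Matrix.diagonal (f k)) = Matrix.diagonal fun c => ∏ k, f k (c k) := by
  ext c c'
  by_cases h : c = c'
  · subst h; simp [kron_apply]
  · obtain ⟨k, hk⟩ := Function.ne_iff.1 h
    rw [kron_apply, Matrix.diagonal_apply_ne _ h]
    exact prod_eq_zero (mem_univ k) (Matrix.diagonal_apply_ne _ hk)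

theorem kron_eq_zero {M : κ → Matrix X X ℂ} {k : κ} (h : M k = 0) : kron M = 0 := by
  ext c c'
  exact prod_eq_zero (mem_univ k) (by simp [h])

theorem kron_nonneg {M : κ → Matrix X X ℂ} (h : ∀ k, 0 ≤ M k) : 0 ≤ kron M := by
  choose b hb using fun k => CStarAlgebra.nonneg_iff_eq_star_mul_self.1 (h k)
  have : M = fun k => star (b k) * b k := funext hb
  rw [this, ← kron_mul, ← star_kron]
  exact star_mul_self_nonneg _

theorem kron_mono {M N : κ → Matrix X X ℂ} (hM : ∀ k, 0 ≤ M k) (h : ∀ k, M k ≤ N k) :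
    kron M ≤ kron N := by
  have key : ∀ s : Finset κ, kron M ≤ kron (fun k => if k ∈ s then N k else M k) := by
    intro s
    induction s using Finset.induction_on with
    | empty => simp
    | insert i s hi ih =>
      refine ih.trans (sub_nonneg.1 ?_)
      have : kron (fun k => if k ∈ insert i s then N k else M k)
          - kron (fun k => if k ∈ s then N k else M k)
          = kron (fun k => if k = i then N i - M i else if k ∈ s then N k else M k) := by
        ext c c'
        simp only [Matrix.sub_apply, kron_apply]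
        rw [← Finset.mul_prod_erase univ _ (mem_univ i), ← Finset.mul_prod_erase univ _ (mem_univ i),
          ← Finset.mul_prod_erase univ _ (mem_univ i)]
        have e1 : ∏ k ∈ univ.erase i, (if k ∈ insert i s then N k else M k) (c k) (c' k)
            = ∏ k ∈ univ.erase i, (if k ∈ s then N k else M k) (c k) (c' k) :=
          prod_congr rfl fun k hk => by simp [(mem_erase.1 hk).1]
        have e2 : ∏ k ∈ univ.erase i,
              (if k = i then N i - M i else if k ∈ s then N k else M k) (c k) (c' k)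
            = ∏ k ∈ univ.erase i, (if k ∈ s then N k else M k) (c k) (c' k) :=
          prod_congr rfl fun k hk => by simp [(mem_erase.1 hk).1]
        rw [e1, e2]
        simp [hi, sub_mul]
      rw [this]
      refine kron_nonneg fun k => ?_
      by_cases hk : k = i
      · simp [hk, h i]
      · by_cases hks : k ∈ s
        · simp [hk, hks, (hM k).trans (h k)]
        · simp [hk, hks, hM k]
  simpa using key univ

theorem sqrt_kron {M : κ → Matrix X X ℂ} (hM : ∀ k, 0 ≤ M k) :
    CFC.sqrt (kron M) = kron fun k => CFC.sqrt (M k) := by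
  refine CFC.sqrt_unique ?_ (kron_nonneg fun k => CFC.sqrt_nonneg _)
  rw [kron_mul]
  congr 1
  exact funext fun k => CFC.sqrt_mul_sqrt_self _ (hM k)

/-- The square root is operator monotone, in the form used below. -/
theorem le_of_mul_self_le {A B : Matrix X X ℂ} (hA : star A = A) (hB : 0 ≤ B)
    (h : A * A ≤ B * B) : A ≤ B := by
  have h1 := CFC.sqrt_le_sqrt _ _ h
  rw [CFC.sqrt_mul_self B hB] at h1
  refine le_trans ?_ h1
  have hsa : IsSelfAdjoint A := hA
  have h2 := CFC.abs_sub_self A hsa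
  have h3 : CFC.abs A = CFC.sqrt (A * A) := by rw [CFC.abs, hA]
  rw [← h3, ← sub_nonneg, h2]
  exact nsmul_nonneg (CFC.negPart_nonneg A) 2

/-- One step of the operator Jensen inequality. -/
theorem conj_le_of_conj_sq_le {N B D : Matrix X X ℂ} (hN : star N * N ≤ 1) (hB : star B = B)
    (hD : 0 ≤ D) (h : N * (B * B) * star N ≤ D * D) : N * B * star N ≤ D := by
  refine le_of_mul_self_le (by simp [hB, mul_assoc]) hD (le_trans ?_ h)
  have h1 := star_left_conjugate_le_conjugate hN (B * star N)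
  simp only [star_mul, star_star, hB, mul_one, mul_assoc] at h1 ⊢
  exact h1

theorem kr_algebraMap (c : ℝ) : algebraMap ℝ (Matrix X X ℂ) c = (c : ℂ) • 1 := by
  rw [Algebra.algebraMap_eq_smul_one]
  ext i j
  simp

theorem mul_star_le_of_star_mul_le {A : Matrix X X ℂ} {K : ℝ}
    (h : star A * A ≤ (K : ℂ) • 1) : A * star A ≤ (K : ℂ) • 1 := by
  rcases isEmpty_or_nonempty X with hX | ⟨⟨x⟩⟩
  · exact le_of_eq (Subsingleton.elim _ _)
  have h0 : (0 : Matrix X X ℂ) ≤ (K : ℂ) • 1 := (star_mul_self_nonneg A).trans h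
  have h1 := (Matrix.nonneg_iff_posSemidef.1 h0).diag_nonneg (i := x)
  have hK : 0 ≤ K := by simpa using h1
  rw [← kr_algebraMap] at h ⊢
  rw [← CStarAlgebra.norm_le_iff_le_algebraMap _ hK (star_mul_self_nonneg _),
    CStarRing.norm_star_mul_self] at h
  rw [← CStarAlgebra.norm_le_iff_le_algebraMap _ hK (mul_star_self_nonneg _),
    CStarRing.norm_self_mul_star]
  exact h

/-- The real part of a matrix is bounded by the mean of its two absolute values. -/
theorem add_star_le_sqrt_add_sqrt (F : Matrix X X ℂ) :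
    F + star F ≤ CFC.sqrt (star F * F) + CFC.sqrt (F * star F) := by
  set P := CFC.sqrt (star F * F) with hP
  set Q := CFC.sqrt (F * star F) with hQ
  have hP0 : 0 ≤ P := CFC.sqrt_nonneg _
  have hQ0 : 0 ≤ Q := CFC.sqrt_nonneg _
  have hPP : P * P = star F * F := CFC.sqrt_mul_sqrt_self _ (star_mul_self_nonneg F)
  have hQQ : Q * Q = F * star F := CFC.sqrt_mul_sqrt_self _ (mul_star_self_nonneg F)
  have hD : (0 : Matrix (X ⊕ X) (X ⊕ X) ℂ) ≤ Matrix.fromBlocks Q 0 0 P := by
    obtain ⟨a, ha⟩ := CStarAlgebra.nonneg_iff_eq_star_mul_self.1 hP0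
    obtain ⟨b, hb⟩ := CStarAlgebra.nonneg_iff_eq_star_mul_self.1 hQ0
    have : Matrix.fromBlocks Q 0 0 P
        = star (Matrix.fromBlocks b 0 0 a) * Matrix.fromBlocks b 0 0 a := by
      rw [ha, hb]
      simp [Matrix.star_eq_conjTranspose, Matrix.fromBlocks_conjTranspose,
        Matrix.fromBlocks_multiply]
    rw [this]
    exact star_mul_self_nonneg _
  have h1 : (Matrix.fromBlocks 0 F (star F) 0 : Matrix (X ⊕ X) (X ⊕ X) ℂ)
      ≤ Matrix.fromBlocks Q 0 0 P := by
    refine le_of_mul_self_le ?_ hD (le_of_eq ?_)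
    · simp [Matrix.star_eq_conjTranspose, Matrix.fromBlocks_conjTranspose]
    · simp [Matrix.fromBlocks_multiply, hPP, hQQ]
  have h2 := (Matrix.le_iff.1 h1).conjTranspose_mul_mul_same
    (Matrix.fromRows (1 : Matrix X X ℂ) (1 : Matrix X X ℂ))
  rw [Matrix.le_iff]
  convert h2 using 1
  rw [Matrix.mul_sub, Matrix.sub_mul, Matrix.conjTranspose_fromRows_eq_fromCols_conjTranspose,
    Matrix.fromCols_mul_fromBlocks, Matrix.fromCols_mul_fromBlocks, Matrix.fromCols_mul_fromRows,
    Matrix.fromCols_mul_fromRows]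
  simp only [Matrix.conjTranspose_one, Matrix.one_mul, Matrix.mul_one, add_zero, zero_add]
  abel

theorem kr_geo {a₁ b₁ a₂ b₂ x xi y : Matrix X X ℂ} (ha₁ : star a₁ = a₁) (hb₁ : star b₁ = b₁)
    (ha₂ : star a₂ = a₂) (hb₂ : star b₂ = b₂) (hx : star x = x) (hxi : star xi = xi)
    (h1 : x * xi = 1) (h2 : xi * x = 1) (c1 : a₁ * b₂ = b₂ * a₁) (c2 : b₁ * a₂ = a₂ * b₁)
    (c3 : xi * y = y * xi) (h0 : 0 ≤ xi * y)
    (hX : a₁ * a₁ + b₁ * b₁ ≤ (2 : ℂ) • (x * x)) (hY : a₂ * a₂ + b₂ * b₂ = (2 : ℂ) • (y * y)) :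
    a₁ * b₂ + b₁ * a₂ ≤ (2 : ℂ) • (x * y) := by
  obtain ⟨S, hS⟩ : ∃ S : Matrix X X ℂ, a₁ * b₂ + b₁ * a₂ = (2 : ℂ) • S :=
    ⟨(1 / 2 : ℂ) • (a₁ * b₂ + b₁ * a₂), by rw [smul_smul]; norm_num⟩
  have hSs : star S = S := by
    have h3 : star ((2 : ℂ) • S) = (2 : ℂ) • S := by
      rw [← hS, star_add, star_mul, star_mul, ha₁, hb₁, ha₂, hb₂, c1, c2]
    rw [star_smul, show star (2 : ℂ) = 2 by simp] at h3
    exact smul_right_injective _ two_ne_zero h3
  set W := xi * xi * S with hW
  have hWs : star W = S * xi * xi := by simp [hW, hSs, hxi, mul_assoc]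
  have e1 := add_nonneg (star_mul_self_nonneg (a₁ * W - b₂)) (star_mul_self_nonneg (b₁ * W - a₂))
  have e2 : star (a₁ * W - b₂) * (a₁ * W - b₂) + star (b₁ * W - a₂) * (b₁ * W - a₂)
      = star W * (a₁ * a₁ + b₁ * b₁) * W - star W * (a₁ * b₂ + b₁ * a₂)
        - (b₂ * a₁ + a₂ * b₁) * W + (a₂ * a₂ + b₂ * b₂) := by
    simp only [star_sub, star_mul, ha₁, hb₁, ha₂, hb₂]
    noncomm_ring
  rw [e2, ← c1, ← c2, hS, hY] at e1
  have e3 := star_left_conjugate_le_conjugate hX W
  have e4 : star W * ((2 : ℂ) • (x * x)) * W = (2 : ℂ) • (S * xi * xi * S) := by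
    rw [hWs, hW]
    simp only [mul_smul_comm, smul_mul_assoc]
    congr 1
    calc S * xi * xi * (x * x) * (xi * xi * S)
        = S * xi * (xi * x) * (x * xi) * xi * S := by noncomm_ring
      _ = S * xi * xi * S := by rw [h1, h2]; noncomm_ring
  rw [e4] at e3
  have e5 : (0 : Matrix X X ℂ) ≤ (2 : ℂ) • (y * y - S * xi * xi * S) := by
    refine (add_nonneg e1 (sub_nonneg.2 e3)).trans (le_of_eq ?_)
    rw [hWs, hW]
    simp only [mul_smul_comm, smul_mul_assoc, smul_sub, mul_assoc]
    module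
  have e6 : S * xi * xi * S ≤ y * y := by
    have := (Matrix.nonneg_iff_posSemidef.1 e5).smul (show (0 : ℂ) ≤ 1 / 2 by
      norm_num [Complex.le_def])
    rw [smul_smul] at this
    norm_num at this
    exact Matrix.le_iff.2 this
  have e7 : xi * S * xi ≤ xi * y := by
    refine le_of_mul_self_le (by simp [hxi, hSs, mul_assoc]) h0 ?_
    have := star_left_conjugate_le_conjugate e6 xi
    rw [hxi] at this
    calc xi * S * xi * (xi * S * xi) = xi * (S * xi * xi * S) * xi := by noncomm_ring
      _ ≤ xi * (y * y) * xi := this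
      _ = xi * y * (y * xi) := by noncomm_ring
      _ = xi * y * (xi * y) := by rw [← c3]
  have e8 := star_left_conjugate_le_conjugate e7 x
  rw [hx] at e8
  have e9 : x * (xi * S * xi) * x = S := by
    calc x * (xi * S * xi) * x = (x * xi) * S * (xi * x) := by noncomm_ring
      _ = S := by rw [h1, h2]; simp
  have c4 : x * y = y * x := by
    calc x * y = x * (y * xi) * x := by rw [mul_assoc, mul_assoc, h2, mul_one]
      _ = y * x := by rw [← c3, ← mul_assoc, h1, one_mul]
  have e10 : x * (xi * y) * x = x * y := by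
    rw [← mul_assoc, h1, one_mul, c4]
  rw [e9, e10] at e8
  rw [hS, Matrix.le_iff, ← smul_sub]
  exact (Matrix.le_iff.1 e8).smul (by norm_num [Complex.le_def])

theorem kr_le_of_forall_pos {S D E : Matrix X X ℂ} (h : ∀ ε : ℝ, 0 < ε → S ≤ D + (ε : ℂ) • E) :
    S ≤ D := by
  have h1 : Filter.Tendsto (fun ε : ℝ => D + (ε : ℂ) • E) (nhdsWithin 0 (Set.Ioi 0)) (nhds D) := by
    have : Continuous fun ε : ℝ => D + (ε : ℂ) • E := by fun_prop
    have h2 := this.tendsto 0
    simp only [Complex.ofReal_zero, zero_smul, add_zero] at h2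
    exact h2.mono_left nhdsWithin_le_nhds
  exact ge_of_tendsto h1 (eventually_nhdsWithin_of_forall h)

/-- Ando's concavity theorem for the exponent `1 / 2`. -/
theorem ando {A B C : Matrix X X ℂ} (hA : 0 ≤ A) (hB : 0 ≤ B) (hC : 0 ≤ C)
    (h : A * A + B * B = (2 : ℂ) • (C * C)) :
    A ⊗ₖ B + B ⊗ₖ A ≤ (2 : ℂ) • (C ⊗ₖ C) := by
  refine kr_le_of_forall_pos (E := (2 : ℂ) • ((1 : Matrix X X ℂ) ⊗ₖ C)) fun ε hε => ?_
  have hε' : (0 : ℂ) < ε := by exact_mod_cast hε
  have hAs : Aᴴ = A := (Matrix.nonneg_iff_posSemidef.1 hA).isHermitian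
  have hBs : Bᴴ = B := (Matrix.nonneg_iff_posSemidef.1 hB).isHermitian
  have hC' := Matrix.nonneg_iff_posSemidef.1 hC
  have hpd : (C + (ε : ℂ) • (1 : Matrix X X ℂ)).PosDef :=
    Matrix.PosDef.posSemidef_add hC' (Matrix.PosDef.one.smul hε')
  set Ce := C + (ε : ℂ) • (1 : Matrix X X ℂ) with hCe
  have hu : IsUnit Ce.det := (Matrix.isUnit_iff_isUnit_det _).1 hpd.isUnit
  have hle : C * C ≤ Ce * Ce := by
    have : Ce * Ce - C * C = (2 * ε : ℂ) • C + (ε * ε : ℂ) • (1 : Matrix X X ℂ) := by
      simp only [hCe, add_mul, mul_add, mul_smul_comm, smul_mul_assoc, mul_one, one_mul]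
      module
    rw [Matrix.le_iff, this]
    exact (hC'.smul (by positivity)).add (Matrix.PosSemidef.one.smul (by positivity))
  have key := kr_geo (X := X × X) (a₁ := A ⊗ₖ 1) (b₁ := B ⊗ₖ 1) (a₂ := 1 ⊗ₖ A) (b₂ := 1 ⊗ₖ B)
    (x := Ce ⊗ₖ 1) (xi := Ce⁻¹ ⊗ₖ 1) (y := 1 ⊗ₖ C)
    (by simp [Matrix.star_eq_conjTranspose, Matrix.conjTranspose_kronecker, hAs])
    (by simp [Matrix.star_eq_conjTranspose, Matrix.conjTranspose_kronecker, hBs])
    (by simp [Matrix.star_eq_conjTranspose, Matrix.conjTranspose_kronecker, hAs])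
    (by simp [Matrix.star_eq_conjTranspose, Matrix.conjTranspose_kronecker, hBs])
    (by simp [Matrix.star_eq_conjTranspose, Matrix.conjTranspose_kronecker, hpd.isHermitian.eq])
    (by simp [Matrix.star_eq_conjTranspose, Matrix.conjTranspose_kronecker,
      hpd.isHermitian.inv.eq])
    (by rw [← Matrix.mul_kronecker_mul, Matrix.mul_nonsing_inv _ hu]; simp)
    (by rw [← Matrix.mul_kronecker_mul, Matrix.nonsing_inv_mul _ hu]; simp)
    (by simp [← Matrix.mul_kronecker_mul])
    (by simp [← Matrix.mul_kronecker_mul])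
    (by simp [← Matrix.mul_kronecker_mul])
    (by
      rw [← Matrix.mul_kronecker_mul, mul_one, one_mul]
      exact (hpd.inv.posSemidef.kronecker hC').nonneg)
    (by
      simp only [← Matrix.mul_kronecker_mul, mul_one]
      rw [← Matrix.add_kronecker, h, Matrix.smul_kronecker, Matrix.le_iff, ← smul_sub]
      refine Matrix.PosSemidef.smul ?_ (by norm_num [Complex.le_def])
      have := (Matrix.le_iff.1 hle).kronecker (Matrix.PosSemidef.one (n := X) (R := ℂ))
      convert this using 1
      ext i j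
      simp [sub_mul])
    (by
      simp only [← Matrix.mul_kronecker_mul, mul_one]
      rw [← Matrix.kronecker_add, h, Matrix.kronecker_smul])
  simp only [← Matrix.mul_kronecker_mul, mul_one, one_mul] at key
  refine key.trans (le_of_eq ?_)
  rw [hCe, Matrix.add_kronecker, Matrix.smul_kronecker, smul_add, smul_comm]

theorem kr_prod_split {i j : κ} (hij : i ≠ j) (f : κ → ℂ) :
    ∏ k, f k = f i * f j * ∏ k ∈ (univ.erase i).erase j, f k := by
  rw [← Finset.mul_prod_erase univ _ (mem_univ i),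
    ← Finset.mul_prod_erase (univ.erase i) _ (mem_erase.2 ⟨hij.symm, mem_univ j⟩), mul_assoc]

/-- Ando's inequality at two positions of a Kronecker product. -/
theorem kron_add_kron_swap_le {A : κ → Matrix X X ℂ} (hA : ∀ k, 0 ≤ A k) {i j : κ} (hij : i ≠ j)
    {C : Matrix X X ℂ} (hC : 0 ≤ C) (h : A i * A i + A j * A j = (2 : ℂ) • (C * C)) :
    kron A + kron (A ∘ Equiv.swap i j)
      ≤ (2 : ℂ) • kron fun k => if k = i ∨ k = j then C else A k := by
  have h1 := (Matrix.le_iff.1 (ando (hA i) (hA j) hC h)).submatrix fun c : κ → X => (c i, c j)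
  have hJ : (0 : Matrix X X ℂ) ≤ Matrix.of fun _ _ => 1 := by
    have := Matrix.posSemidef_vecMulVec_self_star (fun _ : X => (1 : ℂ))
    have e : (Matrix.of fun _ _ => 1 : Matrix X X ℂ)
        = Matrix.vecMulVec (fun _ : X => (1 : ℂ)) (star fun _ : X => (1 : ℂ)) := by
      ext a b
      simp [Matrix.vecMulVec_apply]
    rw [e]
    exact this.nonneg
  have h2 : 0 ≤ kron fun k => if k = i ∨ k = j then (Matrix.of fun _ _ => 1) else A k :=
    kron_nonneg fun k => by
      split_ifs
      · exact hJ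
      · exact hA k
  have h3 := h1.hadamard (Matrix.nonneg_iff_posSemidef.1 h2)
  rw [Matrix.le_iff]
  convert h3 using 1
  ext c c'
  have e : ∀ (M : Matrix X X ℂ), ∏ k ∈ (univ.erase i).erase j,
      (if k = i ∨ k = j then M else A k) (c k) (c' k)
      = ∏ k ∈ (univ.erase i).erase j, A k (c k) (c' k) := fun M =>
    prod_congr rfl fun k hk => by
      have h4 := (mem_erase.1 hk).1
      have h5 := (mem_erase.1 (mem_erase.1 hk).2).1
      simp [h4, h5]
  have e' : ∏ k ∈ (univ.erase i).erase j, (A ∘ Equiv.swap i j) k (c k) (c' k)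
      = ∏ k ∈ (univ.erase i).erase j, A k (c k) (c' k) :=
    prod_congr rfl fun k hk => by
      have h4 := (mem_erase.1 hk).1
      have h5 := (mem_erase.1 (mem_erase.1 hk).2).1
      simp [Equiv.swap_apply_of_ne_of_ne h5 h4]
  simp only [Matrix.sub_apply, Matrix.add_apply, Matrix.smul_apply, kron_apply,
    Matrix.hadamard_apply, Matrix.submatrix_apply, Matrix.kroneckerMap_apply, smul_eq_mul]
  rw [kr_prod_split hij, kr_prod_split hij (fun k => A k (c k) (c' k)),
    kr_prod_split hij (fun k => (A ∘ Equiv.swap i j) k (c k) (c' k)),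
    kr_prod_split hij (fun k => (if k = i ∨ k = j then (Matrix.of fun _ _ => 1) else A k)
      (c k) (c' k)), e, e, e']
  simp
  ring

end Crest.Agent.R155
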