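import Mathlib

/-!
# The kernel of `k` cards in the butterfly network
-/

set_option linter.unusedSectionVars false

namespace Crest.Agent.R155

open Finset

variable {d k : ℕ}

/-- The switch used at time `s` by a card that travels from `x` to `y` (the coordinates are
treated in the order `0, 1, ...`). -/
def loc (s : Fin d) (x y : Fin d → Bool) : Fin d → Bool :=
  fun j => if j < s then y j else if s < j then x j else false

/-- The cards of `S` never occupy the same position. -/
def Valid (S : Finset (Fin k)) (x y : Fin k → Fin d → Bool) : Prop :=
  ∀ s : Fin d, ∀ a ∈ S, ∀ b ∈ S, a ≠ b → loc s (x a) (y a) = loc s (x b) (y b) →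
    x a s ≠ x b s ∧ y a s ≠ y b s

instance (S : Finset (Fin k)) (x y : Fin k → Fin d → Bool) : Decidable (Valid S x y) := by
  unfold Valid; infer_instance

/-- The transition kernel when the cards of `S` move through the network and the other cards jump
to independent uniform positions. -/
noncomputable def ker (S : Finset (Fin k)) (x y : Fin k → Fin d → Bool) : ℝ :=
  if Valid S x y then
    (∏ s : Fin d, (1 / 2 : ℝ) ^ (S.image fun a => loc s (x a) (y a)).card)
      * (1 / 2 ^ d : ℝ) ^ (k - S.card)
  else 0

/-- The cards `a` and `b` use the same switch at time `s`. -/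
def Coll (x y : Fin k → Fin d → Bool) (s : Fin d) (a b : Fin k) : Prop :=
  a ≠ b ∧ loc s (x a) (y a) = loc s (x b) (y b)

/-- The position of a vertex in the binary order with the last coordinate most significant. -/
def rank (z : Fin d → Bool) : ℕ := ∑ j : Fin d, if z j then 2 ^ (j : ℕ) else 0

theorem ker_nonneg (S : Finset (Fin k)) (x y : Fin k → Fin d → Bool) : 0 ≤ ker S x y := by
  unfold ker; split_ifs <;> positivity

end Crest.Agent.R155
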