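import Crest.Agent.R155.O1FwdAux

/-!
# Row sums of the kernel and the collision estimate
-/

set_option linter.unusedSectionVars false

namespace Crest.Agent.R155

open Finset

variable {d k : ℕ}

theorem fw_loc_rev (s : Fin d) (x y : Fin d → Bool) :
    loc s.rev (fun j => y j.rev) (fun j => x j.rev) = fun j => loc s x y j.rev := by
  funext j
  unfold loc
  have e1 : j < s.rev ↔ s < j.rev := Fin.lt_rev_iff
  have e2 : s.rev < j ↔ j.rev < s := Fin.rev_lt_iff
  by_cases h1 : s < j.rev
  · simp [e1, h1, not_lt.2 h1.le]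
  · by_cases h2 : j.rev < s
    · simp [e1, e2, h1, h2]
    · simp [e1, e2, h1, h2]

theorem fw_rev_inj : Function.Injective fun (z : Fin d → Bool) (j : Fin d) => z j.rev :=
  fun z z' h => funext fun j => by simpa using congrFun h j.rev

theorem fw_loc_rev_eq (s : Fin d) (x y x' y' : Fin d → Bool) :
    loc s.rev (fun j => y j.rev) (fun j => x j.rev)
      = loc s.rev (fun j => y' j.rev) (fun j => x' j.rev) ↔ loc s x y = loc s x' y' := by
  rw [fw_loc_rev, fw_loc_rev]
  exact fw_rev_inj.eq_iff

/-- Time reversal. -/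
theorem ker_rev (S : Finset (Fin k)) (x y : Fin k → Fin d → Bool) :
    ker S (fun a j => y a j.rev) (fun a j => x a j.rev) = ker S x y := by
  unfold ker
  refine if_congr ?_ ?_ rfl
  · unfold Valid
    rw [← Fin.revPerm.forall_congr_right]
    refine forall_congr' fun s => ?_
    simp only [Fin.revPerm_apply, fw_loc_rev_eq, Fin.rev_rev, and_comm]
  · congr 1
    rw [← Equiv.prod_comp Fin.revPerm]
    refine prod_congr rfl fun s _ => ?_
    congr 1
    simp only [Fin.revPerm_apply, fw_loc_rev]
    rw [← card_image_of_injective _ fw_rev_inj, image_image]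
    simp [Function.comp_def]

theorem coll_rev (x y : Fin k → Fin d → Bool) (s : Fin d) (a b : Fin k) :
    Coll (fun a j => y a j.rev) (fun a j => x a j.rev) s.rev a b ↔ Coll x y s a b := by
  unfold Coll
  rw [fw_loc_rev_eq]

/-- The weight of the time step `s`. -/
noncomputable def fwWt (S : Finset (Fin k)) (x y : Fin k → Fin d → Bool) (s : Fin d) : ℝ :=
  fwW S (fun a => loc s (x a) (y a)) (fun a => x a s) (fun a => y a s)

theorem fw_ker_eq (S : Finset (Fin k)) (x y : Fin k → Fin d → Bool) :
    ker S x y = ∏ s, fwWt S x y s := by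
  unfold ker fwWt fwW
  by_cases h : Valid S x y
  · refine Eq.trans ?_ (prod_congr rfl fun s _ => if_pos (h s)).symm
    rw [if_pos h, prod_mul_distrib, prod_const, card_univ,
      Fintype.card_fin, ← pow_mul, mul_comm (k - #S), pow_mul, one_div_pow (n := d)]
  · rw [if_neg h]
    unfold Valid at h
    obtain ⟨s, hs⟩ := not_forall.1 h
    exact (prod_eq_zero (mem_univ s) (if_neg hs)).symm

/-- Change the bits of time `r`. -/
def fwUpd (r : Fin d) (y : Fin k → Fin d → Bool) (v : Fin k → Bool) : Fin k → Fin d → Bool :=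
  fun a => Function.update (y a) r (v a)

theorem fw_loc_update {s r : Fin d} (h : s ≤ r) (x y : Fin d → Bool) (b : Bool) :
    loc s x (Function.update y r b) = loc s x y := by
  funext j
  unfold loc
  split_ifs with h1
  · rw [Function.update_of_ne (h1.trans_le h).ne]
  · rfl
  · rfl

theorem fwWt_upd {s r : Fin d} (h : s < r) (S : Finset (Fin k)) (x y : Fin k → Fin d → Bool)
    (v : Fin k → Bool) : fwWt S x (fwUpd r y v) s = fwWt S x y s := by
  simp only [fwWt, fwUpd, fw_loc_update h.le, Function.update_of_ne h.ne]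

theorem fwWt_upd_self (r : Fin d) (S : Finset (Fin k)) (x y : Fin k → Fin d → Bool)
    (v : Fin k → Bool) :
    fwWt S x (fwUpd r y v) r = fwW S (fun a => loc r (x a) (y a)) (fun a => x a r) v := by
  simp only [fwWt, fwUpd, fw_loc_update le_rfl, Function.update_self]

/-- The number of remaining candidates. -/
def fwN (C : Fin k → Finset (Fin k)) (y : Fin k → Fin d → Bool) (m : ℕ) (a : Fin k) : ℕ :=
  #{b ∈ C a | ∀ j : Fin d, (j : ℕ) < m → y b j = y a j}

theorem fwN_upd {r : Fin d} {m : ℕ} (h : m ≤ r) (C : Fin k → Finset (Fin k))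
    (y : Fin k → Fin d → Bool) (v : Fin k → Bool) (a : Fin k) :
    fwN C (fwUpd r y v) m a = fwN C y m a := by
  unfold fwN
  congr 1
  refine filter_congr fun b _ => forall₂_congr fun j hj => ?_
  have : j ≠ r := by rintro rfl; omega
  simp [fwUpd, Function.update_of_ne this]

theorem fwN_upd_succ (r : Fin d) (C : Fin k → Finset (Fin k))
    (y : Fin k → Fin d → Bool) (v : Fin k → Bool) (a : Fin k) :
    fwN C (fwUpd r y v) (r + 1) a
      = #{b ∈ {b ∈ C a | ∀ j : Fin d, (j : ℕ) < r → y b j = y a j} | v b = v a} := by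
  unfold fwN
  rw [filter_filter]
  congr 1
  refine filter_congr fun b _ => ⟨fun h => ⟨fun j hj => ?_, ?_⟩, fun h j hj => ?_⟩
  · have : j ≠ r := by rintro rfl; omega
    simpa [fwUpd, Function.update_of_ne this] using h j (by omega)
  · simpa [fwUpd] using h r (by omega)
  · by_cases hjr : j = r
    · subst hjr
      simpa [fwUpd] using h.2
    · have : (j : ℕ) ≠ r := fun e => hjr (Fin.ext e)
      simpa [fwUpd, Function.update_of_ne hjr] using h.1 j (by omega)

theorem fw_prod_lt_succ (r : Fin d) (f : Fin d → ℝ) :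
    ∏ s : Fin d with s.val < r.val + 1, f s = (∏ s : Fin d with s.val < r.val, f s) * f r := by
  have : (univ.filter fun s : Fin d => (s : ℕ) < r + 1)
      = insert r (univ.filter fun s : Fin d => (s : ℕ) < r) := by
    ext s
    simp only [mem_filter, mem_univ, true_and, mem_insert, Fin.ext_iff]
    omega
  rw [this, prod_insert (by simp), mul_comm]

theorem fw_main (S A : Finset (Fin k)) (hA : A ⊆ S) (t : Fin k → ℕ) (ht : ∀ a ∈ A, t a ≤ d)
    (up : Bool) (x : Fin k → Fin d → Bool) (C : Fin k → Finset (Fin k))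
    (hC : ∀ a ∈ A, ∀ b ∈ C a, fwKey up (x b) < fwKey up (x a)) :
    ∑ y, ker S x y * ∏ a ∈ A, √(fwN C y (t a) a * 2 ^ t a) ≤ ∏ a ∈ A, √(#(C a) : ℝ) := by
  have h := fw_super d (fun r => fwUpd (k := k) r) (fun r y a => y a r)
    (fun r y v => by simp [fwUpd]) (fun r y v => by funext a; simp [fwUpd])
    (fun m y => (∏ s : Fin d with s.val < m, fwWt S x y s)
      * ∏ a ∈ A, √(fwN C y (min m (t a)) a * 2 ^ min m (t a))) ?_
  · have e1 : ∀ y : Fin k → Fin d → Bool, (∏ s : Fin d with s.val < d, fwWt S x y s)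
        * ∏ a ∈ A, √(fwN C y (min d (t a)) a * 2 ^ min d (t a))
        = ker S x y * ∏ a ∈ A, √(fwN C y (t a) a * 2 ^ t a) := by
      intro y
      rw [fw_ker_eq, filter_true_of_mem fun s _ => s.2]
      congr 1
      exact prod_congr rfl fun a ha => by rw [min_eq_right (ht a ha)]
    simp only [e1] at h
    simp only [Nat.not_lt_zero, filter_false, prod_empty, Nat.zero_min, pow_zero, mul_one, one_mul,
      fwN, IsEmpty.forall_iff, implies_true, filter_true, sum_const, card_univ, nsmul_eq_mul,
      Fintype.card_pi, Fintype.card_bool, prod_const, Fintype.card_fin] at h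
    push_cast at h
    rw [← pow_mul, ← pow_mul, mul_comm d k] at h
    exact le_of_mul_le_mul_left h (by positivity)
  · intro r y
    simp only [fw_prod_lt_succ, fwWt_upd_self]
    have e1 : ∀ v, ∏ s : Fin d with s.val < r.val, fwWt S x (fwUpd r y v) s
        = ∏ s : Fin d with s.val < r.val, fwWt S x y s := fun v =>
      prod_congr rfl fun s hs => fwWt_upd (mem_filter.1 hs).2 S x y v
    simp only [e1, mul_assoc, ← mul_sum]
    refine mul_le_mul_of_nonneg_left ?_ (prod_nonneg fun s _ => fwW_nonneg _ _ _ _)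
    set K : ℝ := (∏ a ∈ A with (r : ℕ) < t a, √(2 ^ (r : ℕ)))
      * ∏ a ∈ A with ¬ (r : ℕ) < t a, √(fwN C y (t a) a * 2 ^ t a) with hK
    have hK0 : 0 ≤ K := mul_nonneg (prod_nonneg fun _ _ => Real.sqrt_nonneg _)
      (prod_nonneg fun _ _ => Real.sqrt_nonneg _)
    set C' : Fin k → Finset (Fin k) :=
      fun a => {b ∈ C a | ∀ j : Fin d, (j : ℕ) < r → y b j = y a j} with hC'
    have e2 : ∀ v, ∏ a ∈ A, √(fwN C (fwUpd r y v) (min (r.val + 1) (t a)) a
          * 2 ^ min (r.val + 1) (t a))
        = (∏ a ∈ A with (r : ℕ) < t a, √(2 * (#{b ∈ C' a | v b = v a} : ℝ))) * K := by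
      intro v
      rw [← prod_filter_mul_prod_filter_not A fun a => (r : ℕ) < t a, hK, ← mul_assoc,
        ← prod_mul_distrib]
      congr 1
      · refine prod_congr rfl fun a ha => ?_
        rw [min_eq_left (Nat.succ_le_of_lt (mem_filter.1 ha).2), fwN_upd_succ,
          ← Real.sqrt_mul (by positivity)]
        congr 1
        rw [Nat.succ_eq_add_one, pow_succ]
        simp only [hC']
        ring
      · refine prod_congr rfl fun a ha => ?_
        have := not_lt.1 (mem_filter.1 ha).2
        rw [min_eq_right (by omega), fwN_upd this]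
    have e3 : ∏ a ∈ A, √(fwN C y (min r (t a)) a * 2 ^ min (r : ℕ) (t a))
        = (∏ a ∈ A with (r : ℕ) < t a, √(#(C' a) : ℝ)) * K := by
      rw [← prod_filter_mul_prod_filter_not A fun a => (r : ℕ) < t a, hK, ← mul_assoc,
        ← prod_mul_distrib]
      congr 1
      · refine prod_congr rfl fun a ha => ?_
        rw [min_eq_left (mem_filter.1 ha).2.le, ← Real.sqrt_mul (by positivity)]
        rfl
      · refine prod_congr rfl fun a ha => ?_
        rw [min_eq_right (not_lt.1 (mem_filter.1 ha).2)]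
    simp only [e2, e3, ← mul_assoc, ← sum_mul]
    refine mul_le_mul_of_nonneg_right ?_ hK0
    refine fw_step S _ ((filter_subset _ _).trans hA) _ _ (fwKey up) C' fun a ha b hb => ?_
    obtain ⟨hb1, hb2⟩ := mem_filter.1 hb
    have hk := hC a (mem_filter.1 ha).1 b hb1
    refine ⟨?_, fw_key_loc up r hk hb2⟩
    rintro rfl
    exact lt_irrefl _ hk

theorem sum_ker_le_one (S : Finset (Fin k)) (x : Fin k → Fin d → Bool) :
    ∑ y, ker S x y ≤ 1 := by
  simpa using fw_main S ∅ (empty_subset _) (fun _ => 0) (by simp) false x (fun _ => ∅) (by simp)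

theorem sum_ker_le_one' (S : Finset (Fin k)) (y : Fin k → Fin d → Bool) :
    ∑ x, ker S x y ≤ 1 := by
  have hinv : Function.Involutive fun (x : Fin k → Fin d → Bool) a j => x a j.rev :=
    fun x => by simp
  refine le_of_eq_of_le ?_ (sum_ker_le_one S fun a j => y a j.rev)
  rw [← Equiv.sum_comp hinv.toPerm]
  refine sum_congr rfl fun x _ => ?_
  rw [← ker_rev]
  simp

open Classical in
/-- The probability that every card `a` of `A` meets, at time `t a`, a card that started lower
(`up = false`) or higher (`up = true`). -/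
theorem sum_ker_coll_le (S A : Finset (Fin k)) (hA : A ⊆ S) (t : Fin k → Fin d) (up : Bool)
    (x : Fin k → Fin d → Bool) {η : ℝ} (hη : 0 ≤ η)
    (hrow : ∀ a ∈ A, (#{b | ∀ j, t a < j → x b j = x a j} : ℝ) ≤ η * 2 ^ (t a : ℕ)) :
    ∑ y with (∀ a ∈ A, ∃ b, Coll x y (t a) a b ∧
        if up then rank (x a) < rank (x b) else rank (x b) < rank (x a)), ker S x y
      ≤ √η ^ A.card := by
  set C : Fin k → Finset (Fin k) :=
    fun a => {b | fwKey up (x b) < fwKey up (x a) ∧ ∀ j, t a < j → x b j = x a j} with hC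
  have h := fw_main S A hA (fun a => t a) (fun a _ => (t a).2.le) up x C
    fun a _ b hb => (mem_filter.1 hb).2.1
  set K : ℝ := ∏ a ∈ A, √(2 ^ (t a : ℕ)) with hK
  have hK0 : 0 < K := prod_pos fun a _ => Real.sqrt_pos.2 (by positivity)
  have h1 : ∏ a ∈ A, √(#(C a) : ℝ) ≤ √η ^ A.card * K := by
    rw [← prod_const, hK, ← prod_mul_distrib]
    refine prod_le_prod (fun a _ => Real.sqrt_nonneg _) fun a ha => ?_
    rw [← Real.sqrt_mul hη]
    refine Real.sqrt_le_sqrt (le_trans ?_ (hrow a ha))
    refine Nat.cast_le.2 (card_le_card fun b hb => ?_)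
    exact mem_filter.2 ⟨mem_univ _, (mem_filter.1 hb).2.2⟩
  refine le_of_mul_le_mul_right (le_trans ?_ (h.trans h1)) hK0
  rw [sum_mul]
  refine le_trans (sum_le_sum fun y hy => ?_) (sum_le_sum_of_subset_of_nonneg (subset_univ _)
    fun y _ _ => mul_nonneg (ker_nonneg _ _ _) (prod_nonneg fun a _ => Real.sqrt_nonneg _))
  refine mul_le_mul_of_nonneg_left ?_ (ker_nonneg _ _ _)
  refine prod_le_prod (fun a _ => Real.sqrt_nonneg _) fun a ha => Real.sqrt_le_sqrt ?_
  obtain ⟨b, ⟨-, hb⟩, hr⟩ := (mem_filter.1 hy).2 a ha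
  have : 1 ≤ fwN C y (t a) a := by
    refine card_pos.2 ⟨b, mem_filter.2 ⟨mem_filter.2 ⟨mem_univ _, ?_, fun j hj => ?_⟩,
      fun j hj => ?_⟩⟩
    · unfold fwKey
      split_ifs at hr ⊢ <;> omega
    · have := congrFun hb j
      simpa [loc, hj, not_lt.2 hj.le] using this.symm
    · have := congrFun hb j
      have hj' : j < t a := hj
      simpa [loc, hj'] using this.symm
  have h2 : (1 : ℝ) ≤ fwN C y (t a) a := by exact_mod_cast this
  exact le_mul_of_one_le_left (by positivity) h2

end Crest.Agent.R155
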