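import Crest.Agent.R155.O1Defs

/-!
# Auxiliary lemmas for the collision estimate
-/

set_option linter.unusedSectionVars false

namespace Crest.Agent.R155

open Finset

theorem fw_sum_upd {α β : Type} [Fintype α] [Fintype β] (upd : α → β → α) (get : α → β)
    (h1 : ∀ y v, get (upd y v) = v) (h2 : ∀ y v, upd (upd y v) (get y) = y) (f : α → ℝ) :
    ∑ y, ∑ v, f (upd y v) = Fintype.card β * ∑ y, f y := by
  have hinv : Function.Involutive (fun p : α × β => (upd p.1 p.2, get p.1)) := by
    rintro ⟨y, v⟩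
    simp [h1, h2]
  have := Equiv.sum_comp hinv.toPerm (fun p : α × β => f p.1)
  simp only [Function.Involutive.coe_toPerm, Fintype.sum_prod_type, sum_const, card_univ,
    nsmul_eq_mul] at this
  rw [this, mul_sum]

theorem fw_super {α β : Type} [Fintype α] [Fintype β] [Nonempty β] (n : ℕ)
    (upd : Fin n → α → β → α) (get : Fin n → α → β)
    (h1 : ∀ r y v, get r (upd r y v) = v) (h2 : ∀ r y v, upd r (upd r y v) (get r y) = y)
    (G : ℕ → α → ℝ) (hG : ∀ (r : Fin n) y, ∑ v, G (r + 1) (upd r y v) ≤ G r y) :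
    (Fintype.card β : ℝ) ^ n * ∑ y, G n y ≤ ∑ y, G 0 y := by
  have key : ∀ m, m ≤ n → (Fintype.card β : ℝ) ^ m * ∑ y, G m y ≤ ∑ y, G 0 y := by
    intro m
    induction m with
    | zero => intro _; simp
    | succ m ih =>
      intro hm
      refine le_trans ?_ (ih (by omega))
      rw [pow_succ, mul_assoc]
      refine mul_le_mul_of_nonneg_left ?_ (by positivity)
      rw [← fw_sum_upd (upd ⟨m, hm⟩) (get ⟨m, hm⟩) (h1 _) (h2 _)]
      exact sum_le_sum fun y _ => hG ⟨m, hm⟩ y
  exact key n le_rfl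

theorem fw_prod_key {W : Type} [Fintype W] [DecidableEq W] (key : W → ℤ)
    (F : W → (W → Bool) → ℝ) (c : W → ℝ) (hF : ∀ w ξ, 0 ≤ F w ξ) (hc : ∀ w, 0 ≤ c w)
    (hdep : ∀ w w', w' ≠ w → key w ≤ key w' → ∀ ξ b, F w (Function.update ξ w' b) = F w ξ)
    (hstep : ∀ w ξ, F w (Function.update ξ w false) + F w (Function.update ξ w true) ≤ 2 * c w)
    (P : Finset W) :
    ∑ ξ, ∏ w ∈ P, F w ξ ≤ 2 ^ Fintype.card W * ∏ w ∈ P, c w := by
  induction P using Finset.induction_on_max_value key with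
  | empty => simp
  | insert w P hw hmax ih =>
    simp only [prod_insert hw]
    have h1 := fw_sum_upd (fun (ξ : W → Bool) (b : Bool) => Function.update ξ w b) (fun ξ => ξ w)
      (by simp) (by simp) (fun ξ => F w ξ * ∏ w' ∈ P, F w' ξ)
    have h2 : ∀ ξ : W → Bool, ∑ b : Bool, F w (Function.update ξ w b)
        * ∏ w' ∈ P, F w' (Function.update ξ w b) ≤ 2 * c w * ∏ w' ∈ P, F w' ξ := by
      intro ξ
      have e : ∀ b, ∏ w' ∈ P, F w' (Function.update ξ w b) = ∏ w' ∈ P, F w' ξ := fun b =>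
        prod_congr rfl fun w' hw' => hdep w' w (fun h => hw (h ▸ hw')) (hmax w' hw') ξ b
      simp only [e, ← sum_mul]
      refine mul_le_mul_of_nonneg_right ?_ (prod_nonneg fun w' _ => hF w' ξ)
      rw [Fintype.sum_bool, add_comm]
      exact hstep w ξ
    have h3 := sum_le_sum fun ξ (_ : ξ ∈ univ) => h2 ξ
    rw [h1, ← mul_sum, Fintype.card_bool] at h3
    have h4 := mul_le_mul_of_nonneg_left ih (hc w)
    push_cast at h3
    nlinarith

theorem fw_count {W : Type} [Fintype W] [DecidableEq W] (P : Finset W) (c : W → Bool)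
    [∀ ξ : W → Bool, Decidable (∀ w ∈ P, ξ w = c w)] :
    ∑ ξ : W → Bool, (if ∀ w ∈ P, ξ w = c w then (1 : ℝ) else 0)
      = 2 ^ Fintype.card W * (1 / 2) ^ P.card := by
  have h1 : ∀ ξ : W → Bool, (if ∀ w ∈ P, ξ w = c w then (1 : ℝ) else 0)
      = ∏ w, (if w ∈ P then (if ξ w = c w then (1 : ℝ) else 0) else 1) := by
    intro ξ
    rw [prod_ite_mem, univ_inter, prod_ite_zero]
    simp
  simp only [h1]
  have h2 := Finset.prod_univ_sum (fun _ : W => (univ : Finset Bool))
    (fun w b => (if w ∈ P then (if b = c w then (1 : ℝ) else 0) else 1))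
  rw [Fintype.piFinset_univ] at h2
  rw [← h2]
  have h3 : ∀ w, ∑ b : Bool, (if w ∈ P then (if b = c w then (1 : ℝ) else 0) else 1)
      = 2 * (if w ∈ P then 1 / 2 else 1) := by
    intro w
    by_cases hw : w ∈ P <;> simp [hw]
  simp only [h3]
  rw [prod_mul_distrib, prod_ite_mem, univ_inter]
  simp

section switch

variable {Λ : Type} [Fintype Λ] [DecidableEq Λ] {k : ℕ}

theorem fw_switch (S : Finset (Fin k)) (L : Fin k → Λ) (e v : Fin k → Bool)
    (hx : ∀ a ∈ S, ∀ b ∈ S, a ≠ b → L a = L b → e a ≠ e b) :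
    ∑ ξ : Λ → Bool, (if ∀ a ∈ S, xor (e a) (ξ (L a)) = v a then (1 : ℝ) else 0)
      = 2 ^ Fintype.card Λ * (if ∀ a ∈ S, ∀ b ∈ S, a ≠ b → L a = L b → e a ≠ e b ∧ v a ≠ v b
          then (1 / 2) ^ (S.image L).card else 0) := by
  classical
  split_ifs with hv
  · let c : Λ → Bool := fun w => if h : ∃ a ∈ S, L a = w then xor (e h.choose) (v h.choose)
      else false
    have hc : ∀ a ∈ S, c (L a) = xor (e a) (v a) := by
      intro a ha
      have h : ∃ b ∈ S, L b = L a := ⟨a, ha, rfl⟩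
      simp only [c, dif_pos h]
      by_cases hab : h.choose = a
      · rw [hab]
      · have := hv _ h.choose_spec.1 a ha hab h.choose_spec.2
        revert this
        cases e h.choose <;> cases v h.choose <;> cases e a <;> cases v a <;> simp
    rw [← fw_count (S.image L) c]
    refine sum_congr rfl fun ξ _ => if_congr ?_ rfl rfl
    simp only [mem_image, forall_exists_index, and_imp, forall_apply_eq_imp_iff₂]
    refine forall₂_congr fun a ha => ?_
    rw [hc a ha]
    cases e a <;> cases v a <;> cases ξ (L a) <;> simp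
  · rw [mul_zero]
    refine sum_eq_zero fun ξ _ => if_neg fun h => hv fun a ha b hb hab hL => ⟨hx a ha b hb hab hL, ?_⟩
    have h1 := hx a ha b hb hab hL
    rw [← h a ha, ← h b hb, hL]
    revert h1
    cases e a <;> cases e b <;> cases ξ (L b) <;> simp

/-- The bits produced by the switch settings `ξ` and the private bits `p`. -/
def fwV (S : Finset (Fin k)) (L : Fin k → Λ) (e p : Fin k → Bool) (ξ : Λ → Bool) : Fin k → Bool :=
  fun a => if a ∈ S then xor (e a) (ξ (L a)) else p a

/-- The weight of the bits `v`. -/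
noncomputable def fwW (S : Finset (Fin k)) (L : Fin k → Λ) (e v : Fin k → Bool) : ℝ :=
  if ∀ a ∈ S, ∀ b ∈ S, a ≠ b → L a = L b → e a ≠ e b ∧ v a ≠ v b then
    (1 / 2) ^ (S.image L).card * (1 / 2) ^ (k - S.card) else 0

theorem fwW_nonneg (S : Finset (Fin k)) (L : Fin k → Λ) (e v : Fin k → Bool) :
    0 ≤ fwW S L e v := by
  unfold fwW; split_ifs <;> positivity

theorem fw_inner (S : Finset (Fin k)) (L : Fin k → Λ) (e : Fin k → Bool)
    (H : (Fin k → Bool) → ℝ) {c : ℝ} (hc : 0 ≤ c)
    (h : (∀ a ∈ S, ∀ b ∈ S, a ≠ b → L a = L b → e a ≠ e b) →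
      ∀ p, ∑ ξ, H (fwV S L e p ξ) ≤ 2 ^ Fintype.card Λ * c) :
    ∑ v, fwW S L e v * H v ≤ c := by
  by_cases hx : ∀ a ∈ S, ∀ b ∈ S, a ≠ b → L a = L b → e a ≠ e b
  · have h1 : ∀ v, 2 ^ k * 2 ^ Fintype.card Λ * fwW S L e v
        = ∑ p, ∑ ξ, if fwV S L e p ξ = v then (1 : ℝ) else 0 := by
      intro v
      have e1 : ∀ p ξ, (if fwV S L e p ξ = v then (1 : ℝ) else 0)
          = (if ∀ a ∈ Sᶜ, p a = v a then (1 : ℝ) else 0)
            * (if ∀ a ∈ S, xor (e a) (ξ (L a)) = v a then (1 : ℝ) else 0) := by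
        intro p ξ
        rw [ite_zero_mul_ite_zero, one_mul]
        refine if_congr ?_ rfl rfl
        constructor
        · rintro rfl
          exact ⟨fun a ha => by simp [fwV, mem_compl.1 ha], fun a ha => by simp [fwV, ha]⟩
        · rintro ⟨h1, h2⟩
          funext a
          by_cases ha : a ∈ S
          · simp only [fwV, if_pos ha]; exact h2 a ha
          · simp only [fwV, if_neg ha]; exact h1 a (mem_compl.2 ha)
      simp only [e1, ← mul_sum, ← sum_mul]
      rw [fw_count, fw_switch S L e v hx, card_compl, Fintype.card_fin, fwW]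
      split_ifs <;> ring
    have h2 : (2 : ℝ) ^ k * 2 ^ Fintype.card Λ * ∑ v, fwW S L e v * H v
        = ∑ p, ∑ ξ, H (fwV S L e p ξ) := by
      rw [mul_sum]
      simp only [← mul_assoc, h1, sum_mul]
      rw [sum_comm]
      refine sum_congr rfl fun p _ => ?_
      rw [sum_comm]
      refine sum_congr rfl fun ξ _ => ?_
      simp
    have h3 := sum_le_sum fun p (_ : p ∈ univ) => h hx p
    rw [← h2, sum_const, card_univ, nsmul_eq_mul] at h3
    simp only [Fintype.card_pi, Fintype.card_bool, prod_const, card_univ, Fintype.card_fin,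
      Nat.cast_pow, Nat.cast_ofNat, ← mul_assoc] at h3
    exact le_of_mul_le_mul_left h3 (by positivity)
  · refine le_of_eq_of_le (sum_eq_zero fun v _ => ?_) hc
    rw [fwW, if_neg, zero_mul]
    exact fun h' => hx fun a ha b hb hab hL => (h' a ha b hb hab hL).1

theorem fw_sqrt_pair {ι : Type} [DecidableEq ι] (B : Finset ι) (hB : B.card ≤ 2)
    (u0 u1 N : ι → ℝ) (h0 : ∀ a, 0 ≤ u0 a) (h1 : ∀ a, 0 ≤ u1 a)
    (hN : ∀ a ∈ B, u0 a + u1 a ≤ N a) :
    ∏ a ∈ B, √(2 * u0 a) + ∏ a ∈ B, √(2 * u1 a) ≤ 2 * ∏ a ∈ B, √(N a) := by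
  have key : ∀ p0 p1 q0 q1 P Q : ℝ, 0 ≤ p0 → 0 ≤ p1 → 0 ≤ q0 → 0 ≤ q1 → p0 + p1 ≤ P →
      q0 + q1 ≤ Q → √p0 * √q0 + √p1 * √q1 ≤ √P * √Q := by
    intro p0 p1 q0 q1 P Q hp0 hp1 hq0 hq1 hP hQ
    rw [← Real.sqrt_mul (by linarith : 0 ≤ P)]
    refine Real.le_sqrt_of_sq_le ?_
    have a0 := Real.sq_sqrt hp0
    have a1 := Real.sq_sqrt hp1
    have b0 := Real.sq_sqrt hq0
    have b1 := Real.sq_sqrt hq1
    have : (√p0 * √q0 + √p1 * √q1) ^ 2 ≤ (√p0 ^ 2 + √p1 ^ 2) * (√q0 ^ 2 + √q1 ^ 2) := by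
      nlinarith [sq_nonneg (√p0 * √q1 - √p1 * √q0)]
    rw [a0, a1, b0, b1] at this
    exact this.trans (mul_le_mul hP hQ (by linarith) (by linarith))
  have h2 : √2 * √2 = (2 : ℝ) := Real.mul_self_sqrt (by norm_num)
  obtain h | h | h : B.card = 0 ∨ B.card = 1 ∨ B.card = 2 := by omega
  · rw [card_eq_zero.1 h]; norm_num
  · obtain ⟨a, rfl⟩ := card_eq_one.1 h
    simp only [prod_singleton]
    have := key 2 2 (u0 a) (u1 a) 4 (N a) (by norm_num) (by norm_num) (h0 a) (h1 a) (by norm_num)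
      (hN a (by simp))
    rw [Real.sqrt_mul (by norm_num), Real.sqrt_mul (by norm_num)]
    have h4 : √4 = (2 : ℝ) := by
      rw [show (4 : ℝ) = 2 * 2 by norm_num]; exact Real.sqrt_mul_self (by norm_num)
    rwa [h4] at this
  · obtain ⟨a, b, hab, rfl⟩ := card_eq_two.1 h
    simp only [prod_pair hab]
    have := key (u0 a) (u1 a) (u0 b) (u1 b) (N a) (N b) (h0 a) (h1 a) (h0 b) (h1 b)
      (hN a (by simp)) (hN b (by simp))
    simp only [Real.sqrt_mul (show (0 : ℝ) ≤ 2 by norm_num)]
    calc √2 * √(u0 a) * (√2 * √(u0 b)) + √2 * √(u1 a) * (√2 * √(u1 b))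
        = (√2 * √2) * (√(u0 a) * √(u0 b) + √(u1 a) * √(u1 b)) := by ring
      _ ≤ _ := by rw [h2]; linarith

/-- One time step of the supermartingale. -/
theorem fw_step (S A : Finset (Fin k)) (hA : A ⊆ S) (L : Fin k → Λ) (e : Fin k → Bool)
    (key : Λ → ℤ) (C : Fin k → Finset (Fin k))
    (hC : ∀ a ∈ A, ∀ b ∈ C a, b ≠ a ∧ (L b = L a ∨ key (L b) < key (L a))) :
    ∑ v, fwW S L e v * ∏ a ∈ A, √(2 * (#{b ∈ C a | v b = v a} : ℝ))
      ≤ ∏ a ∈ A, √(#(C a) : ℝ) := by
  refine fw_inner S L e _ (prod_nonneg fun a _ => Real.sqrt_nonneg _) fun hx p => ?_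
  have h1 := fw_prod_key key
    (fun w ξ => ∏ a ∈ A with L a = w,
      √(2 * (#{b ∈ C a | fwV S L e p ξ b = fwV S L e p ξ a} : ℝ)))
    (fun w => ∏ a ∈ A with L a = w, √(#(C a) : ℝ))
    (fun w ξ => prod_nonneg fun a _ => Real.sqrt_nonneg _)
    (fun w => prod_nonneg fun a _ => Real.sqrt_nonneg _) ?_ ?_ univ
  · simpa only [prod_fiberwise] using h1
  · intro w w' hw hk ξ b
    refine prod_congr rfl fun a ha => ?_
    obtain ⟨haA, haw⟩ := mem_filter.1 ha
    congr 4
    refine filter_congr fun b' hb' => ?_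
    have e1 : L a ≠ w' := by rw [haw]; exact hw.symm
    have e2 : L b' ≠ w' := by
      rcases (hC a haA b' hb').2 with h | h
      · rw [h]; exact e1
      · rintro rfl
        rw [haw] at h
        omega
    simp only [fwV, Function.update_of_ne e1, Function.update_of_ne e2]
  · intro w ξ
    refine fw_sqrt_pair _ ?_ _ _ _ (fun a => by positivity) (fun a => by positivity) ?_
    · have : #{a ∈ A | L a = w} ≤ #(univ : Finset Bool) := by
        refine card_le_card_of_injOn e (fun _ _ => mem_coe.2 (mem_univ _)) fun a ha b hb hab => ?_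
        obtain ⟨haA, haw⟩ := mem_filter.1 (mem_coe.1 ha)
        obtain ⟨hbA, hbw⟩ := mem_filter.1 (mem_coe.1 hb)
        by_contra hne
        exact hx a (hA haA) b (hA hbA) hne (haw.trans hbw.symm) hab
      simpa using this
    · intro a ha
      obtain ⟨haA, haw⟩ := mem_filter.1 ha
      rw [← Nat.cast_add, Nat.cast_le, ← card_union_of_disjoint]
      · exact card_le_card (union_subset (filter_subset _ _) (filter_subset _ _))
      · rw [disjoint_filter]
        intro b hb h0 h1
        simp only [fwV, if_pos (hA haA), haw, Function.update_self] at h0 h1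
        by_cases hbS : b ∈ S
        · rw [if_pos hbS] at h0 h1
          by_cases hL : L b = w
          · have := hx b hbS a (hA haA) (hC a haA b hb).1 (hL.trans haw.symm)
            rw [hL, Function.update_self] at h0
            exact this (by simpa using h0)
          · rw [Function.update_of_ne hL] at h0 h1
            rw [h0] at h1
            simp at h1
        · rw [if_neg hbS] at h0 h1
          rw [h0] at h1
          simp at h1

end switch

theorem fw_rank_lt {d : ℕ} {z z' : Fin d → Bool} {j : Fin d} (h : ∀ i, j < i → z i = z' i)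
    (h0 : z j = false) (h1 : z' j = true) : rank z < rank z' := by
  unfold rank
  have split : ∀ f : Fin d → ℕ, ∑ i, f i = ∑ i ∈ Iio j, f i + f j + ∑ i ∈ Ioi j, f i := by
    intro f
    have : (Ioi j)ᶜ = insert j (Iio j) := by
      ext i; simp [le_iff_lt_or_eq, or_comm]
    rw [← sum_add_sum_compl (Ioi j), this, sum_insert (by simp)]
    ring
  rw [split, split fun i => if z' i = true then 2 ^ (i : ℕ) else 0]
  have e1 : ∑ i ∈ Ioi j, (if z i = true then 2 ^ (i : ℕ) else 0)
      = ∑ i ∈ Ioi j, (if z' i = true then 2 ^ (i : ℕ) else 0) :=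
    sum_congr rfl fun i hi => by rw [h i (mem_Ioi.1 hi)]
  have e2 : ∑ i ∈ Iio j, (if z i = true then 2 ^ (i : ℕ) else 0) < 2 ^ (j : ℕ) := by
    calc ∑ i ∈ Iio j, (if z i = true then 2 ^ (i : ℕ) else 0) ≤ ∑ i ∈ Iio j, 2 ^ (i : ℕ) :=
          sum_le_sum fun i _ => by split_ifs <;> simp
      _ = ∑ i ∈ (Iio j).map Fin.valEmbedding, 2 ^ i := by rw [sum_map]; rfl
      _ < 2 ^ (j : ℕ) := Nat.geomSum_lt le_rfl fun i hi => by
          obtain ⟨i', hi', rfl⟩ := mem_map.1 hi
          exact (mem_Iio.1 hi' : i' < j)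
  simp only [h0, h1, e1]
  simp only [Bool.false_eq_true, if_false, if_true]
  omega

/-- The signed rank. -/
def fwKey {d : ℕ} (up : Bool) (z : Fin d → Bool) : ℤ := if up then -(rank z : ℤ) else rank z

theorem fw_key_loc {d : ℕ} (up : Bool) (r : Fin d) {xa xb ya yb : Fin d → Bool}
    (hk : fwKey up xb < fwKey up xa) (hy : ∀ j, j < r → yb j = ya j) :
    loc r xb yb = loc r xa ya ∨ fwKey up (loc r xb yb) < fwKey up (loc r xa ya) := by
  by_cases h : ∀ j, r < j → xb j = xa j
  · left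
    funext j
    unfold loc
    split_ifs with h1 h2
    · exact hy j h1
    · exact h j h2
    · rfl
  · right
    push Not at h
    obtain ⟨j, hj, hmax⟩ := exists_max_image (univ.filter fun j => xb j ≠ xa j) id
      (by obtain ⟨j, -, hj⟩ := h; exact ⟨j, by simpa using hj⟩)
    have hj' : xb j ≠ xa j := by simpa using hj
    have hrj : r < j := by
      obtain ⟨i, hi, hi'⟩ := h
      exact hi.trans_le (hmax i (by simpa using hi'))
    have hab : ∀ i, j < i → xb i = xa i := fun i hi => by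
      by_contra hne
      exact absurd (hmax i (by simpa using hne)) (not_le.2 hi)
    have hl : ∀ (x y : Fin d → Bool) i, j ≤ i → loc r x y i = x i := fun x y i hi => by
      have : r < i := hrj.trans_le hi
      simp [loc, this, not_lt.2 this.le]
    have hab' : ∀ i, j < i → loc r xb yb i = loc r xa ya i := fun i hi => by
      rw [hl _ _ i hi.le, hl _ _ i hi.le, hab i hi]
    cases hb : xb j
    · have ha : xa j = true := by rw [hb] at hj'; simpa using hj'
      have t1 := fw_rank_lt hab hb ha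
      have t2 := fw_rank_lt hab' (by rw [hl _ _ j le_rfl, hb]) (by rw [hl _ _ j le_rfl, ha])
      unfold fwKey at hk ⊢
      split_ifs at hk ⊢ <;> omega
    · have ha : xa j = false := by rw [hb] at hj'; simpa using hj'
      have t1 := fw_rank_lt (fun i hi => (hab i hi).symm) ha hb
      have t2 := fw_rank_lt (fun i hi => (hab' i hi).symm) (by rw [hl _ _ j le_rfl, ha])
        (by rw [hl _ _ j le_rfl, hb])
      unfold fwKey at hk ⊢
      split_ifs at hk ⊢ <;> omega

end Crest.Agent.R155
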