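import Crest.Agent.R155.O1KerAux

/-!
# The norm of the kernel on functions with vanishing marginals
-/

set_option linter.unusedSectionVars false

namespace Crest.Agent.R155

open Finset

section

variable {d k : ℕ}

theorem kerB_ite_le {p : Prop} {inst : Decidable p} {a b c : ℝ} (h1 : a ≤ c) (h2 : b ≤ c) :
    (if p then a else b) ≤ c := by
  split_ifs <;> assumption

theorem kerB_le_ite {p : Prop} {inst : Decidable p} {a b c : ℝ} (h1 : c ≤ a) (h2 : c ≤ b) :
    c ≤ (if p then a else b) := by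
  split_ifs <;> assumption

open Classical in
/-- The kernel restricted to the event that each card of `A` meets a card outside `A`. -/
noncomputable def kerOut (S A : Finset (Fin k)) (x y : Fin k → Fin d → Bool) : ℝ :=
  if ∀ a ∈ A, ∃ s b, b ∉ A ∧ loc s (x a) (y a) = loc s (x b) (y b) then ker S x y else 0

theorem kerOut_nonneg (S A : Finset (Fin k)) (x y : Fin k → Fin d → Bool) : 0 ≤ kerOut S A x y := by
  unfold kerOut; split_ifs
  · exact ker_nonneg _ _ _
  · rfl

open Classical in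
theorem kerB_hs {B : Type} [Fintype B] (hB : Fintype.card B ≤ k) (q q' : B → Fin d → Bool) :
    ∑ u : Fin d → Bool, ∑ v : Fin d → Bool,
      (if ∃ s b, loc s u v = loc s (q b) (q' b) then (1 / 2 ^ d : ℝ) else 0) ^ 2 ≤
        2 * d * k / 2 ^ d := by
  rw [← Fintype.sum_prod_type' (fun u v : Fin d → Bool =>
    (if ∃ s b, loc s u v = loc s (q b) (q' b) then (1 / 2 ^ d : ℝ) else 0) ^ 2)]
  simp_rw [ite_pow, zero_pow two_ne_zero]
  rw [← sum_filter, sum_const, nsmul_eq_mul]
  have h1 : #{p : (Fin d → Bool) × (Fin d → Bool) | ∃ s b, loc s p.1 p.2 = loc s (q b) (q' b)} ≤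
      d * k * (2 * 2 ^ d) := by
    calc _ ≤ #(univ.biUnion fun sb : Fin d × B =>
            ({p : (Fin d → Bool) × (Fin d → Bool) |
              loc sb.1 p.1 p.2 = loc sb.1 (q sb.2) (q' sb.2)} : Finset _)) := by
          refine card_le_card fun p hp => ?_
          obtain ⟨s, b, h⟩ := (mem_filter.1 hp).2
          exact mem_biUnion.2 ⟨(s, b), mem_univ _, mem_filter.2 ⟨mem_univ _, h⟩⟩
      _ ≤ #(univ : Finset (Fin d × B)) * (2 * 2 ^ d) :=
          card_biUnion_le_card_mul _ _ _ fun sb _ => kerA_loc_count _ _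
      _ ≤ _ := by
          rw [card_univ, Fintype.card_prod, Fintype.card_fin]
          gcongr
  have h2 : (#{p : (Fin d → Bool) × (Fin d → Bool) |
      ∃ s b, loc s p.1 p.2 = loc s (q b) (q' b)} : ℝ) ≤ d * k * (2 * 2 ^ d) := by exact_mod_cast h1
  calc _ ≤ (d * k * (2 * 2 ^ d) : ℝ) * (1 / 2 ^ d) ^ 2 := by gcongr
    _ = _ := by field_simp

theorem kerOut_KOB (S A : Finset (Fin k)) (hA : ∀ a ∈ A, a ∉ S) :
    KOB (kerOut (d := d) S A) √((2 * d * k / 2 ^ d : ℝ) ^ A.card) := by
  classical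
  let e := (Equiv.piEquivPiSubtypeProd (· ∈ A) (fun _ : Fin k => Fin d → Bool)).symm
  have he1 : ∀ p q (a : {a // a ∈ A}), e (p, q) a = p a := fun p q a => by
    simp [e, Equiv.piEquivPiSubtypeProd_symm_apply, a.2]
  have he2 : ∀ p q (b : {a // a ∉ A}), e (p, q) b = q b := fun p q b => by
    simp [e, Equiv.piEquivPiSubtypeProd_symm_apply, b.2]
  have hk : ∀ p₁ p₂ p₃ p₄ q q', ker S (e (p₁, q)) (e (p₂, q')) = ker S (e (p₃, q)) (e (p₄, q')) := by
    intro p₁ p₂ p₃ p₄ q q'
    refine kerA_congr S (fun a ha => ?_) (fun a ha => ?_)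
    · have h : a ∉ A := fun h => hA a h ha
      exact (he2 _ _ ⟨a, h⟩).trans (he2 _ _ ⟨a, h⟩).symm
    · have h : a ∉ A := fun h => hA a h ha
      exact (he2 _ _ ⟨a, h⟩).trans (he2 _ _ ⟨a, h⟩).symm
  let p₀ : {a // a ∈ A} → Fin d → Bool := fun _ _ => false
  refine KOB.equiv e e ((KOB.prod (W := fun q q' => ∑ p', ker S (e (p₀, q)) (e (p', q')))
    (N := fun q q' p p' => ∏ a : {a // a ∈ A},
      if ∃ s b, loc s (p a) (p' a) = loc s (q b) (q' b) then (1 / 2 ^ d : ℝ) else 0)
    (by positivity) (fun q q' => sum_nonneg fun _ _ => ker_nonneg _ _ _) ?_ ?_ ?_).mono ?_)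
  · intro q
    rw [← Fintype.sum_prod_type_right (fun z => ker S (e (p₀, q)) (e z)),
      Equiv.sum_comp e (fun y => ker S (e (p₀, q)) y)]
    exact sum_ker_le_one _ _
  · intro q'
    simp_rw [fun q p' => hk p₀ p' p' p₀ q q']
    rw [← Fintype.sum_prod_type_right (fun z => ker S (e z) (e (p₀, q'))),
      Equiv.sum_comp e (fun x => ker S x (e (p₀, q')))]
    exact sum_ker_le_one' _ _
  · intro q q'
    simp_rw [← prod_pow]
    have h1 := fun p : {a // a ∈ A} → Fin d → Bool => prod_univ_sum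
      (fun _ : {a // a ∈ A} => (univ : Finset (Fin d → Bool))) (fun a v =>
        (if ∃ s b, loc s (p a) v = loc s (q b) (q' b) then (1 / 2 ^ d : ℝ) else 0) ^ 2)
    have h2 := prod_univ_sum
      (fun _ : {a // a ∈ A} => (univ : Finset (Fin d → Bool))) (fun a u => ∑ v,
        (if ∃ s b, loc s u v = loc s (q b) (q' b) then (1 / 2 ^ d : ℝ) else 0) ^ 2)
    rw [Fintype.piFinset_univ] at h1 h2
    simp_rw [← h1]
    rw [← h2, prod_const, card_univ, Fintype.card_coe]
    refine pow_le_pow_left₀ (sum_nonneg fun _ _ => sum_nonneg fun _ _ => sq_nonneg _) ?_ _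
    have := kerB_hs (k := k) ((Fintype.card_subtype_le _).trans (by simp)) q q'
    convert this
  · rintro ⟨p, q⟩ ⟨p', q'⟩
    unfold kerOut
    split_ifs with h
    · have h1 : ∀ a : {a // a ∈ A}, ∃ s b, loc s (p a) (p' a) = loc s (q b) (q' b) := by
        intro a
        obtain ⟨s, b, hb, h2⟩ := h a a.2
        refine ⟨s, ⟨b, hb⟩, ?_⟩
        rw [he1, he1] at h2
        rw [h2, ← he2 p q ⟨b, hb⟩, ← he2 p' q' ⟨b, hb⟩]
      simp only [h1, if_true]
      simp_rw [fun p'' => hk p₀ p'' p p' q q']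
      rw [sum_const, prod_const, card_univ, card_univ, Fintype.card_fun, Fintype.card_fun,
        Fintype.card_bool, Fintype.card_fin, nsmul_eq_mul]
      apply le_of_eq
      push_cast
      rw [mul_right_comm, ← mul_pow, mul_one_div_cancel (by positivity), one_pow, one_mul]
    · exact mul_nonneg (sum_nonneg fun _ _ => ker_nonneg _ _ _)
        (prod_nonneg fun _ _ => by split_ifs <;> positivity)

open Classical in
/-- The kernel restricted to the event that each card of `A` meets another card at a prescribed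
time in a row that is not dense. -/
noncomputable def kerFwd (η : ℝ) (S A : Finset (Fin k)) (t : Fin k → Fin d) (up : Bool)
    (x y : Fin k → Fin d → Bool) : ℝ :=
  if (∀ a ∈ A, (#{b | ∀ j, t a < j → x b j = x a j} : ℝ) ≤ η * 2 ^ (t a : ℕ)) ∧
    (∀ a ∈ A, ∃ b, Coll x y (t a) a b ∧
        if up then rank (x a) < rank (x b) else rank (x b) < rank (x a)) then ker S x y else 0

theorem kerFwd_nonneg (η : ℝ) (S A : Finset (Fin k)) (t : Fin k → Fin d) (up : Bool)
    (x y : Fin k → Fin d → Bool) : 0 ≤ kerFwd η S A t up x y := by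
  unfold kerFwd
  exact kerB_le_ite (ker_nonneg _ _ _) le_rfl

theorem kerFwd_KOB {η : ℝ} (hη : 0 ≤ η) (S A : Finset (Fin k)) (hA : A ⊆ S) (t : Fin k → Fin d)
    (up : Bool) : KOB (kerFwd η S A t up) √(√η ^ A.card) := by
  classical
  refine KOB.schur (kerFwd_nonneg η S A t up) (by positivity) (fun x => ?_) (fun y => ?_)
  · by_cases h : ∀ a ∈ A, (#{b | ∀ j, t a < j → x b j = x a j} : ℝ) ≤ η * 2 ^ (t a : ℕ)
    · refine le_trans (le_of_eq ?_) (sum_ker_coll_le S A hA t up x hη (by convert h))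
      rw [sum_filter]
      refine sum_congr rfl fun y _ => ?_
      unfold kerFwd
      exact if_congr (and_iff_right (by convert h)) rfl rfl
    · rw [sum_eq_zero]
      · positivity
      · intro y _
        unfold kerFwd
        exact if_neg fun h' => h (by convert h'.1)
  · refine le_trans (sum_le_sum fun x _ => ?_) (sum_ker_le_one' S y)
    exact kerB_ite_le le_rfl (ker_nonneg _ _ _)

/-- Reversal of the coordinates. -/
def revC (x : Fin k → Fin d → Bool) : Fin k → Fin d → Bool := fun a j => x a j.rev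

theorem revC_revC (x : Fin k → Fin d → Bool) : revC (revC x) = x := by
  funext a j; simp [revC]

theorem kerBwd_KOB {η : ℝ} (hη : 0 ≤ η) (S A : Finset (Fin k)) (hA : A ⊆ S) (t : Fin k → Fin d)
    (up : Bool) : KOB (fun x y => kerFwd η S A t up (revC y) (revC x)) √(√η ^ A.card) := by
  have hi : Function.Involutive (revC (k := k) (d := d)) := revC_revC
  refine KOB.equiv hi.toPerm hi.toPerm ?_
  simp only [Function.Involutive.coe_toPerm, revC_revC]
  exact (kerFwd_KOB hη S A hA t up).transpose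

open Classical in
theorem kerB_dense (hk : 1 ≤ k) {η : ℝ} (hη : 0 < η) (hη2 : η ^ 2 = 40 * d * k / 2 ^ d)
    (S : Finset (Fin k)) (x y : Fin k → Fin d → Bool) (hv : Valid S x y) (s : Fin d) :
    10 * d * #{a ∈ S | η * 2 ^ (s : ℕ) < (#{b | ∀ j, s < j → x b j = x a j} : ℝ) ∧
      η * 2 ^ (s.rev : ℕ) < (#{b | ∀ j, s.rev < j → revC y b j = revC y a j} : ℝ)} ≤ k := by
  set r : Fin k → Fin d → Bool := fun b j => if s < j then x b j else false with hr
  set c : Fin k → Fin d → Bool := fun b j => if j < s then y b j else false with hc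
  have hr' : ∀ a b, r b = r a ↔ ∀ j, s < j → x b j = x a j := by
    intro a b
    rw [funext_iff]
    refine forall_congr' fun j => ?_
    by_cases h : s < j <;> simp [hr, h]
  have hc' : ∀ a b, c b = c a ↔ ∀ j, s.rev < j → revC y b j = revC y a j := by
    intro a b
    rw [funext_iff]
    constructor
    · intro h j hj
      have h1 : j.rev < s := by rwa [Fin.rev_lt_iff]
      simpa [hc, h1, revC] using h j.rev
    · intro h j
      by_cases h1 : j < s
      · have := h j.rev (Fin.rev_lt_rev.2 h1)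
        simpa [hc, h1, revC] using this
      · simp [hc, h1]
  simp_rw [← hr', ← hc']
  have h1 := kerA_dense_count r (η * 2 ^ (s : ℕ))
  have h2 := kerA_dense_count c (η * 2 ^ (s.rev : ℕ))
  set D := {a ∈ S | η * 2 ^ (s : ℕ) < (#{b | r b = r a} : ℝ) ∧
      η * 2 ^ (s.rev : ℕ) < (#{b | c b = c a} : ℝ)} with hD
  set I₁ := image r {a | η * 2 ^ (s : ℕ) < (#{b | r b = r a} : ℝ)} with hI₁
  set I₂ := image c {a | η * 2 ^ (s.rev : ℕ) < (#{b | c b = c a} : ℝ)} with hI₂
  have h3 : #D ≤ 2 * #(D.image fun a => (r a, c a)) := by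
    refine card_le_mul_card_image _ _ fun w _ => ?_
    have := card_le_card_of_injOn (s := {a ∈ D | (r a, c a) = w}) (t := (univ : Finset Bool))
      (fun a => x a s) (fun _ _ => mem_coe.2 (mem_univ _)) (by
        intro a ha b hb hab
        by_contra hne
        have ha' := mem_filter.1 (mem_coe.1 ha)
        have hb' := mem_filter.1 (mem_coe.1 hb)
        have h4 := Prod.mk.inj (ha'.2.trans hb'.2.symm)
        refine (hv s a (mem_filter.1 ha'.1).1 b (mem_filter.1 hb'.1).1 hne ?_).1 hab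
        funext j
        have h5 := congrFun h4.1 j
        have h6 := congrFun h4.2 j
        simp only [hr, hc] at h5 h6
        unfold loc
        split_ifs with h7 h8
        · simpa [h7] using h6
        · simpa [h8] using h5
        · rfl)
    simpa using this
  have h4 : #(D.image fun a => (r a, c a)) ≤ #I₁ * #I₂ := by
    rw [← card_product]
    refine card_le_card fun w hw => ?_
    obtain ⟨a, ha, rfl⟩ := mem_image.1 hw
    have ha' := (mem_filter.1 ha).2
    exact mem_product.2 ⟨mem_image_of_mem _ (mem_filter.2 ⟨mem_univ _, ha'.1⟩),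
      mem_image_of_mem _ (mem_filter.2 ⟨mem_univ _, ha'.2⟩)⟩
  have h5 : (#D : ℝ) ≤ 2 * (#I₁ * #I₂) := by exact_mod_cast h3.trans (Nat.mul_le_mul_left 2 h4)
  have h6 : (2 : ℝ) ^ (s : ℕ) * 2 ^ (s.rev : ℕ) * 2 = 2 ^ d := by
    rw [← pow_add, ← pow_succ, Fin.val_rev]
    congr 1
    have := s.2
    omega
  have h7 : (#I₁ * (η * 2 ^ (s : ℕ))) * (#I₂ * (η * 2 ^ (s.rev : ℕ))) ≤ (k : ℝ) * k :=
    mul_le_mul h1 h2 (by positivity) (by positivity)
  have h8 : (#I₁ * (η * 2 ^ (s : ℕ))) * (#I₂ * (η * 2 ^ (s.rev : ℕ))) =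
      (#I₁ * #I₂ : ℝ) * (20 * d * k) := by
    have : (20 * d * k : ℝ) = η ^ 2 * (2 ^ (s : ℕ) * 2 ^ (s.rev : ℕ)) := by
      rw [hη2, ← h6]; field_simp; ring
    rw [this]; ring
  have hk' : (0 : ℝ) < k := by exact_mod_cast hk
  have h9 : (#I₁ * #I₂ : ℝ) * (20 * d) ≤ k := by
    rw [h8, ← mul_assoc] at h7
    exact le_of_mul_le_mul_right h7 hk'
  have h10 : (10 * d * #D : ℝ) ≤ k := by
    calc (10 * d * #D : ℝ) ≤ 10 * d * (2 * (#I₁ * #I₂)) := by gcongr
      _ = (#I₁ * #I₂ : ℝ) * (20 * d) := by ring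
      _ ≤ k := h9
  exact_mod_cast h10

open Classical in
/-- The part of the kernel that survives the cancellation. -/
noncomputable def kerGood (S : Finset (Fin k)) (x y : Fin k → Fin d → Bool) : ℝ :=
  if Function.Injective x ∧ Function.Injective y ∧ ∀ a, ∃ s b, Coll x y s a b then ker S x y else 0

theorem kerGood_small (hd : 1 ≤ d) (hk : 1 ≤ k) (hdk : 40 * d * k ≤ 2 ^ d) (S : Finset (Fin k))
    (hS : k ≤ 3 * Sᶜ.card) :
    KOB (kerGood (d := d) S) (2 ^ k * (40 * d * k / 2 ^ d : ℝ) ^ (k / 64 : ℝ)) := by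
  classical
  have hρ0 : (0 : ℝ) < 40 * d * k / 2 ^ d := by positivity
  have hρ1 : (40 * d * k / 2 ^ d : ℝ) ≤ 1 := by
    rw [div_le_one (by positivity)]; exact_mod_cast hdk
  have h := KOB.cover (M := kerGood (d := d) S) (c := (40 * d * k / 2 ^ d : ℝ) ^ (k / 64 : ℝ))
    (N := fun A : Finset (Fin k) => fun x y =>
      if A ⊆ Sᶜ ∧ k ≤ 6 * A.card then kerOut S A x y else 0) ?_ ?_ ?_
  · simpa using h
  · intro A
    by_cases hA : A ⊆ Sᶜ ∧ k ≤ 6 * A.card
    · simp only [hA, and_self, if_true]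
      refine (kerOut_KOB S A fun a ha => mem_compl.1 (hA.1 ha)).mono_const ?_
      have h1 : (2 * d * k / 2 ^ d : ℝ) ≤ 40 * d * k / 2 ^ d := by gcongr; norm_num
      have h2 : (k : ℝ) ≤ 6 * A.card := by exact_mod_cast hA.2
      calc √((2 * d * k / 2 ^ d : ℝ) ^ A.card) ≤ √((40 * d * k / 2 ^ d : ℝ) ^ A.card) := by gcongr
        _ = (40 * d * k / 2 ^ d : ℝ) ^ ((A.card : ℝ) * (1 / 2)) := by
          rw [Real.sqrt_eq_rpow, Real.rpow_mul hρ0.le, Real.rpow_natCast]
        _ ≤ _ := Real.rpow_le_rpow_of_exponent_ge hρ0 hρ1 (by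
          linarith [(Nat.cast_nonneg A.card : (0 : ℝ) ≤ A.card)])
    · simp only [hA, if_false]
      exact KOB.zero (by positivity)
  · intro A x y
    split_ifs
    · exact kerOut_nonneg _ _ _ _
    · rfl
  · intro x y
    unfold kerGood
    split_ifs with hg
    swap
    · exact Or.inl le_rfl
    right
    obtain ⟨I, hI⟩ := kerA_indep (fun a b => ∃ s, Coll x y s a b)
      (fun a b ⟨s, h⟩ => ⟨s, h.1.symm, h.2.symm⟩) (fun a b ⟨s, h⟩ => h.1)
      (fun a => by obtain ⟨s, b, h⟩ := hg.2.2 a; exact ⟨b, s, h⟩)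
    have hc := card_filter_add_card_filter_not (s := Sᶜ) (fun a => a ∈ I)
    have key : ∀ A : Finset (Fin k), A ⊆ Sᶜ → k ≤ 6 * A.card →
        (∀ a ∈ A, ∃ s b, b ∉ A ∧ loc s (x a) (y a) = loc s (x b) (y b)) →
        ker S x y ≤ if A ⊆ Sᶜ ∧ k ≤ 6 * A.card then kerOut S A x y else 0 := by
      intro A h1 h2 h3
      rw [if_pos ⟨h1, h2⟩, kerOut, if_pos h3]
    by_cases hl : k ≤ 6 * #{a ∈ Sᶜ | a ∈ I}
    · refine ⟨_, key _ (filter_subset _ _) hl fun a ha => ?_⟩
      obtain ⟨b, ⟨s, hb⟩, hab⟩ := hI a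
      exact ⟨s, b, fun h => hab.1 (mem_filter.1 ha).2 (mem_filter.1 h).2, hb.2⟩
    · refine ⟨_, key {a ∈ Sᶜ | a ∉ I} (filter_subset _ _) (by omega) fun a ha => ?_⟩
      obtain ⟨b, ⟨s, hb⟩, hab⟩ := hI a
      exact ⟨s, b, fun h => (mem_filter.1 ha).2 (hab.2 (mem_filter.1 h).2), hb.2⟩

theorem kerGood_large (hd : 1 ≤ d) (hk : 1 ≤ k) (hdk : 40 * d * k ≤ 2 ^ d) (S : Finset (Fin k))
    (hS : 3 * Sᶜ.card < k) :
    KOB (kerGood (d := d) S) (4 * 2 ^ k * d ^ k * (40 * d * k / 2 ^ d : ℝ) ^ (k / 64 : ℝ)) := by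
  classical
  have hρ0 : (0 : ℝ) < 40 * d * k / 2 ^ d := by positivity
  have hρ1 : (40 * d * k / 2 ^ d : ℝ) ≤ 1 := by
    rw [div_le_one (by positivity)]; exact_mod_cast hdk
  set η := √(40 * d * k / 2 ^ d : ℝ) with hη
  have hη0 : 0 < η := Real.sqrt_pos.2 hρ0
  have hη2 : η ^ 2 = 40 * d * k / 2 ^ d := Real.sq_sqrt hρ0.le
  have h := KOB.cover (M := kerGood (d := d) S) (c := (40 * d * k / 2 ^ d : ℝ) ^ (k / 64 : ℝ))
    (N := fun i : (Bool × Bool) × Finset (Fin k) × (Fin k → Fin d) => fun x y =>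
      if i.2.1 ⊆ S ∧ k ≤ 8 * i.2.1.card then
        (if i.1.1 then kerFwd η S i.2.1 i.2.2 i.1.2 x y
          else kerFwd η S i.2.1 i.2.2 i.1.2 (revC y) (revC x)) else 0) ?_ ?_ ?_
  · refine h.mono_const (le_of_eq ?_)
    simp only [Fintype.card_prod, Fintype.card_bool, Fintype.card_finset, Fintype.card_fin,
      Fintype.card_fun]
    push_cast
    ring
  · rintro ⟨⟨fw, up⟩, A, t⟩
    by_cases hA : A ⊆ S ∧ k ≤ 8 * A.card
    · simp only [hA, and_self, if_true]
      have h2 : (k : ℝ) ≤ 8 * A.card := by exact_mod_cast hA.2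
      have h3 : √(√η ^ A.card) ≤ (40 * d * k / 2 ^ d : ℝ) ^ (k / 64 : ℝ) := by
        calc √(√η ^ A.card)
            = (40 * d * k / 2 ^ d : ℝ) ^ ((1 / 2 : ℝ) * (1 / 2) * (A.card : ℝ) * (1 / 2)) := by
              rw [hη, Real.sqrt_eq_rpow, Real.sqrt_eq_rpow, Real.sqrt_eq_rpow,
                Real.rpow_mul hρ0.le, Real.rpow_mul hρ0.le, Real.rpow_mul hρ0.le,
                Real.rpow_natCast]
          _ ≤ _ := Real.rpow_le_rpow_of_exponent_ge hρ0 hρ1 (by linarith)
      cases fw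
      · exact (kerBwd_KOB hη0.le S A hA.1 t up).mono_const h3
      · exact (kerFwd_KOB hη0.le S A hA.1 t up).mono_const h3
    · simp only [hA, if_false]
      exact KOB.zero (by positivity)
  · intro i x y
    split_ifs
    · exact kerFwd_nonneg _ _ _ _ _ _ _
    · exact kerFwd_nonneg _ _ _ _ _ _ _
    · rfl
  · intro x y
    unfold kerGood
    split_ifs with hg
    swap
    · exact Or.inl le_rfl
    by_cases hv : Valid S x y
    swap
    · left; rw [ker, if_neg hv]
    right
    obtain ⟨hx, hy, hcoll⟩ := hg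
    set Dd : Fin d → Finset (Fin k) := fun s =>
      {a ∈ S | η * 2 ^ (s : ℕ) < (#{b | ∀ j, s < j → x b j = x a j} : ℝ) ∧
        η * 2 ^ (s.rev : ℕ) < (#{b | ∀ j, s.rev < j → revC y b j = revC y a j} : ℝ)} with hDd
    have hD : ∀ s, 10 * d * #(Dd s) ≤ k := fun s => by
      convert kerB_dense hk hη0 hη2 S x y hv s
    have hU : 10 * #(univ.biUnion Dd) ≤ k := by
      have h1 : #(univ.biUnion Dd) ≤ ∑ s, #(Dd s) := card_biUnion_le
      have h2 : d * (10 * ∑ s, #(Dd s)) ≤ d * k := by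
        calc d * (10 * ∑ s, #(Dd s)) = ∑ s, 10 * d * #(Dd s) := by rw [← mul_sum]; ring
          _ ≤ ∑ _s : Fin d, k := sum_le_sum fun s _ => hD s
          _ = d * k := by simp
      have := Nat.le_of_mul_le_mul_left h2 hd
      omega
    set N := S \ univ.biUnion Dd with hN
    have hNc : k ≤ 2 * #N := by
      have h1 : #S ≤ #N + #(univ.biUnion Dd) := by rw [hN]; exact card_le_card_sdiff_add_card
      have h2 := card_add_card_compl S
      rw [Fintype.card_fin] at h2
      omega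
    have hcl : ∀ a, ∃ (c : Bool × Bool) (s : Fin d), a ∈ N →
        if c.1 then (#{b | ∀ j, s < j → x b j = x a j} : ℝ) ≤ η * 2 ^ (s : ℕ) ∧
            ∃ b, Coll x y s a b ∧
              if c.2 then rank (x a) < rank (x b) else rank (x b) < rank (x a)
        else (#{b | ∀ j, s < j → revC y b j = revC y a j} : ℝ) ≤ η * 2 ^ (s : ℕ) ∧
            ∃ b, Coll (revC y) (revC x) s a b ∧
              if c.2 then rank (revC y a) < rank (revC y b)
              else rank (revC y b) < rank (revC y a) := by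
      intro a
      obtain ⟨s, b, hb⟩ := hcoll a
      by_cases h1 : (#{b | ∀ j, s < j → x b j = x a j} : ℝ) ≤ η * 2 ^ (s : ℕ)
      · have hne : rank (x a) ≠ rank (x b) := fun h => hb.1 (hx (kerA_rank_inj h))
        rcases lt_or_gt_of_ne hne with h | h
        · exact ⟨(true, true), s, fun _ => by simpa using ⟨h1, b, hb, h⟩⟩
        · exact ⟨(true, false), s, fun _ => by simpa using ⟨h1, b, hb, h⟩⟩
      · have hne : rank (revC y a) ≠ rank (revC y b) := by
          intro h
          apply hb.1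
          apply hy
          funext j
          simpa [revC] using congrFun (kerA_rank_inj h) j.rev
        have h2 : a ∈ N → (#{b | ∀ j, s.rev < j → revC y b j = revC y a j} : ℝ) ≤
            η * 2 ^ (s.rev : ℕ) := by
          intro ha
          rw [hN, mem_sdiff] at ha
          by_contra h3
          exact ha.2 (mem_biUnion.2 ⟨s, mem_univ _,
            mem_filter.2 ⟨ha.1, not_le.1 h1, not_le.1 h3⟩⟩)
        have hb' : Coll (revC y) (revC x) s.rev a b := (coll_rev x y s a b).2 hb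
        rcases lt_or_gt_of_ne hne with h | h
        · exact ⟨(false, true), s.rev, fun ha => by simpa using ⟨h2 ha, b, hb', h⟩⟩
        · exact ⟨(false, false), s.rev, fun ha => by simpa using ⟨h2 ha, b, hb', h⟩⟩
    choose c t hct using hcl
    obtain ⟨c₀, -, hc₀⟩ := exists_le_card_fiber_of_nsmul_le_card_of_maps_to
      (s := N) (t := (univ : Finset (Bool × Bool))) (f := c) (b := (k / 8 : ℚ))
      (fun _ _ => mem_univ _) univ_nonempty (by
        have : (k : ℚ) ≤ 2 * #N := by exact_mod_cast hNc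
        simp only [card_univ, Fintype.card_prod, Fintype.card_bool, nsmul_eq_mul]
        push_cast
        linarith)
    have hA : k ≤ 8 * #{a ∈ N | c a = c₀} := by
      have : (k : ℚ) ≤ 8 * #{a ∈ N | c a = c₀} := by linarith
      exact_mod_cast this
    refine ⟨(c₀, {a ∈ N | c a = c₀}, t), ?_⟩
    rw [if_pos ⟨(filter_subset _ _).trans sdiff_subset, hA⟩]
    have h3 : ∀ a ∈ ({a ∈ N | c a = c₀} : Finset _), _ := fun a ha =>
      (mem_filter.1 ha).2 ▸ hct a (mem_filter.1 ha).1
    obtain ⟨fw, up⟩ := c₀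
    cases fw
    · simp only [Bool.false_eq_true, if_false] at h3 ⊢
      rw [kerFwd, if_pos ⟨fun a ha => by convert (h3 a ha).1, fun a ha => (h3 a ha).2⟩]
      exact (ker_rev S x y).ge
    · simp only [if_true] at h3 ⊢
      rw [kerFwd, if_pos ⟨fun a ha => by convert (h3 a ha).1, fun a ha => (h3 a ha).2⟩]

end

theorem ker_norm_le {d k : ℕ} (hd : 1 ≤ d) (hk : 40 * d * k ≤ 2 ^ d)
    (f : (Fin k → Fin d → Bool) → ℂ) (hinj : ∀ y, ¬ Function.Injective y → f y = 0)
    (hmean : ∀ y a, ∑ z, f (Function.update y a z) = 0) :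
    ∑ x, ‖∑ y, (ker univ x y : ℂ) * f y‖ ^ 2
      ≤ ((32 * (d + 1) : ℝ) ^ k * (40 * d * k / 2 ^ d : ℝ) ^ (k / 64 : ℝ)) ^ 2
        * ∑ y, ‖f y‖ ^ 2 := by
  classical
  rcases Nat.eq_zero_or_pos k with rfl | hk1
  · simp [ker, Valid]
  have hall : ∀ S : Finset (Fin k), KOB (kerGood (d := d) S)
      (4 * 2 ^ k * d ^ k * (40 * d * k / 2 ^ d : ℝ) ^ (k / 64 : ℝ)) := by
    intro S
    rcases le_or_gt k (3 * Sᶜ.card) with h | h
    · refine (kerGood_small hd hk1 hk S h).mono_const ?_
      have h1 : (1 : ℝ) ≤ d ^ k := one_le_pow₀ (by exact_mod_cast hd)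
      have h2 : (0 : ℝ) < 2 ^ k := by positivity
      refine mul_le_mul_of_nonneg_right (by nlinarith) (by positivity)
    · exact kerGood_large hd hk1 hk S h
  have hsum := (KOB.sum hall).mono_const (c' := (32 * (d + 1) : ℝ) ^ k *
      (40 * d * k / 2 ^ d : ℝ) ^ (k / 64 : ℝ)) (by
    rw [← mul_assoc]
    refine mul_le_mul_of_nonneg_right ?_ (by positivity)
    rw [Fintype.card_finset, Fintype.card_fin]
    push_cast
    have h1 : (4 : ℝ) ≤ 8 ^ k := le_trans (by norm_num) (pow_le_pow_right₀ (by norm_num) hk1)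
    calc (2 : ℝ) ^ k * (4 * 2 ^ k * d ^ k) ≤ 2 ^ k * (8 ^ k * 2 ^ k * (d + 1) ^ k) := by
          gcongr; linarith
      _ = _ := by rw [← mul_pow, ← mul_pow, ← mul_pow]; ring)
  refine hsum.norm_le _ f (fun x => ?_) (by positivity)
  have hg0 : ∀ S y, 0 ≤ kerGood S x y := fun S y => by
    unfold kerGood; split_ifs
    · exact ker_nonneg _ _ _
    · rfl
  by_cases hx : Function.Injective x
  swap
  · simp_rw [kerA_noninj hd x _ hx]
    simp only [Complex.ofReal_zero, zero_mul, sum_const_zero, norm_zero]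
    exact sum_nonneg fun y _ => mul_nonneg (sum_nonneg fun S _ => hg0 S y) (norm_nonneg _)
  have h1 : ∑ y, (ker univ x y : ℂ) * f y =
      ∑ y, ((∑ S : Finset (Fin k), (-1 : ℝ) ^ (k - S.card) * ker S x y : ℝ) : ℂ) * f y := by
    push_cast
    simp_rw [sum_mul, mul_assoc]
    rw [sum_comm, sum_eq_single univ]
    · simp
    · intro S _ hS
      obtain ⟨a, ha⟩ : ∃ a, a ∉ S := by
        by_contra h
        push Not at h
        exact hS (eq_univ_iff_forall.2 h)
      rw [← mul_sum, kerA_mean S a ha x f hmean, mul_zero]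
    · intro h; exact absurd (mem_univ _) h
  rw [h1]
  refine (norm_sum_le _ _).trans (sum_le_sum fun y _ => ?_)
  by_cases hy : Function.Injective y
  swap
  · simp [hinj y hy]
  rw [norm_mul, Complex.norm_real, Real.norm_eq_abs]
  refine mul_le_mul_of_nonneg_right ?_ (norm_nonneg _)
  by_cases hc : ∀ a, ∃ s b, Coll x y s a b
  · refine (abs_sum_le_sum_abs _ _).trans (sum_le_sum fun S _ => ?_)
    rw [abs_mul, abs_pow, abs_neg, abs_one, one_pow, one_mul, abs_of_nonneg (ker_nonneg _ _ _),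
      kerGood, if_pos ⟨hx, hy, hc⟩]
  · push Not at hc
    obtain ⟨a, ha⟩ := hc
    rw [kerA_cancel a x y ha, abs_zero]
    exact sum_nonneg fun S _ => hg0 S y

end Crest.Agent.R155
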