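import Crest.Agent.R155.O1Fwd

/-!
# Bilinear bounds for nonnegative kernels, and elementary facts on the card kernel
-/

set_option linter.unusedSectionVars false

namespace Crest.Agent.R155

open Finset

section OB

variable {X Y : Type*} [Fintype X] [Fintype Y]

/-- The bilinear form of `M` on nonnegative vectors is bounded by `c`. -/
def KOB (M : X → Y → ℝ) (c : ℝ) : Prop :=
  ∀ (g : X → ℝ) (h : Y → ℝ), (∀ x, 0 ≤ g x) → (∀ y, 0 ≤ h y) →
    ∑ x, ∑ y, M x y * (g x * h y) ≤ c * (√(∑ x, g x ^ 2) * √(∑ y, h y ^ 2))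

theorem KOB.mono {M N : X → Y → ℝ} {c : ℝ} (hN : KOB N c) (h : ∀ x y, M x y ≤ N x y) :
    KOB M c := fun g h' hg hh =>
  le_trans (sum_le_sum fun x _ => sum_le_sum fun y _ =>
    mul_le_mul_of_nonneg_right (h x y) (mul_nonneg (hg x) (hh y))) (hN g h' hg hh)

theorem KOB.mono_const {M : X → Y → ℝ} {c c' : ℝ} (hM : KOB M c) (h : c ≤ c') : KOB M c' :=
  fun g h' hg hh => (hM g h' hg hh).trans (mul_le_mul_of_nonneg_right h (by positivity))

theorem KOB.zero {c : ℝ} (hc : 0 ≤ c) : KOB (fun (_ : X) (_ : Y) => 0) c := by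
  intro g h _ _
  simp only [zero_mul, sum_const_zero]
  positivity

theorem KOB.sum {ι : Type*} [Fintype ι] {N : ι → X → Y → ℝ} {c : ℝ} (hN : ∀ i, KOB (N i) c) :
    KOB (fun x y => ∑ i, N i x y) (Fintype.card ι * c) := by
  intro g h hg hh
  simp_rw [sum_mul]
  calc ∑ x, ∑ y, ∑ i, N i x y * (g x * h y) = ∑ x, ∑ i, ∑ y, N i x y * (g x * h y) :=
        sum_congr rfl fun x _ => sum_comm
    _ = ∑ i, ∑ x, ∑ y, N i x y * (g x * h y) := sum_comm
    _ ≤ ∑ _i : ι, c * (√(∑ x, g x ^ 2) * √(∑ y, h y ^ 2)) := sum_le_sum fun i _ => hN i g h hg hh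
    _ = _ := by rw [sum_const, card_univ, nsmul_eq_mul, mul_assoc]

theorem KOB.cover {ι : Type*} [Fintype ι] {M : X → Y → ℝ} {N : ι → X → Y → ℝ} {c : ℝ}
    (hN : ∀ i, KOB (N i) c) (h0 : ∀ i x y, 0 ≤ N i x y)
    (h : ∀ x y, M x y ≤ 0 ∨ ∃ i, M x y ≤ N i x y) : KOB M (Fintype.card ι * c) := by
  refine (KOB.sum hN).mono fun x y => ?_
  rcases h x y with h | ⟨i, hi⟩
  · exact h.trans (sum_nonneg fun i _ => h0 i x y)
  · exact hi.trans (single_le_sum (fun i _ => h0 i x y) (mem_univ i))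

theorem KOB.schur {M : X → Y → ℝ} {R : ℝ} (h0 : ∀ x y, 0 ≤ M x y) (hR0 : 0 ≤ R)
    (hR : ∀ x, ∑ y, M x y ≤ R) (hC : ∀ y, ∑ x, M x y ≤ 1) : KOB M √R := by
  intro g h hg hh
  have h1 := sum_mul_sq_le_sq_mul_sq (univ : Finset (X × Y))
    (fun p => √(M p.1 p.2) * g p.1) (fun p => √(M p.1 p.2) * h p.2)
  have e1 : ∑ p : X × Y, √(M p.1 p.2) * g p.1 * (√(M p.1 p.2) * h p.2) =
      ∑ x, ∑ y, M x y * (g x * h y) := by
    rw [Fintype.sum_prod_type]
    refine sum_congr rfl fun x _ => sum_congr rfl fun y _ => ?_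
    rw [mul_mul_mul_comm, Real.mul_self_sqrt (h0 x y)]
  have e2 : ∑ p : X × Y, (√(M p.1 p.2) * g p.1) ^ 2 ≤ R * ∑ x, g x ^ 2 := by
    rw [Fintype.sum_prod_type, mul_sum]
    refine sum_le_sum fun x _ => ?_
    simp_rw [mul_pow, Real.sq_sqrt (h0 x _)]
    rw [← sum_mul]
    exact mul_le_mul_of_nonneg_right (hR x) (sq_nonneg _)
  have e3 : ∑ p : X × Y, (√(M p.1 p.2) * h p.2) ^ 2 ≤ ∑ y, h y ^ 2 := by
    rw [Fintype.sum_prod_type_right]
    refine sum_le_sum fun y _ => ?_
    simp_rw [mul_pow, Real.sq_sqrt (h0 _ y)]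
    rw [← sum_mul]
    exact mul_le_of_le_one_left (sq_nonneg _) (hC y)
  rw [e1] at h1
  rw [← Real.sqrt_mul (sum_nonneg fun _ _ => sq_nonneg _), ← Real.sqrt_mul hR0, ← mul_assoc]
  apply Real.le_sqrt_of_sq_le
  exact h1.trans (mul_le_mul e2 e3 (sum_nonneg fun _ _ => sq_nonneg _)
    (mul_nonneg hR0 (sum_nonneg fun _ _ => sq_nonneg _)))

theorem KOB.equiv {X' Y' : Type*} [Fintype X'] [Fintype Y'] {M : X → Y → ℝ} {c : ℝ}
    (e : X' ≃ X) (e' : Y' ≃ Y) (hM : KOB (fun x y => M (e x) (e' y)) c) : KOB M c := by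
  intro g h hg hh
  have := hM (fun x => g (e x)) (fun y => h (e' y)) (fun x => hg _) (fun y => hh _)
  rw [Equiv.sum_comp e (fun x => g x ^ 2), Equiv.sum_comp e' (fun y => h y ^ 2)] at this
  refine le_trans (le_of_eq ?_) this
  rw [← Equiv.sum_comp e]
  exact sum_congr rfl fun x _ => (Equiv.sum_comp e' fun y => M (e x) y * (g (e x) * h y)).symm

theorem KOB.transpose {M : X → Y → ℝ} {c : ℝ} (hM : KOB M c) : KOB (fun y x => M x y) c := by
  intro g h hg hh
  have := hM h g hh hg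
  rw [sum_comm, mul_comm (√_)]
  simp_rw [mul_comm (g _)]
  exact this

theorem KOB.prod {P Q : Type*} [Fintype P] [Fintype Q] {W : Q → Q → ℝ} {N : Q → Q → P → P → ℝ}
    {c : ℝ} (hc : 0 ≤ c) (hW0 : ∀ q q', 0 ≤ W q q') (hR : ∀ q, ∑ q', W q q' ≤ 1)
    (hC : ∀ q', ∑ q, W q q' ≤ 1) (hN : ∀ q q', ∑ p, ∑ p', N q q' p p' ^ 2 ≤ c) :
    KOB (fun (x y : P × Q) => W x.2 y.2 * N x.2 y.2 x.1 y.1) √c := by
  intro g h hg hh
  have hW := KOB.schur hW0 zero_le_one hR hC (fun q => √(∑ p, g (p, q) ^ 2))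
    (fun q => √(∑ p, h (p, q) ^ 2)) (fun _ => Real.sqrt_nonneg _) (fun _ => Real.sqrt_nonneg _)
  simp_rw [Real.sq_sqrt (sum_nonneg fun _ _ => sq_nonneg _)] at hW
  rw [Real.sqrt_one, one_mul] at hW
  rw [Fintype.sum_prod_type_right (fun x => g x ^ 2), Fintype.sum_prod_type_right (fun x => h x ^ 2)]
  refine le_trans ?_ (mul_le_mul_of_nonneg_left hW (Real.sqrt_nonneg c))
  rw [Fintype.sum_prod_type_right, mul_sum]
  refine sum_le_sum fun q _ => ?_
  simp_rw [Fintype.sum_prod_type_right]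
  rw [sum_comm, mul_sum]
  refine sum_le_sum fun q' _ => ?_
  simp_rw [mul_assoc, ← mul_sum]
  rw [mul_left_comm]
  refine mul_le_mul_of_nonneg_left ?_ (hW0 q q')
  have h1 := sum_mul_sq_le_sq_mul_sq (univ : Finset (P × P))
    (fun p => N q q' p.1 p.2) (fun p => g (p.1, q) * h (p.2, q'))
  rw [Fintype.sum_prod_type, Fintype.sum_prod_type, Fintype.sum_prod_type] at h1
  simp_rw [mul_pow] at h1
  rw [← sum_mul_sum] at h1
  rw [← Real.sqrt_mul (sum_nonneg fun _ _ => sq_nonneg _), ← Real.sqrt_mul hc]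
  apply Real.le_sqrt_of_sq_le
  exact h1.trans (mul_le_mul_of_nonneg_right (hN q q') (by positivity))

theorem KOB.norm_le {M : X → Y → ℝ} {c : ℝ} (hM : KOB M c) (F : X → ℂ) (f : Y → ℂ)
    (h : ∀ x, ‖F x‖ ≤ ∑ y, M x y * ‖f y‖) (hc : 0 ≤ c) :
    ∑ x, ‖F x‖ ^ 2 ≤ c ^ 2 * ∑ y, ‖f y‖ ^ 2 := by
  have h1 := hM (fun x => ‖F x‖) (fun y => ‖f y‖) (fun _ => norm_nonneg _) (fun _ => norm_nonneg _)
  have h2 : ∑ x, ‖F x‖ ^ 2 ≤ ∑ x, ∑ y, M x y * (‖F x‖ * ‖f y‖) := by
    refine sum_le_sum fun x _ => ?_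
    simp_rw [mul_left_comm (M x _)]
    rw [← mul_sum, sq]
    exact mul_le_mul_of_nonneg_left (h x) (norm_nonneg _)
  set a := √(∑ x, ‖F x‖ ^ 2) with ha
  set b := √(∑ y, ‖f y‖ ^ 2) with hb
  have ha2 : a ^ 2 = ∑ x, ‖F x‖ ^ 2 := Real.sq_sqrt (sum_nonneg fun _ _ => sq_nonneg _)
  have hb2 : b ^ 2 = ∑ y, ‖f y‖ ^ 2 := Real.sq_sqrt (sum_nonneg fun _ _ => sq_nonneg _)
  have h2' := h2.trans h1
  rw [← ha2] at h2' ⊢
  rw [← hb2]
  have ha0 : 0 ≤ a := Real.sqrt_nonneg _
  have hb0 : 0 ≤ b := Real.sqrt_nonneg _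
  have h3 : a ≤ c * b := by
    rcases ha0.eq_or_lt with h0 | h0
    · rw [← h0]; positivity
    · have : a * a ≤ a * (c * b) := by nlinarith
      exact le_of_mul_le_mul_left this h0
  rw [← mul_pow]
  gcongr

end OB

variable {d k : ℕ}

theorem kerA_congr (S : Finset (Fin k)) {x y x' y' : Fin k → Fin d → Bool}
    (hx : ∀ a ∈ S, x a = x' a) (hy : ∀ a ∈ S, y a = y' a) : ker S x y = ker S x' y' := by
  have hv : Valid S x y ↔ Valid S x' y' := by
    unfold Valid
    refine forall_congr' fun s => forall₂_congr fun a ha => forall₂_congr fun b hb => ?_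
    rw [hx a ha, hx b hb, hy a ha, hy b hb]
  have hi : ∀ s, (S.image fun a => loc s (x a) (y a)) = S.image fun a => loc s (x' a) (y' a) :=
    fun s => image_congr fun a ha => by simp only [hx a ha, hy a ha]
  unfold ker
  simp only [hv, hi]

theorem kerA_noninj (hd : 1 ≤ d) (x y : Fin k → Fin d → Bool) (hx : ¬ Function.Injective x) :
    ker univ x y = 0 := by
  unfold ker
  rw [if_neg]
  intro hv
  apply hx
  intro a b hab
  by_contra hne
  refine (hv ⟨0, hd⟩ a (mem_univ _) b (mem_univ _) hne ?_).1 (by rw [hab])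
  funext j
  simp only [loc, hab]
  rw [if_neg (by simp [Fin.lt_def]), if_neg (show ¬ j < (⟨0, hd⟩ : Fin d) by simp [Fin.lt_def])]

theorem kerA_mean (S : Finset (Fin k)) (a : Fin k) (ha : a ∉ S) (x : Fin k → Fin d → Bool)
    (f : (Fin k → Fin d → Bool) → ℂ) (hmean : ∀ y a, ∑ z, f (Function.update y a z) = 0) :
    ∑ y, (ker S x y : ℂ) * f y = 0 := by
  have hinv : Function.Involutive fun p : (Fin k → Fin d → Bool) × (Fin d → Bool) =>
      (Function.update p.1 a p.2, p.1 a) := by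
    rintro ⟨y, z⟩
    simp
  have h1 := Equiv.sum_comp hinv.toPerm (fun p => (ker S x p.1 : ℂ) * f p.1)
  simp only [Function.Involutive.coe_toPerm, Fintype.sum_prod_type] at h1
  have h2 : ∀ y z, ker S x (Function.update y a z) = ker S x y := fun y z =>
    kerA_congr S (fun _ _ => rfl) fun b hb =>
      Function.update_of_ne (by rintro rfl; exact ha hb) _ _
  have h3 : ∀ y, ∑ z, (ker S x (Function.update y a z) : ℂ) * f (Function.update y a z) = 0 := by
    intro y
    simp_rw [h2, ← mul_sum, hmean, mul_zero]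
  simp_rw [h3, sum_const_zero, sum_const, nsmul_eq_mul, ← mul_sum] at h1
  exact (mul_eq_zero.1 h1.symm).resolve_left (Nat.cast_ne_zero.2 (card_pos.2 univ_nonempty).ne')

theorem kerA_insert (S : Finset (Fin k)) (a : Fin k) (ha : a ∉ S) (x y : Fin k → Fin d → Bool)
    (hc : ∀ s b, ¬ Coll x y s a b) : ker (insert a S) x y = ker S x y := by
  have hne : ∀ s, ∀ b ∈ S, loc s (x a) (y a) ≠ loc s (x b) (y b) := fun s b hb h =>
    hc s b ⟨by rintro rfl; exact ha hb, h⟩
  have hv : Valid (insert a S) x y ↔ Valid S x y := by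
    constructor
    · intro h s b hb b' hb'
      exact h s b (mem_insert_of_mem hb) b' (mem_insert_of_mem hb')
    · intro h s b hb b' hb' hbb hl
      rcases mem_insert.1 hb with rfl | hb1
      · exact absurd ⟨hbb, hl⟩ (hc s b')
      rcases mem_insert.1 hb' with rfl | hb2
      · exact absurd hl.symm (hne s b hb1)
      exact h s b hb1 b' hb2 hbb hl
  have hi : ∀ s, ((insert a S).image fun a => loc s (x a) (y a)).card =
      (S.image fun a => loc s (x a) (y a)).card + 1 := by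
    intro s
    rw [image_insert, card_insert_of_notMem]
    simp only [mem_image, not_exists, not_and]
    exact fun b hb h => hne s b hb h.symm
  have hk : (insert a S).card ≤ k := by simpa using card_le_univ (insert a S)
  rw [card_insert_of_notMem ha] at hk
  unfold ker
  simp only [hv, hi, card_insert_of_notMem ha, pow_succ, prod_mul_distrib, prod_const, card_univ,
    Fintype.card_fin]
  split_ifs
  · rw [show k - S.card = k - (S.card + 1) + 1 by omega, pow_succ, one_div_pow]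
    ring
  · rfl

theorem kerA_cancel (a : Fin k) (x y : Fin k → Fin d → Bool) (hc : ∀ s b, ¬ Coll x y s a b) :
    ∑ S : Finset (Fin k), (-1 : ℝ) ^ (k - S.card) * ker S x y = 0 := by
  rw [← powerset_univ, ← insert_erase (mem_univ a), sum_powerset_insert (notMem_erase a _),
    ← sum_add_distrib]
  refine sum_eq_zero fun S hS => ?_
  have ha : a ∉ S := fun h => notMem_erase a _ (mem_powerset.1 hS h)
  have hk : (insert a S).card ≤ k := by simpa using card_le_univ (insert a S)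
  rw [card_insert_of_notMem ha] at hk
  rw [kerA_insert S a ha x y hc, card_insert_of_notMem ha,
    show k - S.card = k - (S.card + 1) + 1 by omega, pow_succ]
  ring

theorem kerA_rank_inj : Function.Injective (rank (d := d)) := by
  intro z w h
  have key : ∀ z : Fin d → Bool, rank z =
      ∑ i ∈ (univ.filter fun j => z j = true).map Fin.valEmbedding, 2 ^ i := by
    intro z
    rw [sum_map, rank, sum_filter]
    rfl
  rw [key, key] at h
  have h2 := Finset.geomSum_injective (n := 2) le_rfl h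
  have h3 := map_injective _ h2
  funext j
  have := congrArg (j ∈ ·) h3
  simpa using this

theorem kerA_indep (r : Fin k → Fin k → Prop) (hs : ∀ a b, r a b → r b a)
    (hi : ∀ a b, r a b → a ≠ b) (hr : ∀ a, ∃ b, r a b) :
    ∃ I : Finset (Fin k), ∀ a, ∃ b, r a b ∧ (a ∈ I ↔ b ∉ I) := by
  classical
  obtain ⟨I, hI, hmax⟩ := exists_max_image
    (univ.filter fun I : Finset (Fin k) => ∀ a ∈ I, ∀ b ∈ I, ¬ r a b) card ⟨∅, by simp⟩
  rw [mem_filter] at hI
  refine ⟨I, fun a => ?_⟩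
  by_cases ha : a ∈ I
  · obtain ⟨b, hb⟩ := hr a
    exact ⟨b, hb, iff_of_true ha fun h => hI.2 a ha b h hb⟩
  · by_contra hcon
    push Not at hcon
    have h1 : ∀ b ∈ I, ¬ r a b := fun b hb h => by
      rcases hcon b h with h | h
      · exact ha h.1
      · exact h.2 hb
    have := hmax (insert a I) (by
      rw [mem_filter]
      refine ⟨mem_univ _, fun b hb c hc h => ?_⟩
      rcases mem_insert.1 hb with rfl | hb1
      · rcases mem_insert.1 hc with rfl | hc1
        · exact hi _ _ h rfl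
        · exact h1 c hc1 h
      · rcases mem_insert.1 hc with rfl | hc1
        · exact h1 b hb1 (hs _ _ h)
        · exact hI.2 b hb1 c hc1 h)
    rw [card_insert_of_notMem ha] at this
    omega

theorem kerA_loc_count (s : Fin d) (w : Fin d → Bool) :
    #{p : (Fin d → Bool) × (Fin d → Bool) | loc s p.1 p.2 = w} ≤ 2 * 2 ^ d := by
  have := card_le_card_of_injOn
    (s := ({p : (Fin d → Bool) × (Fin d → Bool) | loc s p.1 p.2 = w} : Finset _))
    (t := (univ : Finset (Bool × (Fin d → Bool))))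
    (fun p => (p.2 s, fun j => if j ≤ s then p.1 j else p.2 j)) (fun _ _ => mem_coe.2 (mem_univ _))
    (by
      rintro ⟨u, v⟩ hp ⟨u', v'⟩ hq h
      simp only [coe_filter, mem_univ, true_and, Set.mem_ofPred_eq] at hp hq
      simp only [Prod.mk.injEq] at h ⊢
      have h1 := fun j => congrFun (hp.trans hq.symm) j
      have h2 := fun j => congrFun h.2 j
      simp only [loc] at h1
      constructor
      · funext j
        by_cases hj : j ≤ s
        · simpa [hj] using h2 j
        · have := h1 j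
          rwa [if_neg (by omega), if_pos (by omega), if_neg (by omega), if_pos (by omega)] at this
      · funext j
        rcases lt_trichotomy j s with hj | rfl | hj
        · simpa [hj] using h1 j
        · exact h.1
        · simpa [hj.not_ge] using h2 j)
  simpa using this

theorem kerA_dense_count {β : Type*} [DecidableEq β] (r : Fin k → β) (T : ℝ) :
    (#(image r {a | T < #{b | r b = r a}}) : ℝ) * T ≤ k := by
  set Im := image r {a | T < #{b | r b = r a}} with hIm
  have h1 := card_eq_sum_card_fiberwise (s := univ.filter fun b => r b ∈ Im) (t := Im) (f := r)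
    (fun b hb => (mem_filter.1 hb).2)
  have h2 : #(univ.filter fun b => r b ∈ Im) ≤ k := by
    simpa using card_le_univ (univ.filter fun b => r b ∈ Im)
  have h3 : ∀ w ∈ Im, T ≤ (#{b ∈ univ.filter fun b => r b ∈ Im | r b = w} : ℝ) := by
    intro w hw
    obtain ⟨a, ha, rfl⟩ := mem_image.1 hw
    refine (mem_filter.1 ha).2.le.trans (Nat.cast_le.2 (card_le_card fun b hb => ?_))
    simp only [mem_filter, mem_univ, true_and] at hb ⊢
    exact ⟨hb ▸ hw, hb⟩
  calc (#Im : ℝ) * T = ∑ _w ∈ Im, T := by rw [sum_const, nsmul_eq_mul]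
    _ ≤ ∑ w ∈ Im, (#{b ∈ univ.filter fun b => r b ∈ Im | r b = w} : ℝ) := sum_le_sum h3
    _ = (#(univ.filter fun b => r b ∈ Im) : ℝ) := by rw [h1]; push_cast; rfl
    _ ≤ k := by exact_mod_cast h2

end Crest.Agent.R155
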