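import Crest.Agent.R155.Irr2

/-!
# Operator norms in irreducible representations
-/

set_option linter.unusedSectionVars false

namespace Crest.Agent.R155

open scoped ComplexOrder MatrixOrder ComplexConjugate Matrix.Norms.L2Operator Matrix
open Finset GA

variable {G K : Type} [Group G] [Fintype G] [DecidableEq G] [Group K] [Fintype K] [DecidableEq K]

/-! ### operator norms -/

open Classical in
/-- The operator norm of `a` in the irreducible representation with character `χ`. -/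
noncomputable def opn (χ : G → ℂ) (a : GA G) : ℝ :=
  if h : IsIrr χ then ‖lift h.choose.ρ a‖ else 0

theorem op_exists_scalar (r : IrrRep G) {ι : Type} [Fintype ι] [DecidableEq ι]
    {π : G →* Matrix ι ι ℂ} (hπ : IsU π) {V : Matrix ι (Fin r.n) ℂ} (hV : V ≠ 0)
    (hint : ∀ g, π g * V = V * r.ρ g) : ∃ c : ℝ, 0 < c ∧ Vᴴ * V = (c : ℂ) • 1 := by
  obtain ⟨c, hc⟩ := r.irr (Vᴴ * V) (fun g => by
    rw [Matrix.mul_assoc, ← hint, ← Matrix.mul_assoc, i2_VH_mul hπ r hint, Matrix.mul_assoc])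
  have h1 := (Matrix.posSemidef_conjTranspose_mul_self V).diag_nonneg (i := ⟨0, r.pos⟩)
  rw [hc, Matrix.smul_apply, Matrix.one_apply_eq, smul_eq_mul, mul_one] at h1
  have h2 : c ≠ 0 := by
    rintro rfl
    rw [zero_smul] at hc
    exact hV (Matrix.conjTranspose_mul_self_eq_zero.1 hc)
  obtain ⟨h3, h4⟩ := Complex.nonneg_iff.1 h1
  have h5 : c = (c.re : ℂ) := Complex.ext rfl (by simp [← h4])
  refine ⟨c.re, lt_of_le_of_ne h3 fun h => h2 (by rw [h5, ← h]; simp), by rw [← h5, hc]⟩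

theorem op_norm_one (r : IrrRep G) : ‖(1 : Matrix (Fin r.n) (Fin r.n) ℂ)‖ = 1 := by
  have : Nonempty (Fin r.n) := ⟨⟨0, r.pos⟩⟩
  exact norm_one

theorem op_norm_le_of_chr_eq (r s : IrrRep G) (h : r.chr = s.chr) (a : GA G) :
    ‖lift s.ρ a‖ ≤ ‖lift r.ρ a‖ := by
  obtain ⟨i, j, hij⟩ : ∃ (i : Fin r.n) (j : Fin s.n),
      (∑ g, r.ρ g * (Matrix.single i j (1 : ℂ) : Matrix (Fin r.n) (Fin s.n) ℂ) * s.ρ g⁻¹ :
        Matrix (Fin r.n) (Fin s.n) ℂ) i j ≠ 0 := by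
    by_contra hc
    push Not at hc
    have h1 := r.isIrr.orth s.isIrr
    rw [if_pos h] at h1
    apply i2_card_ne (G := G)
    rw [← h1]
    have h2 : ∀ i j, ∑ g, r.ρ g i i * s.ρ g⁻¹ j j = 0 := fun i j => by
      rw [← hc i j, Matrix.sum_apply]
      refine sum_congr rfl fun g _ => ?_
      simp [Matrix.mul_apply, Matrix.single_apply, ite_and]
    simp only [IrrRep.chr, Matrix.trace, Matrix.diag_apply, sum_mul_sum]
    rw [sum_comm]
    refine sum_eq_zero fun i _ => ?_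
    rw [sum_comm]
    exact sum_eq_zero fun j _ => h2 i j
  set B : Matrix (Fin r.n) (Fin s.n) ℂ :=
    ∑ g, r.ρ g * (Matrix.single i j (1 : ℂ) : Matrix (Fin r.n) (Fin s.n) ℂ) * s.ρ g⁻¹ with hB
  have hB0 : B ≠ 0 := fun h0 => hij (by rw [h0]; rfl)
  have hint : ∀ g, r.ρ g * B = B * s.ρ g := fun k => by
    rw [hB, Matrix.sum_mul, Matrix.mul_sum]
    refine Fintype.sum_equiv (Equiv.mulLeft k) _ _ fun g => ?_
    simp only [Equiv.coe_mulLeft, mul_inv_rev, map_mul, Matrix.mul_assoc]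
    rw [← map_mul s.ρ k⁻¹, inv_mul_cancel, map_one, Matrix.mul_one]
  obtain ⟨c, hc, hcB⟩ := op_exists_scalar s r.unit hB0 hint
  have h1 : (c : ℂ) • lift s.ρ a = Bᴴ * lift r.ρ a * B := by
    rw [Matrix.mul_assoc, i2_lift_mul_V s hint, ← Matrix.mul_assoc, hcB, Matrix.smul_mul,
      Matrix.one_mul]
  have h2 : ‖B‖ * ‖B‖ = c := by
    rw [← Matrix.l2_opNorm_conjTranspose_mul_self, hcB, norm_smul, op_norm_one]
    simp [hc.le]
  have h3 : ‖Bᴴ * lift r.ρ a * B‖ ≤ ‖B‖ * ‖lift r.ρ a‖ * ‖B‖ := by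
    refine (Matrix.l2_opNorm_mul _ _).trans (mul_le_mul_of_nonneg_right ?_ (norm_nonneg _))
    refine (Matrix.l2_opNorm_mul _ _).trans (le_of_eq ?_)
    rw [Matrix.l2_opNorm_conjTranspose]
  rw [← h1, norm_smul, Complex.norm_real, Real.norm_of_nonneg hc.le] at h3
  have h4 : c * ‖lift s.ρ a‖ ≤ c * ‖lift r.ρ a‖ := by
    refine h3.trans (le_of_eq ?_)
    rw [← h2]; ring
  exact le_of_mul_le_mul_left h4 hc

theorem op_not_irr {χ : G → ℂ} (h : ¬ IsIrr χ) (a : GA G) : opn χ a = 0 := by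
  rw [opn, dif_neg h]

theorem op_algebraMap {ι : Type} [Fintype ι] [DecidableEq ι] (c : ℝ) :
    algebraMap ℝ (Matrix ι ι ℂ) c = (c : ℂ) • 1 := by
  rw [Algebra.algebraMap_eq_smul_one]
  ext i j
  simp

theorem IrrRep.opn_eq (r : IrrRep G) (a : GA G) : opn r.chr a = ‖lift r.ρ a‖ := by
  rw [opn, dif_pos r.isIrr]
  have h := r.isIrr.choose_spec
  exact le_antisymm (op_norm_le_of_chr_eq r _ h.symm a) (op_norm_le_of_chr_eq _ r h a)

theorem opn_nonneg (χ : G → ℂ) (a : GA G) : 0 ≤ opn χ a := by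
  by_cases h : IsIrr χ
  · obtain ⟨r, rfl⟩ := h
    rw [r.opn_eq]; exact norm_nonneg _
  · rw [op_not_irr h]

theorem opn_mul_le (χ : G → ℂ) (a b : GA G) : opn χ (a * b) ≤ opn χ a * opn χ b := by
  by_cases h : IsIrr χ
  · obtain ⟨r, rfl⟩ := h
    simp only [r.opn_eq, map_mul]
    exact norm_mul_le _ _
  · simp [op_not_irr h]

theorem opn_pow_le (χ : G → ℂ) (a : GA G) (n : ℕ) : opn χ (a ^ n) ≤ opn χ a ^ n := by
  induction n with
  | zero =>
    by_cases h : IsIrr χ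
    · obtain ⟨r, rfl⟩ := h
      rw [pow_zero, pow_zero, r.opn_eq, map_one, op_norm_one]
    · simp [op_not_irr h]
  | succ n ih =>
    rw [pow_succ, pow_succ]
    exact (opn_mul_le χ _ _).trans (mul_le_mul_of_nonneg_right ih (opn_nonneg χ a))

theorem opn_star (χ : G → ℂ) (a : GA G) : opn χ (star a) = opn χ a := by
  by_cases h : IsIrr χ
  · obtain ⟨r, rfl⟩ := h
    rw [r.opn_eq, r.opn_eq, lift_star r.unit, norm_star]
  · simp [op_not_irr h]

theorem IsIrr.opn_pow_four_le {χ : G → ℂ} (hχ : IsIrr χ) (a : GA G) :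
    opn χ a ^ 4 ≤ (ev χ ((star a * a) ^ 2)).re := by
  obtain ⟨r, rfl⟩ := hχ
  rw [r.opn_eq, r.ev_chr, map_pow, map_mul, lift_star r.unit]
  set x := lift r.ρ a with hx
  have h1 : star (star x * x) = star x * x := by simp
  have h2 : (star x * x) ^ 2 = star (star x * x) * (star x * x) := by rw [h1, sq]
  have h3 : (0 : Matrix (Fin r.n) (Fin r.n) ℂ) ≤ (star x * x) ^ 2 := by
    rw [h2]; exact star_mul_self_nonneg _
  have h4 : ‖(star x * x) ^ 2‖ = ‖x‖ ^ 4 := by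
    rw [h2, CStarRing.norm_star_mul_self, CStarRing.norm_star_mul_self]; ring
  have h5 := (Matrix.nonneg_iff_posSemidef.1 h3).trace_nonneg
  obtain ⟨h6, h7⟩ := Complex.nonneg_iff.1 h5
  rw [← h4, CStarAlgebra.norm_le_iff_le_algebraMap _ h6 h3, op_algebraMap]
  have h8 : ((((star x * x) ^ 2).trace.re : ℝ) : ℂ) = ((star x * x) ^ 2).trace :=
    Complex.ext rfl (by simp [← h7])
  rw [h8]
  exact i2_le_trace_smul_one h3

theorem IsIrr.ev_star_mul_le {χ : G → ℂ} (hχ : IsIrr χ) (a : GA G) :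
    (ev χ (star a * a)).re ≤ dim χ * opn χ a ^ 2 := by
  obtain ⟨r, rfl⟩ := hχ
  rw [r.opn_eq, r.ev_chr, map_mul, lift_star r.unit, r.dim_chr]
  have h1 := CStarAlgebra.star_mul_le_algebraMap_norm_sq (a := lift r.ρ a)
  rw [op_algebraMap, ← sub_nonneg] at h1
  have h2 := (Complex.nonneg_iff.1 (Matrix.nonneg_iff_posSemidef.1 h1).trace_nonneg).1
  rw [Matrix.trace_sub, Matrix.trace_smul, Matrix.trace_one, Fintype.card_fin, smul_eq_mul,
    Complex.sub_re, Complex.re_ofReal_mul, Complex.natCast_re] at h2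
  linarith

theorem IsIrr.opn_mul_cen {χ : G → ℂ} (hχ : IsIrr χ) (a : GA G) (f : (G → ℂ) → ℂ) :
    opn χ (a * cen f) = ‖f χ‖ * opn χ a := by
  obtain ⟨r, rfl⟩ := hχ
  rw [r.opn_eq, r.opn_eq, map_mul, r.lift_cen, mul_smul_comm, mul_one, norm_smul]

theorem star_mul_le_of_opn {a : GA G} {c : ℝ} (h : ∀ χ, IsIrr χ → opn χ a ≤ c) :
    star a * a ≤ ((c ^ 2 : ℝ) : ℂ) • 1 := by
  refine le_of_forall_irr fun r => ?_
  have h1 := h _ r.isIrr
  rw [r.opn_eq] at h1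
  rw [map_mul, lift_star r.unit, map_smul, map_one]
  refine CStarAlgebra.star_mul_le_algebraMap_norm_sq.trans ?_
  rw [op_algebraMap, ← sub_nonneg, ← sub_smul, Matrix.nonneg_iff_posSemidef]
  refine Matrix.PosSemidef.one.smul ?_
  rw [← Complex.ofReal_sub]
  exact_mod_cast sub_nonneg.2 (pow_le_pow_left₀ (norm_nonneg _) h1 2)

theorem opn_le_of_star_mul_le {a : GA G} {c : ℝ} (hc : 0 ≤ c)
    (h : star a * a ≤ ((c ^ 2 : ℝ) : ℂ) • 1) (χ : G → ℂ) : opn χ a ≤ c := by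
  by_cases hχ : IsIrr χ
  · obtain ⟨r, rfl⟩ := hχ
    have h1 := lift_mono r.unit h
    rw [map_mul, lift_star r.unit, map_smul, map_one, ← op_algebraMap,
      ← CStarAlgebra.norm_le_iff_le_algebraMap _ (sq_nonneg c) (star_mul_self_nonneg _),
      CStarRing.norm_star_mul_self, ← sq] at h1
    rw [r.opn_eq]
    exact (pow_le_pow_iff_left₀ (norm_nonneg _) hc two_ne_zero).1 h1
  · rwa [op_not_irr hχ]

theorem opn_le_one {a : GA G} (h : star a * a ≤ 1) (χ : G → ℂ) : opn χ a ≤ 1 := by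
  refine opn_le_of_star_mul_le zero_le_one ?_ χ
  simpa using h

/-- Bounding the norm in an irreducible representation through an embedding. -/
theorem IrrRep.opn_le_of_intertwiner (r : IrrRep G) {ι : Type} [Fintype ι] [DecidableEq ι]
    {π : G →* Matrix ι ι ℂ} (hπ : IsU π) {V : Matrix ι (Fin r.n) ℂ} (hV : V ≠ 0)
    (hint : ∀ g, π g * V = V * r.ρ g) (a : GA G) {c : ℝ} (hc : 0 ≤ c)
    (h : ∀ w : Fin r.n → ℂ, ∑ x, ‖(lift π a).mulVec (V.mulVec w) x‖ ^ 2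
      ≤ c ^ 2 * ∑ x, ‖V.mulVec w x‖ ^ 2) : opn r.chr a ≤ c := by
  obtain ⟨d, hd, hdV⟩ := op_exists_scalar r hπ hV hint
  have h1 : ∀ w : Fin r.n → ℂ, ∑ x, ‖V.mulVec w x‖ ^ 2 = d * ∑ x, ‖w x‖ ^ 2 := fun w => by
    have h2 : star (V.mulVec w) ⬝ᵥ V.mulVec w = (d : ℂ) * (star w ⬝ᵥ w) := by
      rw [Matrix.star_mulVec, Matrix.dotProduct_mulVec, Matrix.vecMul_vecMul, hdV,
        Matrix.vecMul_smul, Matrix.vecMul_one, smul_dotProduct, smul_eq_mul]
    simp only [dotProduct, Pi.star_apply, Complex.star_def, Complex.conj_mul'] at h2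
    exact_mod_cast h2
  rw [r.opn_eq, Matrix.cstar_norm_def]
  refine ContinuousLinearMap.opNorm_le_bound _ hc fun w => ?_
  have h3 := h w.ofLp
  rw [Matrix.mulVec_mulVec, i2_lift_mul_V r hint, ← Matrix.mulVec_mulVec, h1, h1] at h3
  have h4 : ∑ x, ‖(lift r.ρ a).mulVec w.ofLp x‖ ^ 2 ≤ c ^ 2 * ∑ x, ‖w.ofLp x‖ ^ 2 := by
    refine le_of_mul_le_mul_left (h3.trans (le_of_eq ?_)) hd
    ring
  refine (pow_le_pow_iff_left₀ (norm_nonneg _) (by positivity) two_ne_zero).1 ?_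
  rw [mul_pow, EuclideanSpace.norm_sq_eq, EuclideanSpace.norm_sq_eq]
  exact h4

theorem opn_comp_equiv (e : K ≃* G) {χ : G → ℂ} (hχ : IsIrr χ) (a : GA K) :
    opn χ (push e.toMonoidHom a) = opn (χ ∘ e) a := by
  obtain ⟨r, rfl⟩ := hχ
  let s : IrrRep K := ⟨r.n, r.ρ.comp e.toMonoidHom, isU_comp r.unit _, r.pos, fun A hA =>
    r.irr A fun g => by simpa using hA (e.symm g)⟩
  have h1 : r.chr ∘ e = s.chr := rfl
  rw [h1, s.opn_eq, r.opn_eq, lift_push]

end Crest.Agent.R155
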