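import Crest.Agent.R155.StepF

/-!
# The recursion step
-/

set_option linter.unusedSectionVars false

namespace Crest.Agent.R155

open scoped ComplexOrder MatrixOrder ComplexConjugate Matrix.Norms.L2Operator Matrix
open Finset GA Equiv

variable {ι β : Type} [Fintype ι] [DecidableEq ι] [Fintype β] [DecidableEq β] {q : ℕ}

theorem sum_trS_Mop (u : ℕ) (F : GA (Perm ι)) (f : ∀ p : Pat ι, (patGrp p → ℂ) → ℂ) :
    ∑ S with S.card = u, trS S F (Mop q f) = ∑ p with nStar p = u, Gp q f F p := by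
  simp only [trS_Mop]
  rw [sum_comm, sum_filter]
  refine sum_congr rfl fun p _ => ?_
  rw [sum_ite_eq]
  simp [card_starSet]

theorem child_le (hq : 1 ≤ q) {x : GA (Perm β)} {j : ℕ} {B : ℝ} (hB : 0 ≤ B) (h : Hyp q j B x)
    (v : ℕ) : (v.factorial : ℝ) * ∑ S with S.card = v, (trS S ((star x * x) ^ 2) (Mop q (wEq j))).re
      ≤ ((Fintype.card β : ℝ) + 1) ^ (12 * q ^ 2) * ((v.factorial : ℝ) ^ (9 / 20 : ℝ) * B) := by
  have hinv : Inv (wEq j : ∀ p : Pat β, (patGrp p → ℂ) → ℂ) := fun g p α _ => by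
    simp only [wEq, keff_tr, dtil_tr]
  have h1 := sum_Gp_nStar (q := q) hinv ((star x * x) ^ 2) v
  rw [← sum_trS_Mop] at h1
  have h2 := congrArg Complex.re h1
  rw [← Complex.ofReal_natCast, Complex.re_ofReal_mul, Complex.re_sum] at h2
  rw [h2, Complex.re_sum]
  have h3 := trace_Zp_neg_one_le (ι := β) hq
  rw [trace_Zp_neg_one_eq, Complex.re_sum] at h3
  have hc : 0 ≤ (v.factorial : ℝ) ^ (9 / 20 : ℝ) * B := by positivity
  refine le_trans ?_ (mul_le_mul_of_nonneg_right h3 hc)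
  have key : ∀ p : Pat β, ∀ α ∈ Irr (patGrp p), ∃ n : ℕ, mlt q p α = n ∧
      (nStar p = v → (mlt q p α * wEq j p α * indP p α ((star x * x) ^ 2)).re
        ≤ n * ((v.factorial : ℝ) ^ (9 / 20 : ℝ) * B)) := by
    intro p α hα
    have hα := mem_Irr.1 hα
    obtain ⟨n, hn⟩ := exists_mlt_eq_nat (q := q) p hα
    refine ⟨n, hn, fun hv => ?_⟩
    by_cases h0 : n = 0
    · simp [hn, h0]
    have hadm := (mlt_ne_zero_iff hq p hα).1 (by rw [hn]; exact_mod_cast h0)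
    rw [hn, mul_assoc, ← Complex.ofReal_natCast, Complex.re_ofReal_mul]
    refine mul_le_mul_of_nonneg_left ?_ (by positivity)
    unfold wEq
    split_ifs with hk
    · rw [Complex.re_ofReal_mul, ← hv]
      exact h p α hα hadm ((keffLe_iff hα).2 hk.le)
    · simpa using hc
  choose! n hn using key
  rw [sum_mul, sum_filter]
  refine sum_le_sum fun p _ => ?_
  have e1 : (∑ α ∈ Irr (patGrp p), mlt q p α / ((patOrb p).card : ℂ)).re
      = ((patOrb p).card : ℝ)⁻¹ * ∑ α ∈ Irr (patGrp p), (n p α : ℝ) := by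
    rw [Complex.re_sum, mul_sum]
    refine sum_congr rfl fun α hα => ?_
    rw [(hn p α hα).1, ← Complex.ofReal_natCast, ← Complex.ofReal_natCast, ← Complex.ofReal_div,
      Complex.ofReal_re, div_eq_inv_mul]
  rw [e1]
  split_ifs with hv
  · rw [← Complex.ofReal_natCast, ← Complex.ofReal_inv, Complex.re_ofReal_mul, Complex.re_sum,
      mul_assoc, sum_mul]
    exact mul_le_mul_of_nonneg_left (sum_le_sum fun α hα => (hn p α hα).2 hv) (by positivity)
  · positivity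

theorem parent_le (hq : 1 ≤ q) {p : Pat ι} {α : patGrp p → ℂ} (hα : IsIrr α) (ha : Adm q p α)
    {k : ℕ} (hk : KeffLe p α k) {F : GA (Perm ι)}
    (hF : ∀ α' : patGrp p → ℂ, IsIrr α' → 0 ≤ indP p α' F)
    [∀ (p' : Pat ι) α', Decidable (p' ∈ patOrb p ∧ KeffLe p' α' k)] :
    ((dtil p α ^ (1 / 16 : ℝ) : ℝ) : ℂ) * indP p α F ≤ ((nStar p).factorial : ℂ)
      * ∑ S with S.card = nStar p, trS S F (Mop q fun p' α' =>
          if p' ∈ patOrb p ∧ KeffLe p' α' k then ((dtil p' α' ^ (1 / 16 : ℝ) : ℝ) : ℂ) else 0) := by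
  set f : ∀ p' : Pat ι, (patGrp p' → ℂ) → ℂ := fun p' α' =>
    if p' ∈ patOrb p ∧ KeffLe p' α' k then ((dtil p' α' ^ (1 / 16 : ℝ) : ℝ) : ℂ) else 0 with hf
  have hinv : Inv f := fun g p' α' _ => by
    simp only [hf, mem_patOrb_comp, keffLe_tr, dtil_tr]
  have h1 : ∑ p' with nStar p' = nStar p, Gp q f F p' = ∑ p' ∈ patOrb p, Gp q f F p' := by
    refine (sum_subset (fun p' hp' => ?_) fun p' _ hp' => ?_).symm
    · simp [nStar_of_mem_patOrb hp']
    · exact sum_eq_zero fun α' _ => by simp [hf, hp']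
  rw [sum_trS_Mop, h1, sum_Gp_orb hinv]
  have hf0 : ∀ α', IsIrr α' → 0 ≤ f p α' := fun α' hα' => by
    simp only [hf]
    split_ifs
    · exact_mod_cast Real.rpow_nonneg (dtil_pos hα').le _
    · exact le_rfl
  refine le_trans ?_ (single_le_sum (f := fun α' => mlt q p α' * f p α' * indP p α' F)
    (fun α' hα' => ?_) (mem_Irr.2 hα))
  · obtain ⟨n, hn⟩ := exists_mlt_eq_nat (q := q) p hα
    have h0 : n ≠ 0 := fun h => (mlt_ne_zero_iff hq p hα).2 ha (by rw [hn, h]; simp)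
    have h2 : f p α = ((dtil p α ^ (1 / 16 : ℝ) : ℝ) : ℂ) := if_pos ⟨self_mem_patOrb p, hk⟩
    have h3 := mul_nonneg (hf0 α hα) (hF α hα)
    have h4 : (1 : ℂ) ≤ n := by exact_mod_cast Nat.one_le_iff_ne_zero.2 h0
    have h5 := mul_le_mul_of_nonneg_right h4 h3
    simp only [hn]
    rw [one_mul, ← mul_assoc] at h5
    rwa [← h2]
  · have hα' := mem_Irr.1 hα'
    obtain ⟨n, hn⟩ := exists_mlt_eq_nat (q := q) p hα'
    exact mul_nonneg (mul_nonneg (by rw [hn]; positivity) (hf0 α' hα')) (hF α' hα')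

theorem sum_rowOf_le {κ : Type} [Fintype κ] [DecidableEq κ] (t : κ → Finset β → ℝ) (u : ℕ) :
    ∑ S : Finset (κ × β) with S.card = u, ∏ i, t i (rowOf S i)
      = ∑ uu : κ → Fin (Fintype.card β + 1) with ∑ i, (uu i : ℕ) = u,
          ∏ i, ∑ S with S.card = (uu i : ℕ), t i S := by
  simp only [prod_univ_sum]
  rw [sum_sigma']
  refine sum_bij' (fun S _ => ⟨fun i => ⟨(rowOf S i).card, Nat.lt_succ_of_le (card_le_univ _)⟩,
    fun i => rowOf S i⟩) (fun z _ => univ.filter fun i => i.2 ∈ z.2 i.1) ?_ ?_ ?_ ?_ ?_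
  · intro S hS
    simpa [sum_card_rowOf] using hS
  · rintro ⟨uu, SS⟩ hz
    simp only [mem_sigma, mem_filter, mem_univ, true_and, Fintype.mem_piFinset] at hz ⊢
    rw [← sum_card_rowOf, ← hz.1]
    refine sum_congr rfl fun i _ => ?_
    rw [← hz.2 i]
    congr 1
    ext b; simp
  · intro S _
    ext ⟨i, b⟩; simp
  · rintro ⟨uu, SS⟩ hz
    simp only [mem_sigma, mem_filter, mem_univ, true_and, Fintype.mem_piFinset] at hz
    have h1 : ∀ i, rowOf (univ.filter fun i : κ × β => i.2 ∈ SS i.1) i = SS i := fun i => by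
      ext b; simp
    simp only [h1, Sigma.mk.injEq, heq_eq_eq, and_true]
    funext i
    exact Fin.ext (hz.2 i)
  · intro S _
    rfl

theorem factorial_le_pow_mul_prod (uu : K4 → ℕ) :
    (∑ i, uu i).factorial ≤ 4 ^ (∑ i, uu i) * ∏ i, (uu i).factorial := by
  rw [← Nat.multinomial_spec, mul_comm]
  refine Nat.mul_le_mul_right _ ?_
  have h := Finset.sum_pow_eq_sum_piAntidiag (univ : Finset K4) (fun _ => (1 : ℕ)) (∑ i, uu i)
  simp only [sum_const, card_univ, Fintype.card_fun, Fintype.card_bool, Fintype.card_fin,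
    smul_eq_mul, mul_one, one_pow, prod_const_one, Nat.cast_id] at h
  rw [show (4 : ℕ) = 2 ^ 2 by norm_num, h]
  exact single_le_sum (f := fun k => Nat.multinomial univ k) (fun _ _ => Nat.zero_le _)
    (by simp [mem_piAntidiag])

theorem multinomial_cost (uu : K4 → ℕ) :
    ((∑ i, uu i).factorial : ℝ) * (233 / 500) ^ (∑ i, uu i)
        * ∏ i, (((uu i).factorial : ℝ)⁻¹ * ((uu i).factorial : ℝ) ^ (9 / 20 : ℝ))
      ≤ ((∑ i, uu i).factorial : ℝ) ^ (9 / 20 : ℝ) := by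
  set u := ∑ i, uu i with hu
  set P : ℝ := ∏ i, ((uu i).factorial : ℝ) with hP
  have hP0 : 0 < P := prod_pos fun i _ => by positivity
  have hF0 : (0 : ℝ) < u.factorial := by positivity
  have h1 : (u.factorial : ℝ) ≤ 4 ^ u * P := by
    rw [hP]; exact_mod_cast factorial_le_pow_mul_prod uu
  rw [prod_mul_distrib, prod_inv_distrib, Real.finsetProd_rpow _ _ (fun i _ => by positivity), ← hP]
  have h2 : (233 / 500 : ℝ) * 4 ^ (11 / 20 : ℝ) ≤ 1 := by
    have : (4 : ℝ) ^ (11 / 20 : ℝ) ≤ 500 / 233 := by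
      rw [show (11 / 20 : ℝ) = (11 : ℕ) * ((20 : ℕ) : ℝ)⁻¹ by norm_num, Real.rpow_mul (by norm_num),
        Real.rpow_natCast, Real.rpow_inv_le_iff_of_pos (by positivity) (by positivity) (by norm_num),
        Real.rpow_natCast]
      norm_num
    linarith
  have h3 : (u.factorial : ℝ) ^ (11 / 20 : ℝ) ≤ (4 ^ (11 / 20 : ℝ)) ^ u * P ^ (11 / 20 : ℝ) := by
    refine (Real.rpow_le_rpow hF0.le h1 (by norm_num)).trans (le_of_eq ?_)
    rw [Real.mul_rpow (by positivity) hP0.le, ← Real.rpow_natCast, ← Real.rpow_mul (by norm_num),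
      mul_comm (u : ℝ), Real.rpow_mul (by norm_num), Real.rpow_natCast]
  have h4 : (u.factorial : ℝ) = u.factorial ^ (9 / 20 : ℝ) * u.factorial ^ (11 / 20 : ℝ) := by
    rw [← Real.rpow_add hF0]; norm_num
  have h5 : P⁻¹ * P ^ (9 / 20 : ℝ) * P ^ (11 / 20 : ℝ) = 1 := by
    rw [mul_assoc, ← Real.rpow_add hP0]
    norm_num [hP0.ne']
  have h6 : ((233 / 500 : ℝ) * 4 ^ (11 / 20 : ℝ)) ^ u ≤ 1 := pow_le_one₀ (by positivity) h2
  calc (u.factorial : ℝ) * (233 / 500) ^ u * (P⁻¹ * P ^ (9 / 20 : ℝ))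
      = u.factorial ^ (9 / 20 : ℝ) * (u.factorial ^ (11 / 20 : ℝ)
          * ((233 / 500) ^ u * (P⁻¹ * P ^ (9 / 20 : ℝ)))) := by
        conv_lhs => rw [h4]
        ring
    _ ≤ u.factorial ^ (9 / 20 : ℝ) * (((4 ^ (11 / 20 : ℝ)) ^ u * P ^ (11 / 20 : ℝ))
          * ((233 / 500) ^ u * (P⁻¹ * P ^ (9 / 20 : ℝ)))) := by gcongr
    _ = u.factorial ^ (9 / 20 : ℝ) * (((233 / 500 : ℝ) * 4 ^ (11 / 20 : ℝ)) ^ u
          * (P⁻¹ * P ^ (9 / 20 : ℝ) * P ^ (11 / 20 : ℝ))) := by rw [mul_pow]; ring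
    _ ≤ u.factorial ^ (9 / 20 : ℝ) * (1 * 1) := by rw [h5]; gcongr
    _ = _ := by ring

theorem step_prod {x : GA (Perm β)} {y : GA (Perm K4)}
    (hy : IsCol4 y) {k : ℕ} (hq : 1 ≤ q) {Bf : ℕ → ℝ} (hBf : ∀ j, 0 ≤ Bf j) {B : ℝ}
    (hx : ∀ j, j ≤ k → j ≤ Fintype.card β → Hyp q j (Bf j) x)
    (hB : ∀ kk : K4 → ℕ, (∀ i, kk i ≤ Fintype.card β) → ∑ i, kk i ≤ k → ∏ i, Bf (kk i) ≤ B) :
    Hyp q k (((Fintype.card (K4 × β) : ℝ) + 1) ^ (200 * q ^ 2) * B)
      (blockLift (Equiv.refl _) x * blockLift (Equiv.prodComm K4 β) y) := by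
  classical
  intro p α hα hadm hk
  have hB0 : 0 ≤ B := (prod_nonneg fun i _ => hBf _).trans (hB (fun _ => 0) (by simp) (by simp))
  set a := (star x * x) ^ 2 with ha
  set m := Fintype.card β with hm
  set u := nStar p with hu
  have sq0 : ∀ {G : Type} [Group G] [Fintype G] [DecidableEq G] (z : GA G),
      0 ≤ (star z * z) ^ 2 := fun z => by
    have := star_mul_self_nonneg (star z * z)
    rwa [star_mul, star_star, ← pow_two] at this
  have ha0 : 0 ≤ a := sq0 x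
  have hY0 : 0 ≤ (y * star y) ^ 2 := by simpa using sq0 (star y)
  set F := blockLift (Equiv.refl (K4 × β)) a * blockLift (Equiv.prodComm K4 β) ((y * star y) ^ 2)
    with hF
  have k1 := (isTr_indP hα).alt (blockLift (Equiv.refl (K4 × β)) x) (blockLift (Equiv.prodComm K4 β) y)
  rw [← blockLift_star, ← blockLift_star, ← blockLift_mul, ← blockLift_mul, ← blockLift_pow,
    ← blockLift_pow, ← ha, ← hF] at k1
  have k2 := parent_le hq hα hadm hk (F := F) fun α' hα' =>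
    (isTr_indP hα').mul_nonneg (blockLift_nonneg _ ha0) (blockLift_nonneg _ hY0)
  have k3 := fun S => trS_parent_le hq hy ha0 (k := k)
    (fun p' α' => p' ∈ patOrb p ∧ KeffLe p' α' k)
    (fun g p' α' _ => by simp only [mem_patOrb_comp, keffLe_tr]) (fun _ _ h => h.2) S
  have k4 := mul_le_mul_of_nonneg_left
    (sum_le_sum fun S (_ : S ∈ univ.filter fun S : Finset (K4 × β) => S.card = u) => k3 S)
    (show (0 : ℂ) ≤ (u.factorial : ℂ) by positivity)
  have hd0 : 0 ≤ dtil p α ^ (1 / 16 : ℝ) := Real.rpow_nonneg (dtil_pos hα).le _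
  have k5 := (Complex.le_def.1 ((mul_le_mul_of_nonneg_left k1
    (show (0 : ℂ) ≤ ((dtil p α ^ (1 / 16 : ℝ) : ℝ) : ℂ) by exact_mod_cast hd0)).trans
      (k2.trans k4))).1
  rw [Complex.re_ofReal_mul] at k5
  refine k5.trans ?_
  set t : ℕ → Finset β → ℝ := fun j S => (trS S a (Mop q (wEq j))).re with ht
  have ht0 : ∀ j S, 0 ≤ t j S := fun j S => (Complex.le_def.1 (trS_wEq_nonneg S ha0 j)).1
  have htc : ∀ j S, trS S a (Mop q (wEq j)) = (t j S : ℂ) := fun j S =>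
    Complex.ext rfl (by simpa using (Complex.le_def.1 (trS_wEq_nonneg S ha0 j)).2.symm)
  simp only [htc]
  rw [← Complex.ofReal_natCast]
  simp only [← Complex.ofReal_prod, ← Complex.ofReal_sum, ← Complex.ofReal_mul, Complex.ofReal_re]
  set L : ℝ := (m : ℝ) + 1 with hL
  have hL1 : 1 ≤ L := by rw [hL]; linarith [Nat.cast_nonneg (α := ℝ) m]
  have e1 : ∑ S : Finset (K4 × β) with S.card = u, L ^ (15 * q ^ 2) * (233 / 500) ^ S.card
        * ∑ kk ∈ goodKK K4 m k, ∏ i, t (kk i) (rowOf S i)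
      = L ^ (15 * q ^ 2) * (233 / 500) ^ u * ∑ kk ∈ goodKK K4 m k,
          ∑ uu : K4 → Fin (m + 1) with ∑ i, (uu i : ℕ) = u,
            ∏ i, ∑ S with S.card = (uu i : ℕ), t (kk i) S := by
    rw [sum_congr rfl fun (kk : K4 → Fin (m + 1)) _ => (sum_rowOf_le (fun i => t (kk i)) u).symm,
      sum_comm, mul_sum]
    exact sum_congr rfl fun S hS => by rw [(mem_filter.1 hS).2]
  rw [e1]
  have k6 : ∀ kk ∈ goodKK K4 m k, ∀ uu ∈ univ.filter fun uu : K4 → Fin (m + 1) =>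
      ∑ i, (uu i : ℕ) = u, (u.factorial : ℝ) * (233 / 500) ^ u
        * ∏ i, ∑ S with S.card = (uu i : ℕ), t (kk i) S
      ≤ L ^ (48 * q ^ 2) * ((u.factorial : ℝ) ^ (9 / 20 : ℝ) * B) := by
    intro kk hkk uu huu
    have hkk := (mem_filter.1 hkk).2
    have huu := (mem_filter.1 huu).2
    have h1 : ∀ i, ∑ S with S.card = (uu i : ℕ), t (kk i) S
        ≤ ((((uu i : ℕ).factorial : ℝ)⁻¹ * ((uu i : ℕ).factorial : ℝ) ^ (9 / 20 : ℝ))
          * Bf (kk i)) * L ^ (12 * q ^ 2) := fun i => by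
      have h2 := child_le hq (hBf (kk i)) (hx (kk i) ((single_le_sum (f := fun i => (kk i : ℕ))
        (fun _ _ => Nat.zero_le _) (mem_univ i)).trans hkk) (Nat.lt_succ_iff.1 (kk i).2)) (uu i)
      have h3 : (0 : ℝ) < (uu i : ℕ).factorial := by positivity
      rw [← le_div_iff₀' h3] at h2
      refine h2.trans (le_of_eq ?_)
      rw [hL, ← hm]
      field_simp
    have h4 := prod_le_prod (fun i (_ : i ∈ univ) => sum_nonneg fun S _ => ht0 (kk i) S)
      fun i _ => h1 i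
    rw [prod_mul_distrib, prod_mul_distrib, prod_const, card_univ, Fintype.card_fun,
      Fintype.card_bool, Fintype.card_fin, ← pow_mul] at h4
    have h5 := multinomial_cost fun i => (uu i : ℕ)
    rw [huu] at h5
    have h6 := hB (fun i => (kk i : ℕ)) (fun i => Nat.lt_succ_iff.1 (kk i).2) hkk
    have h7 : 0 ≤ ∏ i, Bf (kk i) := prod_nonneg fun i _ => hBf _
    refine (mul_le_mul_of_nonneg_left h4 (by positivity)).trans ?_
    rw [show 12 * q ^ 2 * 2 ^ 2 = 48 * q ^ 2 by ring, ← mul_assoc, ← mul_assoc, mul_comm]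
    gcongr
  have hcard : Fintype.card (K4 → Fin (m + 1)) = (m + 1) ^ 4 := by simp
  have k7 : (u.factorial : ℝ) * (233 / 500) ^ u * ∑ kk ∈ goodKK K4 m k,
        ∑ uu : K4 → Fin (m + 1) with ∑ i, (uu i : ℕ) = u,
          ∏ i, ∑ S with S.card = (uu i : ℕ), t (kk i) S
      ≤ L ^ 4 * (L ^ 4 * (L ^ (48 * q ^ 2) * ((u.factorial : ℝ) ^ (9 / 20 : ℝ) * B))) := by
    have hc : ∀ s : Finset (K4 → Fin (m + 1)), (s.card : ℝ) ≤ L ^ 4 := fun s => by
      have := card_le_univ s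
      rw [hcard] at this
      rw [hL]; exact_mod_cast this
    rw [mul_sum]
    refine (sum_le_card_nsmul _ _ (L ^ 4 * (L ^ (48 * q ^ 2)
      * ((u.factorial : ℝ) ^ (9 / 20 : ℝ) * B))) fun kk hkk => ?_).trans ?_
    · rw [mul_sum]
      refine (sum_le_card_nsmul _ _ _ (k6 kk hkk)).trans ?_
      rw [nsmul_eq_mul]
      exact mul_le_mul_of_nonneg_right (hc _) (by positivity)
    · rw [nsmul_eq_mul]
      exact mul_le_mul_of_nonneg_right (hc _) (by positivity)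
  have hLn : L ≤ (Fintype.card (K4 × β) : ℝ) + 1 := by
    rw [hL, Fintype.card_prod, ← hm]
    have : Fintype.card K4 = 4 := by simp
    rw [this]
    push_cast
    linarith [Nat.cast_nonneg (α := ℝ) m]
  have k8 : L ^ (15 * q ^ 2) * (L ^ 4 * (L ^ 4 * L ^ (48 * q ^ 2)))
      ≤ ((Fintype.card (K4 × β) : ℝ) + 1) ^ (200 * q ^ 2) := by
    rw [← pow_add, ← pow_add, ← pow_add]
    refine (pow_le_pow_right₀ hL1 (?_ : _ ≤ 200 * q ^ 2)).trans (pow_le_pow_left₀ (by positivity) hLn _)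
    have : 1 ≤ q ^ 2 := Nat.one_le_pow _ _ hq
    omega
  calc _ = L ^ (15 * q ^ 2) * ((u.factorial : ℝ) * (233 / 500) ^ u * ∑ kk ∈ goodKK K4 m k,
        ∑ uu : K4 → Fin (m + 1) with ∑ i, (uu i : ℕ) = u,
          ∏ i, ∑ S with S.card = (uu i : ℕ), t (kk i) S) := by ring
    _ ≤ L ^ (15 * q ^ 2)
        * (L ^ 4 * (L ^ 4 * (L ^ (48 * q ^ 2) * ((u.factorial : ℝ) ^ (9 / 20 : ℝ) * B)))) := by
      gcongr
    _ = (u.factorial : ℝ) ^ (9 / 20 : ℝ)
        * (L ^ (15 * q ^ 2) * (L ^ 4 * (L ^ 4 * L ^ (48 * q ^ 2))) * B) := by ring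
    _ ≤ _ := by gcongr

/-- The recursion step: four rows and two more directions. -/
theorem step (e : ι ≃ (Fin 2 → Bool) × β) {x : GA (Perm β)} {y : GA (Perm (Fin 2 → Bool))}
    (hy : IsCol4 y) {q k : ℕ} (hq : 1 ≤ q) {Bf : ℕ → ℝ} (hBf : ∀ j, 0 ≤ Bf j) {B : ℝ}
    (hx : ∀ j, j ≤ k → j ≤ Fintype.card β → Hyp q j (Bf j) x)
    (hB : ∀ kk : (Fin 2 → Bool) → ℕ, (∀ i, kk i ≤ Fintype.card β) → ∑ i, kk i ≤ k →
      ∏ i, Bf (kk i) ≤ B) :
    Hyp q k (((Fintype.card ι : ℝ) + 1) ^ (200 * q ^ 2) * B)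
      (blockLift e x * blockLift (e.trans (Equiv.prodComm _ _)) y) := by
  have := (step_prod hy hq hBf hx hB).relab e.symm
  rw [map_mul, relab_blockLift, relab_blockLift, ← Fintype.card_congr e] at this
  exact this

/-- The recursion step with the two new directions on the left. -/
theorem step' (e : ι ≃ (Fin 2 → Bool) × β) {x : GA (Perm β)} {y : GA (Perm (Fin 2 → Bool))}
    (hy : IsCol4 y) {q k : ℕ} (hq : 1 ≤ q) {Bf : ℕ → ℝ} (hBf : ∀ j, 0 ≤ Bf j) {B : ℝ}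
    (hx : ∀ j, j ≤ k → j ≤ Fintype.card β → Hyp q j (Bf j) x)
    (hB : ∀ kk : (Fin 2 → Bool) → ℕ, (∀ i, kk i ≤ Fintype.card β) → ∑ i, kk i ≤ k →
      ∏ i, Bf (kk i) ≤ B) :
    Hyp q k (((Fintype.card ι : ℝ) + 1) ^ (200 * q ^ 2) * B)
      (blockLift (e.trans (Equiv.prodComm _ _)) y * blockLift e x) := by
  have := (step e hy.star' hq hBf (fun j h1 h2 => (hx j h1 h2).star') hB).star'
  rwa [star_mul, blockLift_star, blockLift_star, star_star, star_star] at this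

end Crest.Agent.R155
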