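import Crest.Agent.R155.DeF

/-!
# The twisted permutation representation, star sets and the weighted trace
-/

set_option linter.unusedSectionVars false

namespace Crest.Agent.R155

open scoped ComplexOrder MatrixOrder ComplexConjugate Matrix.Norms.L2Operator Matrix
open Finset GA Equiv

variable {ι : Type} [Fintype ι] [DecidableEq ι]

/-- A fixed sign cocycle. -/
noncomputable def coc : Perm ι → Pat ι → ℂ := (exists_cocycle (ι := ι)).choose

theorem coc_mul (g h : Perm ι) (p : Pat ι) : coc (g * h) p = coc g (p ∘ h.symm) * coc h p :=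
  (exists_cocycle (ι := ι)).choose_spec.1 g h p

theorem coc_eq (g : Perm ι) (p : Pat ι) : coc g p = 1 ∨ coc g p = -1 :=
  (exists_cocycle (ι := ι)).choose_spec.2.1 g p

theorem coc_of_stab {g : Perm ι} {p : Pat ι} (h : p ∘ g.symm = p) : coc g p = patSgn p g :=
  (exists_cocycle (ι := ι)).choose_spec.2.2 g p h

theorem coc_one (p : Pat ι) : coc 1 p = 1 := by
  rw [coc_of_stab rfl, (isChar_patSgn p).one]

/-- The permutation representation on colourings twisted by the sign cocycle. -/
noncomputable def twRep (q : ℕ) : Perm ι →* Matrix (ι → Col q) (ι → Col q) ℂ where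
  toFun g := Matrix.of fun c c' => if c ∘ g = c' then coc g (patOf c') else 0
  map_one' := by ext c c'; simp [Matrix.one_apply, coc_one]
  map_mul' g h := by
    ext c c'
    simp only [Matrix.mul_apply, Matrix.of_apply, ite_mul, zero_mul, sum_ite_eq, mem_univ, if_true,
      Perm.coe_mul]
    by_cases hc : (c ∘ g) ∘ h = c'
    · have hc' : c ∘ g ∘ h = c' := hc
      rw [if_pos hc, if_pos hc', coc_mul, ← hc]
      congr 2
      ext i
      simp [patOf]
    · have hc' : ¬ c ∘ g ∘ h = c' := hc
      rw [if_neg hc, if_neg hc', mul_zero]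

variable {q : ℕ}

theorem twRep_apply (g : Perm ι) (c c' : ι → Col q) :
    twRep q g c c' = if c ∘ g = c' then coc g (patOf c') else 0 := rfl

theorem twRep_eq (g : Perm ι) :
    twRep q g = permM (Col q) g * Matrix.diagonal fun c => coc g (patOf c) := by
  ext c c'
  rw [Matrix.mul_diagonal, twRep_apply, permM_apply]
  split_ifs <;> simp

theorem twRep_mul_apply (g : Perm ι) (T : Matrix (ι → Col q) (ι → Col q) ℂ) (c c' : ι → Col q) :
    (twRep q g * T) c c' = coc g (patOf (c ∘ g)) * T (c ∘ g) c' := by
  simp [Matrix.mul_apply, twRep_apply]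

theorem isU_twRep : IsU (twRep q : Perm ι →* _) := fun g => by
  ext c c'
  have h1 : c ∘ ⇑g⁻¹ = c' ↔ c' ∘ g = c := by
    constructor
    · rintro rfl; ext i; simp
    · rintro rfl; ext i; simp
  simp only [twRep_apply, Matrix.star_apply, h1]
  split_ifs with h
  · subst h
    have h2 := coc_mul g g⁻¹ (patOf c')
    rw [mul_inv_cancel, coc_one] at h2
    have h3 : patOf c' ∘ ⇑(Equiv.symm g⁻¹) = patOf (c' ∘ g) := rfl
    rw [h3] at h2
    rcases coc_eq g (patOf (c' ∘ g)) with h4 | h4 <;> rcases coc_eq g⁻¹ (patOf c') with h5 | h5 <;>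
      simp [h4, h5] at h2 ⊢ <;> norm_num at h2
  · simp

theorem twRep_mul_of_block {g : Perm ι} {T T' : Matrix (ι → Col q) (ι → Col q) ℂ} (hT : IsBlock T)
    (h : permM (Col q) g * T = T' * permM (Col q) g) : twRep q g * T = T' * twRep q g := by
  rw [twRep_eq, mul_assoc, hT.diagonal_comm (coc g), ← mul_assoc, h, mul_assoc]

theorem twRep_mul_Mop {f : ∀ p : Pat ι, (patGrp p → ℂ) → ℂ} (hf : Inv f) (g : Perm ι) :
    twRep q g * Mop q f = Mop q f * twRep q g :=
  twRep_mul_of_block (isBlock_Mop f) (permM_mul_Mop hf g)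

theorem Mop_mul_lift {f : ∀ p : Pat ι, (patGrp p → ℂ) → ℂ} (hf : Inv f) (a : GA (Perm ι)) :
    Mop q f * lift (twRep q) a = lift (twRep q) a * Mop q f :=
  commute_lift _ (fun g => (twRep_mul_Mop hf g).symm) a

theorem twRep_mul_kron {A : ι → Matrix (Col q) (Col q) ℂ} (hA : ∀ i, IsEven (A i)) (g : Perm ι) :
    twRep q g * kron A = kron (A ∘ g.symm) * twRep q g :=
  twRep_mul_of_block (isBlock_kron hA) (permM_mul_kron g A)

/-! ### star sets -/

/-- The set of starred cells. -/
def starSet (p : Pat ι) : Finset ι := univ.filter fun i => p i = none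

@[simp] theorem mem_starSet {p : Pat ι} {i : ι} : i ∈ starSet p ↔ p i = none := by simp [starSet]

theorem card_starSet (p : Pat ι) : (starSet p).card = nStar p := rfl

variable (q) in
/-- The projection onto the colourings with star set `S`. -/
noncomputable def starProj (S : Finset ι) : Matrix (ι → Col q) (ι → Col q) ℂ :=
  Matrix.diagonal fun c => if starSet (patOf c) = S then 1 else 0

theorem isStarProjection_starProj (S : Finset ι) : IsStarProjection (starProj q S) := by
  refine ⟨?_, ?_⟩
  · change starProj q S * starProj q S = starProj q S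
    rw [starProj, Matrix.diagonal_mul_diagonal]
    congr 1
    ext c
    split_ifs <;> simp
  · change star _ = _
    rw [starProj, Matrix.star_eq_conjTranspose, Matrix.diagonal_conjTranspose]
    congr 1
    ext c
    simp only [Pi.star_apply]
    split_ifs <;> simp

theorem IsBlock.starProj_comm {T : Matrix (ι → Col q) (ι → Col q) ℂ} (hT : IsBlock T)
    (S : Finset ι) : starProj q S * T = T * starProj q S :=
  hT.diagonal_comm fun p => if starSet p = S then 1 else 0

theorem starProj_mul_twRep {S : Finset ι} {g : Perm ι} (hg : ∀ i, g i ∈ S ↔ i ∈ S) :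
    starProj q S * twRep q g = twRep q g * starProj q S := by
  ext c c'
  rw [starProj, Matrix.diagonal_mul, Matrix.mul_diagonal, twRep_apply]
  by_cases h : c ∘ g = c'
  · subst h
    have : starSet (patOf c) = S ↔ starSet (patOf (c ∘ g)) = S := by
      simp only [Finset.ext_iff, mem_starSet]
      constructor
      · intro h i
        rw [← hg i, ← h]; rfl
      · intro h i
        have := h (g.symm i)
        rw [← hg] at this
        simpa [patOf] using this
    simp only [this, if_true]
    ring
  · simp [h]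

theorem twRep_mul_starProj_of_supp {S : Finset ι} {g : Perm ι} (hg : ∀ i, i ∉ S → g i = i) :
    twRep q g * starProj q S = starProj q S := by
  have hS : ∀ i, g i ∈ S ↔ i ∈ S := fun i => by
    constructor
    · intro h
      by_contra h'
      rw [hg i h'] at h
      exact h' h
    · intro h
      by_contra h'
      have := g.injective (hg _ h')
      rw [this] at h'
      exact h' h
  rw [← starProj_mul_twRep hS]
  ext c c'
  rw [starProj, Matrix.diagonal_mul, twRep_apply, Matrix.diagonal_apply]
  by_cases hc : starSet (patOf c) = S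
  · have hn : ∀ i, i ∈ S → c i = none := fun i hi => by
      rw [← hc, mem_starSet] at hi
      simpa [patOf, ctype] using hi
    have h1 : c ∘ g = c := by
      funext i
      by_cases hi : i ∈ S
      · rw [Function.comp_apply, hn i hi, hn _ ((hS i).2 hi)]
      · rw [Function.comp_apply, hg i hi]
    have h2 : patOf c ∘ g.symm = patOf c := by
      conv_lhs => rw [← h1]
      ext i; simp [patOf]
    have h3 : coc g (patOf c) = 1 := by
      have h4 : ∀ i, patOf c (g i) = some true ↔ patOf c i = some true := fun i => by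
        have := congrFun (congrArg patOf h1) i
        simp only [patOf, Function.comp_apply] at this ⊢
        rw [this]
      have h5 : g.subtypePerm (p := fun i => patOf c i = some true) h4 = 1 := by
        ext i
        have : (i : ι) ∉ S := fun h => by
          have := i.2
          simp [patOf, hn _ h, ctype] at this
        simp [hg _ this]
      rw [coc_of_stab h2, patSgn, dif_pos h4, h5, sgnC_one]
    rw [h1]
    by_cases hcc : c = c'
    · subst hcc; simp [hc, h3]
    · simp [hcc]
  · by_cases hcc : c = c'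
    · subst hcc; simp [hc]
    · simp [hc, hcc]

instance stepDecSuppGrp (T : Finset ι) : DecidablePred (· ∈ suppGrp T) := fun g =>
  inferInstanceAs (Decidable (∀ i, i ∉ T → g i = i))

/-- The part of a function that is supported on the permutations fixing `S` pointwise. -/
noncomputable def fixPart (S : Finset ι) (a : GA (Perm ι)) : GA (Perm ι) :=
  push (suppGrp Sᶜ).subtype (pull (suppGrp Sᶜ).subtype a)

theorem fixPart_apply (S : Finset ι) (a : GA (Perm ι)) (g : Perm ι) :
    fixPart S a g = if ∀ s ∈ S, g s = s then a g else 0 := by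
  split_ifs with h
  · have hg : g ∈ suppGrp Sᶜ := fun i hi => h i (by simpa using hi)
    exact push_apply_of_inj (suppGrp Sᶜ).subtype_injective _ ⟨g, hg⟩
  · refine push_apply_of_notMem _ ?_
    rintro ⟨k, rfl⟩
    exact h fun s hs => k.2 s (by simpa using hs)

theorem fixPart_nonneg (S : Finset ι) {a : GA (Perm ι)} (ha : 0 ≤ a) : 0 ≤ fixPart S a :=
  push_nonneg _ (pull_nonneg (suppGrp Sᶜ).subtype_injective ha)

theorem fixPart_empty (a : GA (Perm ι)) : fixPart ∅ a = a := by
  ext g; simp [fixPart_apply]

theorem fixPart_le (S : Finset ι) {a : GA (Perm ι)} (ha : 0 ≤ a) :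
    fixPart S a ≤ (((Fintype.card ι - S.card).factorial : ℂ) * a 1) • 1 := by
  have h1 := push_mono (suppGrp Sᶜ).subtype
    (le_card_smul_one (pull_nonneg (suppGrp Sᶜ).subtype_injective ha))
  rw [map_smul, map_one] at h1
  rw [← Nat.card_eq_fintype_card, card_suppGrp, card_compl, pull_apply, map_one] at h1
  exact h1

theorem comm_lift_of_supp {G A : Type} [Group G] [Fintype G] [DecidableEq G] [Ring A] [Algebra ℂ A]
    (π : G →* A) {T : A} {a : GA G} (h : ∀ g, a g ≠ 0 → T * π g = π g * T) :
    T * lift π a = lift π a * T := by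
  simp only [lift_apply, mul_sum, sum_mul, mul_smul_comm, smul_mul_assoc]
  refine sum_congr rfl fun g _ => ?_
  by_cases hg : a g = 0
  · simp [hg]
  · rw [h g hg]

theorem starProj_mul_lift_fixPart (S : Finset ι) (a : GA (Perm ι)) :
    starProj q S * lift (twRep q) (fixPart S a) = lift (twRep q) (fixPart S a) * starProj q S := by
  refine comm_lift_of_supp _ fun g hg => starProj_mul_twRep fun i => ?_
  rw [fixPart_apply] at hg
  have h : ∀ s ∈ S, g s = s := by
    by_contra h; exact hg (if_neg h)
  constructor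
  · intro hi
    have := g.injective (h _ hi)
    rwa [this] at hi
  · intro hi
    rwa [h i hi]

/-! ### the weighted trace -/

/-- The diagonal term of the weighted trace at a colouring. -/
noncomputable def dfun (F : GA (Perm ι)) (T : Matrix (ι → Col q) (ι → Col q) ℂ) (c : ι → Col q) :
    ℂ :=
  ∑ g, if g ∈ patGrp (patOf c) then F g * patSgn (patOf c) g * T (c ∘ g) c else 0

/-- The weighted trace over the colourings with star set `S`. -/
noncomputable def trS (S : Finset ι) (F : GA (Perm ι)) (T : Matrix (ι → Col q) (ι → Col q) ℂ) :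
    ℂ :=
  ∑ c, if starSet (patOf c) = S then dfun F T c else 0

theorem trace_twRep (S : Finset ι) (F : GA (Perm ι)) {T : Matrix (ι → Col q) (ι → Col q) ℂ}
    (hT : IsBlock T) : (lift (twRep q) (fixPart S F) * T * starProj q S).trace = trS S F T := by
  simp only [Matrix.trace, Matrix.diag, trS, starProj, Matrix.mul_diagonal]
  refine sum_congr rfl fun c _ => ?_
  split_ifs with hc
  · rw [mul_one, lift_apply, Finset.sum_mul, Matrix.sum_apply, dfun]
    refine sum_congr rfl fun g _ => ?_
    rw [smul_mul_assoc, Matrix.smul_apply, twRep_mul_apply, smul_eq_mul, fixPart_apply]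
    by_cases hg : g ∈ patGrp (patOf c)
    · have h1 : patOf (c ∘ g) = patOf c := funext fun i => (hg i).1
      have h2 : patOf c ∘ g.symm = patOf c := by
        conv_lhs => rw [← h1]
        ext i; simp [patOf]
      rw [if_pos hg, if_pos, h1, coc_of_stab h2, mul_assoc]
      intro s hs
      rw [← hc, mem_starSet] at hs
      exact (hg s).2 hs
    · rw [if_neg hg]
      by_cases h1 : patOf (c ∘ g) = patOf c
      · rw [if_neg, zero_mul]
        intro h
        exact hg fun i => ⟨congrFun h1 i, fun hi => h i (by rw [← hc, mem_starSet]; exact hi)⟩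
      · rw [hT _ _ h1, mul_zero, mul_zero]
  · rw [mul_zero]

theorem trace_blockRep (p : Pat ι) (F : GA (Perm ι)) (T : Matrix (ι → Col q) (ι → Col q) ℂ) :
    (lift (blockRep q p) (res p F) * T * patProj q p).trace
      = ∑ c, if patOf c = p then dfun F T c else 0 := by
  simp only [Matrix.trace, Matrix.diag, patProj, Matrix.mul_diagonal]
  refine sum_congr rfl fun c _ => ?_
  split_ifs with hc
  · subst hc
    rw [mul_one, lift_apply, Finset.sum_mul, Matrix.sum_apply, dfun, ← sum_filter,
      sum_subtype (p := fun g => g ∈ patGrp (patOf c)) _ (by simp)]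
    refine sum_congr rfl fun g _ => ?_
    rw [smul_mul_assoc, Matrix.smul_apply, blockRep_apply, smul_mul_assoc, Matrix.smul_apply,
      permM_mul_apply]
    simp [res, mul_assoc]
  · rw [mul_zero]

/-- The contribution of one pattern to the weighted trace. -/
noncomputable def Gp (q : ℕ) (f : ∀ p : Pat ι, (patGrp p → ℂ) → ℂ) (F : GA (Perm ι)) (p : Pat ι) :
    ℂ :=
  ∑ α ∈ Irr (patGrp p), mlt q p α * f p α * ev α (res p F)

theorem trS_Mop (S : Finset ι) (F : GA (Perm ι)) (f : ∀ p : Pat ι, (patGrp p → ℂ) → ℂ) :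
    trS S F (Mop q f) = ∑ p, if starSet p = S then Gp q f F p else 0 := by
  have h1 : ∀ p, Gp q f F p = ∑ c, if patOf c = p then dfun F (Mop q f) c else 0 := by
    intro p
    rw [← trace_blockRep, mul_assoc, ← isBlock_iff.1 (isBlock_Mop f) p, patProj_mul_Mop,
      patProj_mul_lift, ← mul_assoc, ← map_mul, ← cen_comm, trace_block]
    refine sum_congr rfl fun α hα => ?_
    rw [(mem_Irr.1 hα).ev_cen_mul, mul_assoc]
  simp only [h1, trS]
  have h2 : ∀ p : Pat ι, (if starSet p = S then ∑ c, if patOf c = p then dfun F (Mop q f) c else 0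
      else 0) = ∑ c, if patOf c = p then (if starSet (patOf c) = S then dfun F (Mop q f) c else 0)
        else 0 := by
    intro p
    split_ifs with h
    · refine sum_congr rfl fun c _ => ?_
      split_ifs with h' h''
      · rfl
      · exact absurd (h' ▸ h) h''
      · rfl
    · refine (sum_eq_zero fun c _ => ?_).symm
      split_ifs with h' h''
      · exact absurd (h' ▸ h'') h
      · rfl
      · rfl
  simp only [h2]
  rw [sum_comm]
  simp

theorem sum_Irr_equiv {G K : Type} [Group G] [Fintype G] [DecidableEq G] [Group K] [Fintype K]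
    [DecidableEq K] (e : K ≃* G) (φ : (G → ℂ) → ℂ) :
    ∑ χ ∈ Irr G, φ χ = ∑ α ∈ Irr K, φ (α ∘ e.symm) := by
  refine (sum_bij' (fun α _ => α ∘ e.symm) (fun χ _ => χ ∘ e) ?_ ?_ ?_ ?_ ?_).symm
  · intro α hα
    exact mem_Irr.2 ((mem_Irr.1 hα).comp_equiv e.symm)
  · intro χ hχ
    exact mem_Irr.2 ((mem_Irr.1 hχ).comp_equiv e)
  · intro α _; ext k; simp
  · intro χ _; ext k; simp
  · intro α _; rfl

theorem sum_Gp_comp {f : ∀ p : Pat ι, (patGrp p → ℂ) → ℂ} (hf : Inv f) (F : GA (Perm ι))
    (p : Pat ι) : ∑ h : Perm ι, Gp q f F (p ∘ h.symm)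
      = Fintype.card (patGrp p) * ∑ α ∈ Irr (patGrp p), mlt q p α * f p α * indP p α F := by
  have h1 : ∀ h : Perm ι, Gp q f F (p ∘ h.symm) = ∑ α ∈ Irr (patGrp p),
      mlt q p α * f p α * ev (α ∘ (patTr h p).symm) (res (p ∘ h.symm) F) := by
    intro h
    rw [Gp, sum_Irr_equiv (patTr h p)]
    refine sum_congr rfl fun α hα => ?_
    rw [mlt_tr, hf h p α (mem_Irr.1 hα)]
  simp only [h1]
  rw [sum_comm, mul_sum]
  refine sum_congr rfl fun α _ => ?_
  rw [← mul_sum, ← indP_eq_sum]
  ring

/-- The weighted trace over one orbit of patterns. -/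
theorem sum_Gp_orb {f : ∀ p : Pat ι, (patGrp p → ℂ) → ℂ} (hf : Inv f) (F : GA (Perm ι))
    (p : Pat ι) : ((nStar p).factorial : ℂ) * ∑ p' ∈ patOrb p, Gp q f F p'
      = ∑ α ∈ Irr (patGrp p), mlt q p α * f p α * indP p α F := by
  have h1 := sum_Gp_comp (q := q) hf F p
  rw [sum_perm_pat p (Gp q f F)] at h1
  have h0 : (Fintype.card (patGrp p) : ℂ) ≠ 0 := by exact_mod_cast Fintype.card_ne_zero
  push_cast at h1
  rw [mul_assoc] at h1
  exact mul_left_cancel₀ h0 h1

/-- The weighted trace over all patterns with `u` stars. -/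
theorem sum_Gp_nStar {f : ∀ p : Pat ι, (patGrp p → ℂ) → ℂ} (hf : Inv f) (F : GA (Perm ι))
    (u : ℕ) : (u.factorial : ℂ) * ∑ p with nStar p = u, Gp q f F p
      = ∑ p with nStar p = u, ((patOrb p).card : ℂ)⁻¹
          * ∑ α ∈ Irr (patGrp p), mlt q p α * f p α * indP p α F := by
  have h1 : ∀ h : Perm ι, ∑ p with nStar p = u, Gp q f F (p ∘ h.symm)
      = ∑ p with nStar p = u, Gp q f F p := by
    intro h
    refine sum_bij' (fun p _ => p ∘ h.symm) (fun p _ => p ∘ h) ?_ ?_ ?_ ?_ ?_
    · intro p hp
      simpa [nStar_tr] using hp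
    · intro p hp
      have := nStar_tr h.symm p
      simp only [Equiv.symm_symm] at this
      simpa [this] using hp
    · intro p _; ext i; simp
    · intro p _; ext i; simp
    · intro p _; rfl
  have h2 : ((Fintype.card ι).factorial : ℂ) * ∑ p with nStar p = u, Gp q f F p
      = ∑ p with nStar p = u, ∑ h : Perm ι, Gp q f F (p ∘ h.symm) := by
    rw [sum_comm]
    simp only [h1, sum_const, card_univ, Fintype.card_perm, nsmul_eq_mul]
  have h0 : ((Fintype.card ι).factorial : ℂ) ≠ 0 := by exact_mod_cast (Nat.factorial_pos _).ne'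
  refine mul_left_cancel₀ h0 ?_
  rw [mul_left_comm, h2, mul_sum, mul_sum]
  refine sum_congr rfl fun p hp => ?_
  have h3 := card_patOrb_mul p
  rw [(mem_filter.1 hp).2] at h3
  have h4 : ((patOrb p).card : ℂ) ≠ 0 := by
    exact_mod_cast (card_pos.2 ⟨p, self_mem_patOrb p⟩).ne'
  rw [sum_Gp_comp hf, ← h3]
  push_cast
  field_simp

end Crest.Agent.R155
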