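import Crest.Agent.R155.StepA

/-!
# Rows and columns: factorisation of the weighted trace
-/

set_option linter.unusedSectionVars false

namespace Crest.Agent.R155

open scoped ComplexOrder MatrixOrder ComplexConjugate Matrix.Norms.L2Operator Matrix
open Finset GA Equiv

variable {ι κ β X : Type} [Fintype ι] [DecidableEq ι] [Fintype κ] [DecidableEq κ] [Fintype β]
  [DecidableEq β] [Fintype X] [DecidableEq X]

/-- The Kronecker product over the rows. -/
noncomputable def rowT (M : κ → Matrix (β → X) (β → X) ℂ) : Matrix (κ × β → X) (κ × β → X) ℂ :=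
  (kron M).submatrix (Equiv.curry κ β X) (Equiv.curry κ β X)

theorem rowT_apply (M : κ → Matrix (β → X) (β → X) ℂ) (c c' : κ × β → X) :
    rowT M c c' = ∏ k, M k (fun b => c (k, b)) (fun b => c' (k, b)) := rfl

theorem rowT_mul (M N : κ → Matrix (β → X) (β → X) ℂ) :
    rowT M * rowT N = rowT fun k => M k * N k := by
  rw [rowT, rowT, Matrix.submatrix_mul_equiv, kron_mul, rowT]

theorem rowT_one : rowT (fun _ : κ => (1 : Matrix (β → X) (β → X) ℂ)) = 1 := by
  rw [rowT, kron_one, Matrix.submatrix_one_equiv]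

theorem star_rowT (M : κ → Matrix (β → X) (β → X) ℂ) : star (rowT M) = rowT fun k => star (M k) := by
  rw [rowT, rowT, ← star_kron]; rfl

theorem rowT_smul (s : κ → ℂ) (M : κ → Matrix (β → X) (β → X) ℂ) :
    rowT (fun k => s k • M k) = (∏ k, s k) • rowT M := by
  rw [rowT, kron_smul]; rfl

theorem rowT_sum {J : Type} [Fintype J] [DecidableEq J] (M : κ → J → Matrix (β → X) (β → X) ℂ) :
    rowT (fun k => ∑ j, M k j) = ∑ jj : κ → J, rowT fun k => M k (jj k) := by
  ext c c'
  simp only [rowT, kron_sum, Matrix.submatrix_apply, Matrix.sum_apply]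

theorem rowT_eq_zero {M : κ → Matrix (β → X) (β → X) ℂ} {k : κ} (h : M k = 0) : rowT M = 0 := by
  rw [rowT, kron_eq_zero h]; rfl

theorem rowT_nonneg {M : κ → Matrix (β → X) (β → X) ℂ} (h : ∀ k, 0 ≤ M k) : 0 ≤ rowT M :=
  ((Matrix.nonneg_iff_posSemidef.1 (kron_nonneg h)).submatrix _).nonneg

theorem rowT_mono {M N : κ → Matrix (β → X) (β → X) ℂ} (hM : ∀ k, 0 ≤ M k) (h : ∀ k, M k ≤ N k) :
    rowT M ≤ rowT N := by
  have := ((Matrix.nonneg_iff_posSemidef.1 (sub_nonneg.2 (kron_mono hM h))).submatrix
    (Equiv.curry κ β X)).nonneg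
  exact sub_nonneg.1 this

theorem rowT_kron (A : κ → β → Matrix X X ℂ) :
    rowT (fun k => kron (A k)) = kron fun i : κ × β => A i.1 i.2 := by
  ext c c'
  simp only [rowT_apply, kron_apply, Fintype.prod_prod_type]

theorem isBlock_rowT {q : ℕ} {M : κ → Matrix (β → Col q) (β → Col q) ℂ} (h : ∀ k, IsBlock (M k)) :
    IsBlock (rowT M) := by
  intro c c' hc
  obtain ⟨⟨k, b⟩, hi⟩ := Function.ne_iff.1 hc
  rw [rowT_apply]
  exact prod_eq_zero (mem_univ k) (h k _ _ fun e => hi (congrFun e b))

/-! ### signs of block permutations -/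

/-- The permutation that agrees with `g` on the odd cells and fixes the other cells. -/
theorem patSgn_eq_of_odd {p : Pat ι} {g g' : Perm ι} (hg : g ∈ patGrp p)
    (h1 : ∀ i, p i = some true → g' i = g i) (h2 : ∀ i, p i ≠ some true → g' i = i) :
    patSgn p g = sgnC g' := by
  rw [patSgn_of_mem hg]
  have : g' = Perm.ofSubtype (g.subtypePerm (p := fun i => p i = some true) fun i => by
      simp only [(hg i).1]) := by
    ext i
    by_cases hi : p i = some true
    · rw [h1 i hi, Perm.ofSubtype_apply_of_mem (p := fun i => p i = some true) _ hi]; rfl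
    · rw [h2 i hi, Perm.ofSubtype_apply_of_not_mem (p := fun i => p i = some true) _ hi]
  rw [this, sgnC, sgnC, Perm.sign_ofSubtype]

theorem blockHom_refl_apply (gg : κ → Perm β) (k : κ) (b : β) :
    blockHom (Equiv.refl (κ × β)) gg (k, b) = (k, gg k b) := rfl

theorem blockHom_mem_patGrp {p : Pat (κ × β)} {gg : κ → Perm β} :
    blockHom (Equiv.refl (κ × β)) gg ∈ patGrp p ↔ ∀ k, gg k ∈ patGrp fun b => p (k, b) := by
  simp only [mem_patGrp, Prod.forall, blockHom_refl_apply, Prod.mk.injEq, true_and]

theorem patSgn_blockHom {p : Pat (κ × β)} {gg : κ → Perm β}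
    (h : ∀ k, gg k ∈ patGrp fun b => p (k, b)) :
    patSgn p (blockHom (Equiv.refl (κ × β)) gg) = ∏ k, patSgn (fun b => p (k, b)) (gg k) := by
  let o : κ → Perm β := fun k => Perm.ofSubtype
    ((gg k).subtypePerm (p := fun b => p (k, b) = some true) fun b => by simp only [(h k b).1])
  have ho1 : ∀ k b, p (k, b) = some true → o k b = gg k b := fun k b hb => by
    simp only [o]
    rw [Perm.ofSubtype_apply_of_mem (p := fun b => p (k, b) = some true) _ hb]; rfl
  have ho2 : ∀ k b, p (k, b) ≠ some true → o k b = b := fun k b hb =>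
    Perm.ofSubtype_apply_of_not_mem (p := fun b => p (k, b) = some true) _ hb
  rw [patSgn_eq_of_odd (blockHom_mem_patGrp.2 h) (g' := Equiv.prodCongrRight o)
    (fun ⟨k, b⟩ hi => by simp [blockHom_refl_apply, ho1 k b hi])
    (fun ⟨k, b⟩ hi => by simp [ho2 k b hi])]
  rw [sgnC, Perm.sign_prodCongrRight]
  push_cast
  refine prod_congr rfl fun k _ => ?_
  rw [patSgn_eq_of_odd (h k) (ho1 k) (ho2 k), sgnC]

theorem sum_push_mul {G K : Type} [Group G] [Fintype G] [DecidableEq G] [Group K] [Fintype K]
    [DecidableEq K] (φ : K →* G) (a : GA K) (ψ : G → ℂ) :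
    ∑ g, push φ a g * ψ g = ∑ k, a k * ψ (φ k) := ev_push ψ φ a

theorem dfun_rowT {q : ℕ} (a : GA (Perm β)) (M : κ → Matrix (β → Col q) (β → Col q) ℂ)
    (c : κ × β → Col q) :
    dfun (blockLift (Equiv.refl (κ × β)) a) (rowT M) c = ∏ k, dfun a (M k) fun b => c (k, b) := by
  have h1 : dfun (blockLift (Equiv.refl (κ × β)) a) (rowT M) c
      = ∑ g, blockLift (Equiv.refl (κ × β)) a g *
        (if g ∈ patGrp (patOf c) then patSgn (patOf c) g * rowT M (c ∘ g) c else 0) := by
    refine sum_congr rfl fun g _ => ?_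
    split_ifs <;> simp [mul_assoc]
  rw [h1, blockLift, sum_push_mul]
  simp only [dfun]
  rw [Finset.prod_univ_sum, Fintype.piFinset_univ]
  refine sum_congr rfl fun gg _ => ?_
  by_cases h : ∀ k, gg k ∈ patGrp fun b => patOf c (k, b)
  · rw [if_pos (blockHom_mem_patGrp.2 h), patSgn_blockHom h, tens_apply, rowT_apply,
      ← prod_mul_distrib, ← prod_mul_distrib]
    refine prod_congr rfl fun k _ => ?_
    have hk : gg k ∈ patGrp (patOf fun b => c (k, b)) := h k
    rw [if_pos hk, mul_assoc]
    rfl
  · rw [if_neg (fun h' => h (blockHom_mem_patGrp.1 h')), mul_zero]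
    push Not at h
    obtain ⟨k, hk⟩ := h
    exact (prod_eq_zero (mem_univ k) (if_neg hk)).symm

/-- The part of a set of cells in a given row. -/
def rowOf (S : Finset (κ × β)) (k : κ) : Finset β := univ.filter fun b => (k, b) ∈ S

/-- The part of a set of cells in a given column. -/
def colOf (S : Finset (κ × β)) (b : β) : Finset κ := univ.filter fun k => (k, b) ∈ S

@[simp] theorem mem_rowOf {S : Finset (κ × β)} {k : κ} {b : β} : b ∈ rowOf S k ↔ (k, b) ∈ S := by
  simp [rowOf]

@[simp] theorem mem_colOf {S : Finset (κ × β)} {k : κ} {b : β} : k ∈ colOf S b ↔ (k, b) ∈ S := by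
  simp [colOf]

theorem sum_card_rowOf (S : Finset (κ × β)) : ∑ k, (rowOf S k).card = S.card := by
  simp only [rowOf, card_filter]
  rw [← Fintype.sum_prod_type (f := fun i : κ × β => if i ∈ S then 1 else 0)]
  simp

theorem sum_card_colOf (S : Finset (κ × β)) : ∑ b, (colOf S b).card = S.card := by
  simp only [colOf, card_filter]
  rw [← Fintype.sum_prod_type_right (f := fun i : κ × β => if i ∈ S then 1 else 0)]
  simp

theorem trS_rowT {q : ℕ} (S : Finset (κ × β)) (a : GA (Perm β))
    (M : κ → Matrix (β → Col q) (β → Col q) ℂ) :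
    trS S (blockLift (Equiv.refl (κ × β)) a) (rowT M) = ∏ k, trS (rowOf S k) a (M k) := by
  simp only [trS, dfun_rowT]
  rw [Finset.prod_univ_sum, Fintype.piFinset_univ]
  refine Fintype.sum_equiv (Equiv.curry κ β (Col q)) _ _ fun c => ?_
  by_cases h : starSet (patOf c) = S
  · rw [if_pos h]
    refine prod_congr rfl fun k _ => ?_
    rw [if_pos]
    · rfl
    · ext b
      rw [mem_rowOf, ← h, mem_starSet, mem_starSet]; rfl
  · rw [if_neg h]
    have : ∃ k, starSet (patOf (Equiv.curry κ β (Col q) c k)) ≠ rowOf S k := by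
      by_contra h'
      push Not at h'
      refine h (Finset.ext fun ⟨k, b⟩ => ?_)
      rw [← mem_rowOf (S := S), ← h' k, mem_starSet, mem_starSet]; rfl
    obtain ⟨k, hk⟩ := this
    exact (prod_eq_zero (mem_univ k) (if_neg hk)).symm

/-! ### the conditional expectation of a product of row and column operators -/

theorem fixPart_mul {S : Finset (κ × β)} {A B : GA (Perm (κ × β))}
    (hA : ∀ g, A g ≠ 0 → ∀ i, (g i).1 = i.1) (hB : ∀ g, B g ≠ 0 → ∀ i, (g i).2 = i.2) :
    fixPart S (A * B) = fixPart S A * fixPart S B := by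
  ext g
  rw [fixPart_apply, mul_apply, mul_apply]
  split_ifs with hg
  · refine sum_congr rfl fun h _ => ?_
    by_cases h1 : A h = 0
    · simp [fixPart_apply, h1]
    by_cases h2 : B (h⁻¹ * g) = 0
    · simp [fixPart_apply, h2]
    have key : ∀ s ∈ S, h⁻¹ s = s := fun s hs => by
      have e1 := hA h h1 (h⁻¹ s)
      have e2 := hB _ h2 s
      rw [Perm.mul_apply, hg s hs] at e2
      rw [show h (h⁻¹ s) = s by simp] at e1
      exact Prod.ext e1.symm e2
    rw [fixPart_apply, fixPart_apply, if_pos, if_pos]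
    · intro s hs
      rw [Perm.mul_apply, hg s hs, key s hs]
    · intro s hs
      have := key s hs
      rwa [Perm.inv_eq_iff_eq, eq_comm] at this
  · refine (sum_eq_zero fun h _ => ?_).symm
    rw [fixPart_apply, fixPart_apply]
    split_ifs with h1 h2
    · refine absurd (fun s hs => ?_) hg
      have := h2 s hs
      rw [Perm.mul_apply, Perm.inv_eq_iff_eq, h1 s hs] at this
      exact this
    · simp
    · simp
    · simp

theorem blockLift_supp (e : ι ≃ κ × β) (x : GA (Perm β)) {g : Perm ι} (hg : blockLift e x g ≠ 0)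
    (i : ι) : (e (g i)).1 = (e i).1 := by
  by_contra h
  refine hg (push_apply_of_notMem _ ?_)
  rintro ⟨gg, rfl⟩
  exact h (by simp [blockHom_apply])

theorem fixPart_blockLift (e : ι ≃ κ × β) (S : Finset ι) (z : GA (Perm β)) :
    fixPart S (blockLift e z)
      = push (blockHom e) (tens fun k => fixPart (univ.filter fun b => e.symm (k, b) ∈ S) z) := by
  ext g
  rw [fixPart_apply]
  by_cases hg : g ∈ (blockHom e).range
  · obtain ⟨gg, rfl⟩ := hg
    rw [blockLift, push_apply_of_inj (blockHom_injective e), push_apply_of_inj (blockHom_injective e),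
      tens_apply, tens_apply]
    simp only [fixPart_apply]
    split_ifs with h
    · refine prod_congr rfl fun k _ => ?_
      rw [if_pos]
      intro b hb
      have := h _ (mem_filter.1 hb).2
      simpa [blockHom_apply] using this
    · push Not at h
      obtain ⟨s, hs, hne⟩ := h
      refine (prod_eq_zero (mem_univ (e s).1) (if_neg fun h' => hne ?_)).symm
      rw [blockHom_apply, h' (e s).2 (by simpa using hs)]
      simp
  · rw [blockLift, push_apply_of_notMem _ hg, push_apply_of_notMem _ hg, ite_self]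

end Crest.Agent.R155
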