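import Crest.Agent.R155.StepB

/-!
# The column operators: explicit form and the averaging inequality
-/

set_option linter.unusedSectionVars false

namespace Crest.Agent.R155

open scoped ComplexOrder MatrixOrder ComplexConjugate Matrix.Norms.L2Operator Matrix
open Finset GA Equiv

variable {ι β : Type} [Fintype ι] [DecidableEq ι] [Fintype β] [DecidableEq β] {q : ℕ}

/-- The four cells of a column. -/
abbrev K4 := Fin 2 → Bool

/-- The corner `(0, 0)`. -/
def v00 : K4 := fun _ => false
/-- The corner `(1, 1)`. -/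
def v11 : K4 := fun _ => true
/-- The neighbour in direction `a`. -/
def flp (a : Fin 2) (z : K4) : K4 := Function.update z a (!z a)

/-- The flip group in direction `a` as a finite set. -/
def H4 (a : Fin 2) : Finset (Perm K4) :=
  {1, swap v00 (flp a v00), swap v11 (flp a v11), swap v00 (flp a v00) * swap v11 (flp a v11)}

theorem mem_H4 : ∀ (a : Fin 2) (g : Perm K4), (∀ z j, j ≠ a → g z j = z j) ↔ g ∈ H4 a := by
  decide +kernel

theorem card_H4 : ∀ a : Fin 2, (H4 a).card = 4 := by decide +kernel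

theorem count_H4 : ∀ a b : Fin 2, a ≠ b → (∑ f ∈ H4 a, ∑ g ∈ H4 b, ∑ f' ∈ H4 a, ∑ g' ∈ H4 b,
    if 1 = f * g * f' * g' then 1 else 0 : ℕ) = 12 := by
  decide +kernel

theorem Pdir_eq_sum (a : Fin 2) : (Pdir a : GA (Perm K4)) = (1 / 4 : ℂ) • ∑ h ∈ H4 a, dl h := by
  have hc : Nat.card (flipGrp a : Subgroup (Perm K4)) = 4 := by
    rw [← card_H4 a, ← Nat.card_eq_finsetCard]
    exact Nat.card_congr (Equiv.subtypeEquivRight fun g => mem_H4 a g)
  ext g
  simp only [GA.smul_apply, GA.sum_apply, dl_apply, sum_ite_eq]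
  by_cases hg : g ∈ H4 a
  · rw [Pdir, avgSub, avgTw_of_mem _ (mem_flipGrp.2 ((mem_H4 a g).2 hg)), hc, if_pos hg]
    norm_num
  · rw [Pdir, avgSub, avgTw_of_notMem _ (fun h => hg ((mem_H4 a g).1 (mem_flipGrp.1 h))), if_neg hg, mul_zero]

/-- The average of the identity and a transposition. -/
noncomputable def edge (i j : ι) : GA (Perm ι) := (1 / 2 : ℂ) • (1 + dl (swap i j))

theorem Pdir_eq_edge (a : Fin 2) :
    (Pdir a : GA (Perm K4)) = edge v00 (flp a v00) * edge v11 (flp a v11) := by
  have h1 : ∀ a : Fin 2, (1 : Perm K4) ∉ ({swap v00 (flp a v00), swap v11 (flp a v11),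
      swap v00 (flp a v00) * swap v11 (flp a v11)} : Finset (Perm K4)) := by decide +kernel
  have h2 : ∀ a : Fin 2, swap v00 (flp a v00) ∉ ({swap v11 (flp a v11),
      swap v00 (flp a v00) * swap v11 (flp a v11)} : Finset (Perm K4)) := by decide +kernel
  have h3 : ∀ a : Fin 2, swap v11 (flp a v11) ≠
      swap v00 (flp a v00) * swap v11 (flp a v11) := by decide +kernel
  rw [Pdir_eq_sum, H4, sum_insert (h1 a), sum_insert (h2 a), sum_pair (h3 a), edge, edge,
    smul_mul_smul_comm, add_mul, mul_add, mul_add, dl_mul_dl, dl_one]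
  simp only [one_mul, mul_one]
  congr 1
  · norm_num
  · abel

theorem mul_apply_one_comm {G : Type} [Group G] [Fintype G] [DecidableEq G] (a b : GA G) :
    (a * b) 1 = (b * a) 1 := by
  rw [mul_apply, mul_apply']
  simp [mul_comm]

theorem IsCol4.exists {y : GA (Perm K4)} (hy : IsCol4 y) :
    ∃ a b : Fin 2, a ≠ b ∧ y = Pdir a * Pdir b := by
  rcases hy with rfl | rfl
  · exact ⟨0, 1, by decide, rfl⟩
  · exact ⟨1, 0, by decide, rfl⟩

theorem IsCol4.star' {y : GA (Perm (Fin 2 → Bool))} (hy : IsCol4 y) : IsCol4 (star y) := by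
  rcases hy with rfl | rfl
  · right
    rw [star_mul, (isStarProjection_Pdir _).isSelfAdjoint.star_eq,
      (isStarProjection_Pdir _).isSelfAdjoint.star_eq]
  · left
    rw [star_mul, (isStarProjection_Pdir _).isSelfAdjoint.star_eq,
      (isStarProjection_Pdir _).isSelfAdjoint.star_eq]

theorem IsCol4.sq_apply_one {y : GA (Perm K4)} (hy : IsCol4 y) :
    ((y * star y) ^ 2) 1 = 3 / 64 := by
  obtain ⟨a, b, hab, rfl⟩ := hy.exists
  have ha := (isStarProjection_Pdir a).isIdempotentElem.eq
  have hb := (isStarProjection_Pdir b).isIdempotentElem.eq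
  rw [star_mul, (isStarProjection_Pdir a).isSelfAdjoint.star_eq,
    (isStarProjection_Pdir b).isSelfAdjoint.star_eq]
  have h1 : (Pdir a * Pdir b * (Pdir b * Pdir a)) ^ 2
      = (Pdir a * (Pdir b * Pdir b) * (Pdir a * Pdir a) * (Pdir b * Pdir b)) * Pdir a := by
    simp only [pow_two, mul_assoc]
  rw [h1, ha, hb, mul_apply_one_comm, ← mul_assoc, ← mul_assoc, ← mul_assoc, ha, Pdir_eq_sum a,
    Pdir_eq_sum b]
  simp only [smul_mul_smul_comm]
  have h3 : (∑ f ∈ H4 a, dl f) * (∑ g ∈ H4 b, dl g) * (∑ f' ∈ H4 a, dl f') * (∑ g' ∈ H4 b, dl g')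
      = ∑ f ∈ H4 a, ∑ g ∈ H4 b, ∑ f' ∈ H4 a, ∑ g' ∈ H4 b, dl (f * g * f' * g') := by
    rw [sum_mul, sum_mul, sum_mul]
    refine sum_congr rfl fun f _ => ?_
    rw [mul_sum (H4 b) _ (dl f), sum_mul, sum_mul]
    refine sum_congr rfl fun g _ => ?_
    rw [mul_sum (H4 a), sum_mul]
    refine sum_congr rfl fun f' _ => ?_
    rw [mul_sum]
    simp only [dl_mul_dl]
  have h2 := congrArg (Nat.cast : ℕ → ℂ) (count_H4 a b hab)
  push_cast at h2
  rw [h3]
  simp only [GA.smul_apply, GA.sum_apply, dl_apply]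
  rw [h2]
  norm_num

theorem IsCol4.star_mul_le {y : GA (Perm K4)} (hy : IsCol4 y) : star y * y ≤ 1 := by
  obtain ⟨a, b, -, rfl⟩ := hy.exists
  exact star_mul_le_one_mul (star_Pdir_mul_le a) (star_Pdir_mul_le b)

theorem IsCol4.mul_star_le {y : GA (Perm K4)} (hy : IsCol4 y) : y * star y ≤ 1 := by
  have := hy.star'.star_mul_le
  rwa [star_star] at this

theorem IsCol4.sq_le {y : GA (Perm K4)} (hy : IsCol4 y) : (y * star y) ^ 2 ≤ y * star y := by
  have := star_right_conjugate_le_conjugate hy.star_mul_le y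
  rw [mul_one] at this
  convert this using 1
  simp only [pow_two, mul_assoc]

/-! ### one edge -/

theorem star_edge (i j : ι) : star (edge i j) = edge i j := by
  simp [edge, star_dl]

theorem edge_mul_dl (i j : ι) : edge i j * dl (swap i j) = edge i j := by
  rw [edge, smul_mul_assoc, add_mul, dl_mul_dl, swap_mul_self, dl_one, one_mul, add_comm]

theorem dl_mul_edge (i j : ι) : dl (swap i j) * edge i j = edge i j := by
  rw [edge, mul_smul_comm, mul_add, dl_mul_dl, swap_mul_self, dl_one, mul_one, add_comm]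

theorem edge_mul_edge (i j : ι) : edge i j * edge i j = edge i j := by
  conv_lhs => rw [edge.eq_1 i j, smul_mul_assoc, add_mul, one_mul, ← edge, dl_mul_edge]
  rw [← two_smul ℂ, smul_smul]
  norm_num

theorem conj_le_of_comm {X : Type} [Fintype X] [DecidableEq X] {P D : Matrix X X ℂ}
    (hP : IsStarProjection P) (hD : 0 ≤ D) (h : P * D = D * P) : P * D * P ≤ D := by
  have h1 := star_left_conjugate_nonneg hD (1 - P)
  have hs : star P = P := hP.isSelfAdjoint.star_eq
  have hi : P * P = P := hP.isIdempotentElem.eq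
  have h2 : star (1 - P) * D * (1 - P) = D - P * D * P := by
    rw [star_sub, star_one, hs]
    have e1 : P * D * P = D * P := by rw [h, mul_assoc, hi]
    calc (1 - P) * D * (1 - P) = D - P * D - D * P + P * D * P := by noncomm_ring
      _ = D - P * D * P := by rw [e1, h]; abel
  rw [h2] at h1
  exact sub_nonneg.1 h1

theorem isStarProjection_lift_edge (i j : ι) : IsStarProjection (lift (twRep q) (edge i j)) :=
  ⟨by change _ * _ = _; rw [← map_mul, edge_mul_edge],
    by change star _ = _; rw [← lift_star isU_twRep, star_edge]⟩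

theorem edge_conj_le {A : ι → Matrix (Col q) (Col q) ℂ} (hA : ∀ k, 0 ≤ A k)
    (hAe : ∀ k, IsEven (A k)) {i j : ι} (hij : i ≠ j) {C : Matrix (Col q) (Col q) ℂ} (hC : 0 ≤ C)
    (hCe : IsEven C) (h : A i * A i + A j * A j = (2 : ℂ) • (C * C)) :
    lift (twRep q) (edge i j) * kron A * lift (twRep q) (edge i j)
      ≤ kron fun k => if k = i ∨ k = j then C else A k := by
  set P := lift (twRep q) (edge i j) with hP
  set s := twRep q (swap i j) with hs
  set A' : ι → Matrix (Col q) (Col q) ℂ := fun k => if k = i ∨ k = j then C else A k with hA'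
  have hPs : P * s = P := by rw [hP, hs, ← lift_dl, ← map_mul, edge_mul_dl]
  have hsP : s * P = P := by rw [hP, hs, ← lift_dl, ← map_mul, dl_mul_edge]
  have h1 : P * kron A * P = P * kron (A ∘ swap i j) * P := by
    conv_lhs => rw [← hPs, mul_assoc P s, hs, twRep_mul_kron hAe, ← hs]
    rw [mul_assoc, mul_assoc, hPs, hsP, ← mul_assoc]
    rfl
  have hproj := isStarProjection_lift_edge (q := q) i j
  have h2 := star_left_conjugate_le_conjugate (kron_add_kron_swap_le hA hij hC h) P
  rw [hproj.isSelfAdjoint.star_eq, mul_add, add_mul, ← h1, ← two_smul ℂ, mul_smul_comm,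
    smul_mul_assoc] at h2
  have h3 : P * kron A * P ≤ P * kron A' * P := by
    have := smul_le_smul_of_nonneg_left h2 (show (0 : ℂ) ≤ 1 / 2 by norm_num [Complex.le_def])
    simpa [smul_smul] using this
  have hA'e : ∀ k, IsEven (A' k) := fun k => by
    simp only [hA']; split_ifs; exacts [hCe, hAe k]
  have hA'0 : ∀ k, 0 ≤ A' k := fun k => by
    simp only [hA']; split_ifs; exacts [hC, hA k]
  refine h3.trans (conj_le_of_comm hproj (kron_nonneg hA'0) ?_)
  have h4 : s * kron A' = kron A' * s := by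
    rw [hs, twRep_mul_kron hA'e]
    congr 2
    funext k
    simp only [hA', Function.comp_apply, symm_swap]
    by_cases hki : k = i
    · simp [hki]
    · by_cases hkj : k = j
      · simp [hkj]
      · rw [swap_apply_of_ne_of_ne hki hkj]
  rw [hP, edge, map_smul, map_add, map_one, lift_dl, ← hs, smul_mul_assoc, mul_smul_comm, add_mul,
    mul_add, h4, one_mul, mul_one]

theorem starProj_mul_lift_edge {S : Finset ι} {i j : ι} (h : i ∈ S ↔ j ∈ S) :
    starProj q S * lift (twRep q) (edge i j) = lift (twRep q) (edge i j) * starProj q S := by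
  have h4 : starProj q S * twRep q (swap i j) = twRep q (swap i j) * starProj q S := by
    refine starProj_mul_twRep fun k => ?_
    by_cases hki : k = i
    · simp [hki, h]
    · by_cases hkj : k = j
      · simp [hkj, h]
      · rw [swap_apply_of_ne_of_ne hki hkj]
  rw [edge, map_smul, map_add, map_one, lift_dl, smul_mul_assoc, mul_smul_comm, add_mul,
    mul_add, h4, one_mul, mul_one]

theorem lift_edge_mul_starProj {S : Finset ι} {i j : ι} (hi : i ∈ S) (hj : j ∈ S) :
    lift (twRep q) (edge i j) * starProj q S = starProj q S := by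
  have h4 : twRep q (swap i j) * starProj q S = starProj q S :=
    twRep_mul_starProj_of_supp fun k hk =>
      swap_apply_of_ne_of_ne (fun e => hk (e ▸ hi)) (fun e => hk (e ▸ hj))
  rw [edge, map_smul, map_add, map_one, lift_dl, smul_mul_assoc, add_mul, h4, one_mul,
    ← two_smul ℂ, smul_smul]
  norm_num

end Crest.Agent.R155
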