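import Crest.Agent.R155.StepC

/-!
# The operator inequality between the dimension weights of the parent and the children
-/

set_option linter.unusedSectionVars false

namespace Crest.Agent.R155

open scoped ComplexOrder MatrixOrder ComplexConjugate Matrix.Norms.L2Operator Matrix
open Finset GA Equiv

variable {ι β : Type} [Fintype ι] [DecidableEq ι] [Fintype β] [DecidableEq β] {q : ℕ}

theorem lift_one' {G A : Type} [Group G] [Fintype G] [DecidableEq G] [Ring A] [Algebra ℂ A]
    (π : G →* A) : lift π 1 = 1 := map_one _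

theorem push_one' {G K : Type} [Group G] [Fintype G] [DecidableEq G] [Group K] [Fintype K]
    [DecidableEq K] (φ : K →* G) : push φ 1 = 1 := map_one _

/-- Permutations of a single column. -/
def colHom (b : β) : Perm K4 →* Perm (K4 × β) :=
  (blockHom (Equiv.prodComm K4 β)).comp (MonoidHom.mulSingle (fun _ : β => Perm K4) b)

theorem colHom_swap (b : β) (k k' : K4) : colHom b (swap k k') = swap (k, b) (k', b) := by
  ext1 ⟨l, c⟩
  by_cases hc : c = b
  · subst hc
    simp only [colHom, MonoidHom.comp_apply, MonoidHom.mulSingle_apply, blockHom_apply,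
      prodComm_apply, Prod.swap_prod_mk, Pi.mulSingle_eq_same, prodComm_symm]
    by_cases h1 : l = k
    · simp [h1]
    · by_cases h2 : l = k'
      · simp [h2]
      · rw [swap_apply_of_ne_of_ne h1 h2, swap_apply_of_ne_of_ne] <;> simp [h1, h2]
  · simp only [colHom, MonoidHom.comp_apply, MonoidHom.mulSingle_apply, blockHom_apply,
      prodComm_apply, Prod.swap_prod_mk, Pi.mulSingle_eq_of_ne hc, prodComm_symm]
    rw [swap_apply_of_ne_of_ne] <;> simp [hc]

theorem push_colHom_edge (b : β) (k k' : K4) :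
    push (colHom b) (edge k k') = edge (k, b) (k', b) := by
  rw [edge, edge, map_smul, map_add, map_one, push_dl, colHom_swap]

theorem tens_single {κ H : Type} [Fintype κ] [DecidableEq κ] [Group H] [Fintype H] [DecidableEq H]
    (b : κ) (y : GA H) : tens (fun b' => if b' = b then y else 1)
      = push (MonoidHom.mulSingle (fun _ : κ => H) b) y := by
  ext g
  by_cases hg : g ∈ (MonoidHom.mulSingle (fun _ : κ => H) b).range
  · obtain ⟨k, rfl⟩ := hg
    rw [push_apply_of_inj (Pi.mulSingle_injective (M := fun _ : κ => H) b), tens_apply,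
      Finset.prod_eq_single b]
    · simp
    · intro c _ hc
      simp [hc, one_apply]
    · simp
  · rw [push_apply_of_notMem _ hg, tens_apply]
    have : ∃ c, c ≠ b ∧ g c ≠ 1 := by
      by_contra h
      push Not at h
      refine hg ⟨g b, funext fun c => ?_⟩
      by_cases hc : c = b
      · simp [hc]
      · simp [hc, h c hc]
    obtain ⟨c, hc, hg⟩ := this
    exact prod_eq_zero (mem_univ c) (by simp [hc, one_apply, hg])

/-- The column operator acting in the columns of `U`. -/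
noncomputable def colOp (U : Finset β) (y : GA (Perm K4)) : GA (Perm (K4 × β)) :=
  push (blockHom (Equiv.prodComm K4 β)) (tens fun b => if b ∈ U then y else 1)

theorem colOp_empty (y : GA (Perm K4)) : colOp (∅ : Finset β) y = 1 := by
  simp [colOp, tens_one, push_one']

theorem colOp_insert {U : Finset β} {b : β} (hb : b ∉ U) (y : GA (Perm K4)) :
    colOp (insert b U) y = colOp U y * push (colHom b) y := by
  rw [colOp, colOp, colHom, ← push_push, ← tens_single, ← map_mul, ← tens_mul]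
  congr 2
  funext c
  by_cases hc : c = b
  · simp [hc, hb]
  · simp [hc]

theorem colOp_mul_star (U : Finset β) (y : GA (Perm K4)) :
    colOp U y * star (colOp U y) = colOp U (y * star y) := by
  rw [colOp, colOp, ← push_star, ← tens_star, ← map_mul, ← tens_mul]
  congr 2
  funext c
  split_ifs <;> simp

theorem star_colOp_mul_le {y : GA (Perm K4)} (hy : IsCol4 y) (U : Finset β) :
    star (colOp U y) * colOp U y ≤ 1 := by
  rw [colOp, ← push_star, ← tens_star, ← map_mul, ← tens_mul]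
  have := push_mono (blockHom (Equiv.prodComm K4 β)) (tens_mono
    (x := fun b => star (if b ∈ U then y else 1) * if b ∈ U then y else 1) (y := fun _ => 1)
    (fun b => star_mul_self_nonneg _) fun b => by
      split_ifs
      · exact hy.star_mul_le
      · simp)
  rwa [tens_one, push_one'] at this

theorem exists_mean {A B : Matrix (Col q) (Col q) ℂ} (hA : 0 ≤ A) (hB : 0 ≤ B) (hAe : IsEven A)
    (hBe : IsEven B) : ∃ C, 0 ≤ C ∧ IsEven C ∧ A * A + B * B = (2 : ℂ) • (C * C) := by
  have h1 : 0 ≤ A * A := by simpa [hA.isSelfAdjoint.star_eq] using star_mul_self_nonneg A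
  have h2 : 0 ≤ B * B := by simpa [hB.isSelfAdjoint.star_eq] using star_mul_self_nonneg B
  have h3 : 0 ≤ (1 / 2 : ℂ) • (A * A + B * B) :=
    smul_nonneg (by norm_num [Complex.le_def]) (add_nonneg h1 h2)
  refine ⟨CFC.sqrt ((1 / 2 : ℂ) • (A * A + B * B)), CFC.sqrt_nonneg _, IsEven.sqrt ?_, ?_⟩
  · intro a b hab
    simp [hAe.mul hAe a b hab, hBe.mul hBe a b hab]
  · rw [CFC.sqrt_mul_sqrt_self _ h3, smul_smul]
    norm_num

theorem layer_conj_le (a : Fin 2) (b : β) {A : K4 × β → Matrix (Col q) (Col q) ℂ}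
    (hA : ∀ i, 0 ≤ A i) (hAe : ∀ i, IsEven (A i)) {C₁ C₂ : Matrix (Col q) (Col q) ℂ}
    (h₁ : 0 ≤ C₁) (h₁e : IsEven C₁) (h₂ : 0 ≤ C₂) (h₂e : IsEven C₂)
    (e₁ : A (v00, b) * A (v00, b) + A (flp a v00, b) * A (flp a v00, b) = (2 : ℂ) • (C₁ * C₁))
    (e₂ : A (v11, b) * A (v11, b) + A (flp a v11, b) * A (flp a v11, b) = (2 : ℂ) • (C₂ * C₂)) :
    star (lift (twRep q) (push (colHom b) (Pdir a))) * kron A
        * lift (twRep q) (push (colHom b) (Pdir a))
      ≤ kron fun i => if i = (v11, b) ∨ i = (flp a v11, b) then C₂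
          else if i = (v00, b) ∨ i = (flp a v00, b) then C₁ else A i := by
  have d1 : ∀ a : Fin 2, v00 ≠ flp a v00 ∧ v11 ≠ flp a v11 ∧ v11 ≠ v00 ∧ v11 ≠ flp a v00 ∧
      flp a v11 ≠ v00 ∧ flp a v11 ≠ flp a v00 := by decide +kernel
  obtain ⟨n1, n2, n3, n4, n5, n6⟩ := d1 a
  rw [Pdir_eq_edge, map_mul, push_colHom_edge, push_colHom_edge, map_mul, star_mul,
    (isStarProjection_lift_edge _ _).isSelfAdjoint.star_eq,
    (isStarProjection_lift_edge _ _).isSelfAdjoint.star_eq]
  have k1 := edge_conj_le hA hAe (i := (v00, b)) (j := (flp a v00, b)) (by simp [n1]) h₁ h₁e e₁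
  have k2 := star_left_conjugate_le_conjugate k1 (lift (twRep q) (edge (v11, b) (flp a v11, b)))
  rw [(isStarProjection_lift_edge _ _).isSelfAdjoint.star_eq] at k2
  have k3 := edge_conj_le (A := fun i => if i = (v00, b) ∨ i = (flp a v00, b) then C₁ else A i)
    (fun i => by split_ifs; exacts [h₁, hA i]) (fun i => by split_ifs; exacts [h₁e, hAe i])
    (i := (v11, b)) (j := (flp a v11, b)) (by simp [n2]) h₂ h₂e (by simp [n3, n4, n5, n6, e₂])
  refine le_trans (le_of_eq ?_) (k2.trans k3)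
  simp only [mul_assoc]

theorem sum_K4 {M : Type*} [AddCommMonoid M] (a : Fin 2) (f : K4 → M) :
    ∑ k, f k = (f v00 + f (flp a v00)) + (f v11 + f (flp a v11)) := by
  have h : ∀ a : Fin 2, (univ : Finset K4) = {v00, flp a v00, v11, flp a v11} := by decide +kernel
  have d1 : ∀ a : Fin 2, v00 ∉ ({flp a v00, v11, flp a v11} : Finset K4) ∧
      flp a v00 ∉ ({v11, flp a v11} : Finset K4) ∧ v11 ≠ flp a v11 := by decide +kernel
  rw [h a, sum_insert (d1 a).1, sum_insert (d1 a).2.1, sum_pair (d1 a).2.2, add_assoc]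

theorem col_conj_le {y : GA (Perm K4)} (hy : IsCol4 y) (b : β)
    {A : K4 × β → Matrix (Col q) (Col q) ℂ} (hA : ∀ i, 0 ≤ A i) (hAe : ∀ i, IsEven (A i))
    {C : Matrix (Col q) (Col q) ℂ} (hC : 0 ≤ C) (hCe : IsEven C)
    (h : ∑ k, A (k, b) * A (k, b) = (4 : ℂ) • (C * C)) :
    star (lift (twRep q) (push (colHom b) y)) * kron A * lift (twRep q) (push (colHom b) y)
      ≤ kron fun i => if i.2 = b then C else A i := by
  obtain ⟨a, a', haa, rfl⟩ := hy.exists
  obtain ⟨C₁, h₁, h₁e, e₁⟩ := exists_mean (hA (v00, b)) (hA (flp a v00, b)) (hAe _) (hAe _)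
  obtain ⟨C₂, h₂, h₂e, e₂⟩ := exists_mean (hA (v11, b)) (hA (flp a v11, b)) (hAe _) (hAe _)
  have d1 : ∀ a a' : Fin 2, a ≠ a' → flp a' v00 = flp a v11 ∧ flp a' v11 = flp a v00 ∧
      v00 ≠ v11 ∧ v00 ≠ flp a v11 ∧ flp a v00 ≠ v11 ∧ flp a v00 ≠ flp a v11 ∧
      ∀ k, k = v00 ∨ k = flp a v00 ∨ k = v11 ∨ k = flp a v11 := by decide +kernel
  obtain ⟨n1, n2, n3, n4, n5, n6, n7⟩ := d1 a a' haa
  have hm : C₁ * C₁ + C₂ * C₂ = (2 : ℂ) • (C * C) := by
    rw [sum_K4 a, e₁, e₂, ← smul_add] at h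
    have := congrArg (fun M => (1 / 2 : ℂ) • M) h
    simp only [smul_smul] at this
    norm_num at this
    exact this
  have k1 := layer_conj_le a b hA hAe h₁ h₁e h₂ h₂e e₁ e₂
  have k2 := star_left_conjugate_le_conjugate k1 (lift (twRep q) (push (colHom b) (Pdir a')))
  have k3 := layer_conj_le a' b (A := fun i => if i = (v11, b) ∨ i = (flp a v11, b) then C₂
      else if i = (v00, b) ∨ i = (flp a v00, b) then C₁ else A i)
    (fun i => by split_ifs; exacts [h₂, h₁, hA i]) (fun i => by split_ifs; exacts [h₂e, h₁e, hAe i])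
    hC hCe hC hCe (by simp [n1, n3, n4, hm]) (by simp [n2, n5, n6, ← hm, add_comm])
  rw [map_mul, map_mul, star_mul]
  refine le_trans (le_of_eq ?_) ((k2.trans k3).trans (le_of_eq ?_))
  · simp only [mul_assoc]
  · congr 1
    funext ⟨k, c⟩
    by_cases hc : c = b
    · subst hc
      rcases n7 k with rfl | rfl | rfl | rfl <;> simp [n1, n2]
    · simp [hc]

theorem starProj_mul_lift_col {y : GA (Perm K4)} (hy : IsCol4 y) {S : Finset (K4 × β)} {b : β}
    (h : ∀ k, (k, b) ∉ S) : starProj q S * lift (twRep q) (push (colHom b) y)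
      = lift (twRep q) (push (colHom b) y) * starProj q S := by
  obtain ⟨a, a', -, rfl⟩ := hy.exists
  have key : ∀ k k', Commute (starProj q S) (lift (twRep q) (edge (k, b) (k', b))) :=
    fun k k' => starProj_mul_lift_edge (by simp [h])
  simp only [Pdir_eq_edge, map_mul, push_colHom_edge]
  exact ((key _ _).mul_right (key _ _)).mul_right ((key _ _).mul_right (key _ _))

theorem lift_col_mul_starProj {y : GA (Perm K4)} (hy : IsCol4 y) {S : Finset (K4 × β)} {b : β}
    (h : ∀ k, (k, b) ∈ S) : lift (twRep q) (push (colHom b) y) * starProj q S = starProj q S := by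
  obtain ⟨a, a', -, rfl⟩ := hy.exists
  simp only [Pdir_eq_edge, map_mul, push_colHom_edge, mul_assoc,
    lift_edge_mul_starProj (h _) (h _)]

theorem starProj_mul_lift_colOp {y : GA (Perm K4)} (hy : IsCol4 y) {S : Finset (K4 × β)}
    (U : Finset β) (h : ∀ b ∈ U, ∀ k, (k, b) ∉ S) :
    starProj q S * lift (twRep q) (colOp U y) = lift (twRep q) (colOp U y) * starProj q S := by
  induction U using Finset.induction_on with
  | empty => simp [colOp_empty, lift_one']
  | insert b U hb ih =>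
    rw [colOp_insert hb, map_mul, ← mul_assoc, ih fun c hc => h c (mem_insert_of_mem hc), mul_assoc,
      starProj_mul_lift_col hy (h b (mem_insert_self _ _)), mul_assoc]

section mean
variable {y : GA (Perm K4)} {A : K4 → Matrix (Col q) (Col q) ℂ} {C : Matrix (Col q) (Col q) ℂ}

theorem col_step (hy : IsCol4 y) (hA : ∀ i, 0 ≤ A i) (hAe : ∀ i, IsEven (A i)) (hC : 0 ≤ C)
    (hCe : IsEven C) (h : ∑ k, A k * A k = (4 : ℂ) • (C * C)) {U : Finset β} {b : β} (hb : b ∉ U) :
    star (lift (twRep q) (push (colHom b) y)) * kron (fun i : K4 × β => if i.2 ∈ U then C else A i.1)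
        * lift (twRep q) (push (colHom b) y)
      ≤ kron fun i : K4 × β => if i.2 ∈ insert b U then C else A i.1 := by
  refine (col_conj_le hy b (A := fun i : K4 × β => if i.2 ∈ U then C else A i.1)
    (fun i => by split_ifs; exacts [hC, hA _]) (fun i => by split_ifs; exacts [hCe, hAe _]) hC hCe
    (by simp [hb, h])).trans (le_of_eq ?_)
  congr 1
  funext i
  by_cases hi : i.2 = b <;> simp [hi]

theorem colOp_conj_le (hy : IsCol4 y) (hA : ∀ i, 0 ≤ A i) (hAe : ∀ i, IsEven (A i)) (hC : 0 ≤ C)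
    (hCe : IsEven C) (h : ∑ k, A k * A k = (4 : ℂ) • (C * C)) (U : Finset β) :
    star (lift (twRep q) (colOp U y)) * kron (fun i : K4 × β => A i.1) * lift (twRep q) (colOp U y)
      ≤ kron fun i : K4 × β => if i.2 ∈ U then C else A i.1 := by
  induction U using Finset.induction_on with
  | empty => simp [colOp_empty, lift_one']
  | insert b U hb ih =>
    refine le_trans (le_of_eq ?_) ((star_left_conjugate_le_conjugate ih
      (lift (twRep q) (push (colHom b) y))).trans (col_step hy hA hAe hC hCe h hb))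
    rw [colOp_insert hb, map_mul, star_mul]
    simp only [mul_assoc]

theorem starProj_conj_le (hy : IsCol4 y) (hA : ∀ i, 0 ≤ A i) (hAe : ∀ i, IsEven (A i)) (hC : 0 ≤ C)
    (hCe : IsEven C) (h : ∑ k, A k * A k = (4 : ℂ) • (C * C)) {S : Finset (K4 × β)}
    (U V : Finset β) (hV : ∀ b ∈ V, b ∉ U ∧ ∀ k, (k, b) ∈ S) :
    starProj q S * kron (fun i : K4 × β => if i.2 ∈ U then C else A i.1) * starProj q S
      ≤ starProj q S * kron (fun i : K4 × β => if i.2 ∈ V ∪ U then C else A i.1)
        * starProj q S := by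
  have hs := (isStarProjection_starProj (q := q) S).isSelfAdjoint.star_eq
  induction V using Finset.induction_on with
  | empty => simp
  | insert b V hb ih =>
    refine (ih fun c hc => hV c (mem_insert_of_mem hc)).trans ?_
    have hb' : b ∉ V ∪ U := by simp [hb, (hV b (mem_insert_self _ _)).1]
    have k1 := star_left_conjugate_le_conjugate (col_step hy hA hAe hC hCe h hb') (starProj q S)
    have k2 := lift_col_mul_starProj (q := q) hy (hV b (mem_insert_self _ _)).2
    have k3 := congrArg star k2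
    rw [star_mul, hs] at k3
    rw [hs, ← mul_assoc, ← mul_assoc, k3, mul_assoc _ _ (starProj q S), k2] at k1
    rwa [insert_union]

theorem le_two_smul (hA : ∀ i, 0 ≤ A i) (hC : 0 ≤ C) (h : ∑ k, A k * A k = (4 : ℂ) • (C * C))
    (k : K4) : A k ≤ (2 : ℂ) • C := by
  refine le_of_mul_self_le (hA k).isSelfAdjoint.star_eq
    (smul_nonneg (by norm_num [Complex.le_def]) hC) ?_
  rw [smul_mul_smul_comm, show (2 * 2 : ℂ) = 4 by norm_num, ← h]
  exact single_le_sum (f := fun k => A k * A k) (fun i _ => by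
    simpa [(hA i).isSelfAdjoint.star_eq] using star_mul_self_nonneg (A i)) (mem_univ k)

end mean

/-- The columns without stars. -/
def freeCols (S : Finset (K4 × β)) : Finset β := univ.filter fun b => ∀ k, (k, b) ∉ S

/-- The columns with only stars. -/
def fullCols (S : Finset (K4 × β)) : Finset β := univ.filter fun b => ∀ k, (k, b) ∈ S

/-- The contraction attached to a star set. -/
noncomputable def Nt (q : ℕ) (S : Finset (K4 × β)) (y : GA (Perm K4)) :
    Matrix (K4 × β → Col q) (K4 × β → Col q) ℂ :=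
  lift (twRep q) (colOp (freeCols S) y) * starProj q S

theorem Nt_eq {y : GA (Perm K4)} (hy : IsCol4 y) (S : Finset (K4 × β)) :
    Nt q S y = starProj q S * lift (twRep q) (colOp (freeCols S) y) :=
  (starProj_mul_lift_colOp hy _ fun _ hb => (mem_filter.1 hb).2).symm

theorem star_Nt_mul_le {y : GA (Perm K4)} (hy : IsCol4 y) (S : Finset (K4 × β)) :
    star (Nt q S y) * Nt q S y ≤ 1 := by
  have h1 := lift_mono (isU_twRep (q := q)) (star_colOp_mul_le hy (freeCols S))
  rw [map_mul, lift_one', lift_star isU_twRep] at h1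
  have h2 := star_left_conjugate_le_conjugate h1 (starProj q S)
  have hP := isStarProjection_starProj (q := q) S
  rw [mul_one, hP.isSelfAdjoint.star_eq, hP.isIdempotentElem.eq] at h2
  refine le_trans (le_of_eq ?_) (h2.trans hP.le_one)
  rw [Nt, star_mul, hP.isSelfAdjoint.star_eq]
  simp only [mul_assoc]

/-- The number of columns that contain both starred and unstarred cells. -/
def nMixed (S : Finset (K4 × β)) : ℕ := ((fullCols S ∪ freeCols S)ᶜ).card

theorem Nt_conj_kron_le {y : GA (Perm K4)} (hy : IsCol4 y) (S : Finset (K4 × β))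
    {A : K4 → Matrix (Col q) (Col q) ℂ} (hA : ∀ i, 0 ≤ A i) (hAe : ∀ i, IsEven (A i))
    (ht : ∀ i, (A i * A i).trace ≤ 1) :
    star (Nt q S y) * kron (fun i : K4 × β => A i.1) * Nt q S y
      ≤ ((16 : ℂ) ^ nMixed S) • Zp (K4 × β) q (-(1 / 2)) := by
  have hsq : ∀ i, 0 ≤ A i * A i := fun i => by
    simpa [(hA i).isSelfAdjoint.star_eq] using star_mul_self_nonneg (A i)
  have h3 : 0 ≤ (1 / 4 : ℂ) • ∑ k, A k * A k :=
    smul_nonneg (by norm_num [Complex.le_def]) (sum_nonneg fun i _ => hsq i)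
  set C := CFC.sqrt ((1 / 4 : ℂ) • ∑ k, A k * A k) with hCdef
  have hC : 0 ≤ C := CFC.sqrt_nonneg _
  have hCe : IsEven C := IsEven.sqrt fun a b hab => by
    simp [Matrix.sum_apply, fun k => (hAe k).mul (hAe k) a b hab]
  have hCC : C * C = (1 / 4 : ℂ) • ∑ k, A k * A k := CFC.sqrt_mul_sqrt_self _ h3
  have h : ∑ k, A k * A k = (4 : ℂ) • (C * C) := by
    rw [hCC, smul_smul]; norm_num
  have hCt : (C * C).trace ≤ 1 := by
    rw [hCC, Matrix.trace_smul, Matrix.trace_sum, smul_eq_mul]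
    have h4 : ∑ k, (A k * A k).trace ≤ ∑ _k : K4, (1 : ℂ) := sum_le_sum fun k _ => ht k
    have h5 := mul_le_mul_of_nonneg_left h4 (show (0 : ℂ) ≤ 1 / 4 by norm_num [Complex.le_def])
    refine h5.trans (le_of_eq ?_)
    simp
  have hP := isStarProjection_starProj (q := q) S
  have k1 := star_left_conjugate_le_conjugate (colOp_conj_le hy hA hAe hC hCe h (freeCols S))
    (starProj q S)
  rw [hP.isSelfAdjoint.star_eq] at k1
  have k2 := starProj_conj_le hy hA hAe hC hCe h (S := S) (freeCols S) (fullCols S) fun b hb =>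
    ⟨fun hb' => (mem_filter.1 hb').2 v00 ((mem_filter.1 hb).2 v00), (mem_filter.1 hb).2⟩
  have hD0 : ∀ i : K4 × β, 0 ≤ if i.2 ∈ fullCols S ∪ freeCols S then C else A i.1 := fun i => by
    split_ifs; exacts [hC, hA _]
  have k3 := conj_le_of_comm hP (kron_nonneg hD0) ((isBlock_kron fun i => by
    split_ifs; exacts [hCe, hAe _]).starProj_comm S)
  have k4 := kron_mono hD0
    (N := fun i => (if i.2 ∈ fullCols S ∪ freeCols S then 1 else 2 : ℂ) • C) fun i => by
      split_ifs
      · simp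
      · exact le_two_smul hA hC h _
  rw [kron_smul] at k4
  have k5 : ∏ i : K4 × β, (if i.2 ∈ fullCols S ∪ freeCols S then 1 else 2 : ℂ)
      = 16 ^ nMixed S := by
    rw [Fintype.prod_prod_type]
    have h1 : ∀ x : K4, ∏ b : β, (if (x, b).2 ∈ fullCols S ∪ freeCols S then 1 else 2 : ℂ)
        = 2 ^ nMixed S := fun x => by
      rw [prod_ite, prod_const_one, prod_const, one_mul, nMixed]
      congr 2
      ext b; simp
    rw [prod_congr rfl fun x _ => h1 x, prod_const, card_univ, Fintype.card_fun, Fintype.card_bool,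
      Fintype.card_fin, ← pow_mul, mul_comm, pow_mul]
    norm_num
  rw [k5] at k4
  have k6 := smul_le_smul_of_nonneg_left (kron_le_Zp_neg_half (ι := K4 × β) hC hCe hCt)
    (show (0 : ℂ) ≤ 16 ^ nMixed S by positivity)
  refine le_trans (le_of_eq ?_) (k1.trans (k2.trans (k3.trans (k4.trans k6))))
  rw [Nt, star_mul, hP.isSelfAdjoint.star_eq]
  simp only [mul_assoc]

theorem Nt_conj_rowT_le (hq : 1 ≤ q) {y : GA (Perm K4)} (hy : IsCol4 y) (S : Finset (K4 × β)) :
    star (Nt q S y) * rowT (fun _ : K4 => Zp β q (-(1 / 2))) * Nt q S y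
      ≤ (((((Fintype.card β : ℝ) + 1) ^ (15 * q ^ 2) * (3 / 2) ^ nMixed S) ^ 8 : ℝ) : ℂ)
        • Zp (K4 × β) q (-(1 / 2)) := by
  obtain ⟨J, _, _, w, A, hw, hws, hA, hZ⟩ := deFinetti (ι := β) hq
  have k1 := star_left_conjugate_le_conjugate
    (rowT_mono (κ := K4) (fun _ => Zp_nonneg (-(1 / 2))) fun _ => hZ) (Nt q S y)
  refine k1.trans ?_
  rw [rowT_sum, mul_sum, sum_mul]
  have k2 : ∀ jj : K4 → J, star (Nt q S y)
      * rowT (fun k => (w (jj k) : ℂ) • kron fun _ : β => A (jj k)) * Nt q S y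
      ≤ ((∏ k, w (jj k) : ℝ) : ℂ) • (((16 : ℂ) ^ nMixed S) • Zp (K4 × β) q (-(1 / 2))) := by
    intro jj
    rw [rowT_smul, rowT_kron (fun k _ => A (jj k)), mul_smul_comm, smul_mul_assoc]
    push_cast
    refine smul_le_smul_of_nonneg_left (Nt_conj_kron_le hy S (A := fun k => A (jj k))
      (fun k => (hA _).1) (fun k => (hA _).2.1) fun k => (hA _).2.2) ?_
    exact prod_nonneg fun k _ => by exact_mod_cast hw _
  refine (sum_le_sum fun jj _ => k2 jj).trans ?_
  rw [← sum_smul, smul_smul]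
  refine smul_le_smul_of_nonneg_right ?_ (Zp_nonneg _)
  have k3 : ∑ jj : K4 → J, ∏ k, w (jj k) = (∑ j, w j) ^ 4 := by
    rw [← Fintype.piFinset_univ, ← Finset.prod_univ_sum]
    simp
  have k4 : (∑ j, w j) ^ 4 * 16 ^ nMixed S
      ≤ (((Fintype.card β : ℝ) + 1) ^ (15 * q ^ 2) * (3 / 2) ^ nMixed S) ^ 8 := by
    rw [mul_pow, ← pow_mul, ← pow_mul, mul_comm (nMixed S), pow_mul (3 / 2 : ℝ),
      show 15 * q ^ 2 * 8 = 30 * q ^ 2 * 4 by ring, pow_mul _ (30 * q ^ 2)]
    have := sum_nonneg fun j (_ : j ∈ univ) => hw j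
    gcongr
    norm_num
  rw [← Complex.ofReal_sum, k3]
  exact_mod_cast k4

theorem rowT_Zp_mul (s t : ℝ) : rowT (fun _ : K4 => Zp β q s) * rowT (fun _ : K4 => Zp β q t)
    = rowT fun _ : K4 => Zp β q (s + t) := by
  simp only [rowT_mul, Zp_mul]

/-- The main operator inequality. -/
theorem Nt_conj_Zp_le (hq : 1 ≤ q) {y : GA (Perm K4)} (hy : IsCol4 y) (S : Finset (K4 × β)) :
    Nt q S y * Zp (K4 × β) q (1 / 16) * star (Nt q S y)
      ≤ ((((Fintype.card β : ℝ) + 1) ^ (15 * q ^ 2) * (3 / 2) ^ nMixed S : ℝ) : ℂ)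
        • rowT fun _ : K4 => Zp β q (1 / 16) := by
  set R : ℝ := ((Fintype.card β : ℝ) + 1) ^ (15 * q ^ 2) * (3 / 2) ^ nMixed S with hR
  have hR0 : 0 ≤ R := by positivity
  set N := Nt q S y with hN
  have hZs : ∀ s, star (Zp (K4 × β) q s) = Zp (K4 × β) q s := fun s =>
    (Zp_nonneg s).isSelfAdjoint.star_eq
  have hD0 : ∀ s, 0 ≤ rowT fun _ : K4 => Zp β q s := fun s => rowT_nonneg fun _ => Zp_nonneg s
  have hDs : ∀ s, star (rowT fun _ : K4 => Zp β q s) = rowT fun _ : K4 => Zp β q s := fun s =>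
    (hD0 s).isSelfAdjoint.star_eq
  have k1 := star_left_conjugate_le_conjugate (Nt_conj_rowT_le hq hy S) (Zp (K4 × β) q (1 / 4))
  rw [← hN, ← hR, mul_smul_comm, smul_mul_assoc, hZs, Zp_mul, Zp_mul,
    show (1 / 4 + -(1 / 2) + 1 / 4 : ℝ) = 0 by norm_num, Zp_zero] at k1
  have k2 := mul_star_le_of_star_mul_le
    (A := rowT (fun _ : K4 => Zp β q (-(1 / 4))) * N * Zp (K4 × β) q (1 / 4)) (K := R ^ 8) (by
      refine le_trans (le_of_eq ?_) k1
      rw [star_mul, star_mul, hZs, hDs, show (-(1 / 2) : ℝ) = -(1 / 4) + -(1 / 4) by norm_num,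
        ← rowT_Zp_mul]
      simp only [mul_assoc])
  have k3 := star_left_conjugate_le_conjugate k2 (rowT fun _ : K4 => Zp β q (1 / 4))
  have e1 : rowT (fun _ : K4 => Zp β q (1 / 4)) * rowT (fun _ : K4 => Zp β q (-(1 / 4))) = 1 := by
    rw [rowT_Zp_mul, add_neg_cancel, Zp_zero, rowT_one]
  have e2 : rowT (fun _ : K4 => Zp β q (-(1 / 4))) * rowT (fun _ : K4 => Zp β q (1 / 4)) = 1 := by
    rw [rowT_Zp_mul, neg_add_cancel, Zp_zero, rowT_one]
  have k4 : N * Zp (K4 × β) q (1 / 2) * star N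
      ≤ ((R ^ 8 : ℝ) : ℂ) • rowT fun _ : K4 => Zp β q (1 / 2) := by
    rw [star_mul, star_mul, hZs, hDs, hDs, mul_smul_comm, smul_mul_assoc, mul_one,
      rowT_Zp_mul] at k3
    rw [show (1 / 2 : ℝ) = 1 / 4 + 1 / 4 by norm_num, ← Zp_mul]
    refine le_trans (le_of_eq ?_) k3
    simp only [← mul_assoc, e1, one_mul]
    simp only [mul_assoc, e2, mul_one]
  have step : ∀ (s : ℝ) (r : ℝ), 0 ≤ r → N * Zp (K4 × β) q (s + s) * star N
      ≤ ((r ^ 2 : ℝ) : ℂ) • rowT (fun _ : K4 => Zp β q (s + s)) →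
      N * Zp (K4 × β) q s * star N ≤ (r : ℂ) • rowT fun _ : K4 => Zp β q s := by
    intro s r hr h
    refine conj_le_of_conj_sq_le (star_Nt_mul_le hy S) (hZs s)
      (smul_nonneg (by exact_mod_cast hr) (hD0 s)) ?_
    rw [Zp_mul, smul_mul_smul_comm, rowT_Zp_mul]
    convert h using 2
    push_cast
    ring
  refine step _ _ hR0 ?_
  refine step _ _ (by positivity) ?_
  refine step _ _ (by positivity) ?_
  have e3 : (1 / 16 + 1 / 16 + (1 / 16 + 1 / 16) + (1 / 16 + 1 / 16 + (1 / 16 + 1 / 16)) : ℝ)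
      = 1 / 2 := by norm_num
  have e4 : ((R ^ 2) ^ 2) ^ 2 = R ^ 8 := by ring
  rw [e3, e4]
  exact k4

end Crest.Agent.R155
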