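import Crest.Agent.R155.StepD

/-!
# The level of the parent is at least the sum of the levels of the children
-/

set_option linter.unusedSectionVars false

namespace Crest.Agent.R155

open scoped ComplexOrder MatrixOrder ComplexConjugate Matrix.Norms.L2Operator Matrix
open Finset GA Equiv

variable {ι κ β : Type} [Fintype ι] [DecidableEq ι] [Fintype κ] [DecidableEq κ] [Fintype β]
  [DecidableEq β] {q : ℕ}

/-- The effective level. -/
noncomputable def keff (p : Pat ι) (α : patGrp p → ℂ) : ℕ := sInf {j | KeffLe p α j}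

theorem keffLe_iff {p : Pat ι} {α : patGrp p → ℂ} (hα : IsIrr α) {j : ℕ} :
    KeffLe p α j ↔ keff p α ≤ j :=
  ⟨fun h => Nat.sInf_le h, fun h =>
    KeffLe.mono (Nat.sInf_mem (s := {j | KeffLe p α j}) ⟨_, keffLe_card hα le_rfl⟩) h⟩

theorem keff_le_card {p : Pat ι} {α : patGrp p → ℂ} (hα : IsIrr α) :
    keff p α ≤ Fintype.card ι := (keffLe_iff hα).1 (keffLe_card hα le_rfl)

theorem keff_tr (e : Perm ι) (p : Pat ι) (α : patGrp p → ℂ) :
    keff (p ∘ e.symm) (α ∘ (patTr e p).symm) = keff p α := by
  simp only [keff, keffLe_tr]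

/-- The projection onto the effective level `j`. -/
noncomputable def PiEq (β : Type) [Fintype β] [DecidableEq β] (q j : ℕ) :
    Matrix (β → Col q) (β → Col q) ℂ :=
  Mop q fun p α => if keff p α = j then 1 else 0

theorem sum_PiEq : ∑ j : Fin (Fintype.card β + 1), PiEq β q j = 1 := by
  simp only [PiEq]
  rw [sum_Mop, ← Mop_one]
  refine Mop_congr fun p α hα => ?_
  rw [Finset.sum_eq_single ⟨keff p α, Nat.lt_succ_of_le (keff_le_card hα)⟩]
  · simp
  · intro j _ hj
    exact if_neg fun h => hj (Fin.ext h.symm)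
  · simp

theorem PiEq_mul (i j : ℕ) : PiEq β q i * PiEq β q j = if i = j then PiEq β q i else 0 := by
  simp only [PiEq, Mop_mul]
  split_ifs with h
  · subst h
    exact Mop_congr fun p α _ => by split_ifs <;> simp
  · have : (0 : Matrix (β → Col q) (β → Col q) ℂ) = Mop q fun _ _ => 0 := by
      rw [← zero_smul ℂ (Mop q fun (_ : Pat β) _ => 0), smul_Mop]; simp
    rw [this]
    refine Mop_congr fun p α _ => ?_
    split_ifs with h1 h2
    · exact absurd (h1.symm.trans h2) h
    all_goals simp

theorem star_PiEq (j : ℕ) : star (PiEq β q j) = PiEq β q j := by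
  rw [PiEq, star_Mop]
  exact Mop_congr fun p α _ => by split_ifs <;> simp

theorem lift_blockRep_symz {p : Pat ι} {T : Finset ι} (hT : ∀ i ∈ T, p i = some false) :
    lift (blockRep q p) (res p (symz T)) = lift (permM (Col q)) (symz T) := by
  have hle := suppGrp_le_patGrp hT
  conv_rhs => rw [symz, avgSub, ← push_res_avgTw hle, lift_push]
  rw [lift_apply, lift_apply]
  refine sum_congr rfl fun g _ => ?_
  by_cases hg : (g : Perm ι) ∈ suppGrp T
  · have : patSgn p g = 1 := by
      rw [patSgn_eq_of_odd g.2 (g' := 1) (fun i hi => ?_) fun _ _ => rfl, sgnC_one]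
      exact (hg i fun h => by simp [hT i h] at hi).symm
    rw [blockRep_apply, this, one_smul]
    rfl
  · have : res p (symz T) g = 0 := avgTw_of_notMem (fun _ => 1) hg
    have h2 : res p (avgTw (suppGrp T) fun _ => 1) g = 0 := this
    rw [this, h2, zero_smul, zero_smul]

/-- Permutations of a single row. -/
def rowHom (k : κ) : Perm β →* Perm (κ × β) :=
  (blockHom (Equiv.refl (κ × β))).comp (MonoidHom.mulSingle (fun _ : κ => Perm β) k)

theorem rowHom_apply (k : κ) (g : Perm β) (l : κ) (b : β) :
    rowHom k g (l, b) = (l, if l = k then g b else b) := by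
  by_cases h : l = k
  · subst h; simp [rowHom, blockHom_refl_apply]
  · simp [rowHom, blockHom_refl_apply, h]

theorem permM_rowHom {X : Type} [Fintype X] [DecidableEq X] (k : κ) (g : Perm β) :
    permM X (rowHom k g) = rowT fun l => if l = k then permM X g else 1 := by
  ext c c'
  rw [rowT_apply, permM_apply]
  split_ifs with h
  · subst h
    refine (prod_eq_one fun l _ => ?_).symm
    by_cases hl : l = k
    · rw [if_pos hl, permM_apply, if_pos]
      funext b; simp [rowHom_apply, hl]
    · rw [if_neg hl, Matrix.one_apply, if_pos]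
      funext b; simp [rowHom_apply, hl]
  · obtain ⟨⟨l, b⟩, hi⟩ := Function.ne_iff.1 h
    refine (prod_eq_zero (mem_univ l) ?_).symm
    by_cases hl : l = k
    · rw [if_pos hl, permM_apply, if_neg]
      intro e
      exact hi (by simpa [rowHom_apply, hl] using congrFun e b)
    · rw [if_neg hl, Matrix.one_apply, if_neg]
      intro e
      exact hi (by simpa [rowHom_apply, hl] using congrFun e b)

theorem lift_permM_rowHom {X : Type} [Fintype X] [DecidableEq X] (k : κ) (a : GA (Perm β)) :
    lift (permM X) (push (rowHom k) a) = rowT fun l => if l = k then lift (permM X) a else 1 := by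
  rw [lift_push, lift_apply]
  ext c c'
  simp only [Matrix.sum_apply, Matrix.smul_apply, MonoidHom.comp_apply, permM_rowHom, rowT_apply,
    smul_eq_mul]
  rw [← Finset.mul_prod_erase univ _ (mem_univ k), if_pos rfl, lift_apply, Matrix.sum_apply,
    sum_mul]
  refine sum_congr rfl fun g _ => ?_
  rw [← Finset.mul_prod_erase univ _ (mem_univ k), if_pos rfl, Matrix.smul_apply, smul_eq_mul,
    mul_assoc]
  congr 2
  exact prod_congr rfl fun l hl => by simp [(mem_erase.1 hl).1]

theorem symz_mul_push_rowHom (T : Finset (κ × β)) (k : κ) :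
    symz T * push (rowHom k) (symz (rowOf T k)) = symz T := by
  have h1 : ∀ g : Perm β, symz (rowOf T k) g • (symz T * dl (rowHom k g))
      = symz (rowOf T k) g • symz T := by
    intro g
    by_cases hg : g ∈ suppGrp (rowOf T k)
    · have : rowHom k g ∈ suppGrp T := fun ⟨l, b⟩ hi => by
        rw [rowHom_apply]
        split_ifs with hl
        · rw [hg b (by simpa [← hl] using hi)]
        · rfl
      rw [symz.eq_1 T, avgSub, avgTw_mul_dl (isChar_one _) this]
      simp
    · have : symz (rowOf T k) g = 0 := avgTw_of_notMem (fun _ => 1) hg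
      rw [this, zero_smul, zero_smul]
  have h2 : ∑ g, symz (rowOf T k) g = 1 := by
    have h3 := congrArg (lift (1 : Perm β →* ℂ))
      (isStarProjection_symz (rowOf T k)).isIdempotentElem.eq
    have h4 : ∀ a : GA (Perm β), lift (1 : Perm β →* ℂ) a = ∑ g, a g := fun a => by
      simp [lift_apply]
    have h5 : ev (fun _ => (1 : ℂ)) (symz (rowOf T k)) ≠ 0 :=
      (isIrr_one.ev_symz_ne_zero_iff _).2 (by
        rw [(isIrr_one.lev_eq_zero_iff).2 rfl]; exact card_le_univ _)
    rw [map_mul, h4] at h3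
    simp only [ev_apply, mul_one] at h5
    exact mul_left_cancel₀ h5 (by rw [h3, mul_one])
  conv_lhs => rw [push, lift_apply, mul_sum]
  simp only [mul_smul_comm, MonoidHom.comp_apply, dlHom_apply, h1, ← sum_smul, h2, one_smul]

theorem patProj_eq_rowT (p : Pat (κ × β)) :
    patProj q p = rowT fun k => patProj q fun b => p (k, b) := by
  simp only [patProj, rowT, kron_diagonal]
  rw [Matrix.submatrix_diagonal_equiv]
  congr 1
  funext c
  simp only [Function.comp_apply]
  split_ifs with h
  · subst h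
    exact (prod_eq_one fun k _ => if_pos rfl).symm
  · obtain ⟨⟨k, b⟩, hi⟩ := Function.ne_iff.1 h
    exact (prod_eq_zero (mem_univ k) (if_neg fun e => hi (congrFun e b))).symm

theorem patProj_symz_PiEq {p : Pat β} {T : Finset β} (hT : ∀ i ∈ T, p i = some false) {j : ℕ}
    (hj : Fintype.card β < T.card + j) :
    patProj q p * lift (permM (Col q)) (symz T) * PiEq β q j = 0 := by
  rw [← lift_blockRep_symz hT, patProj_mul_lift, mul_assoc, PiEq, patProj_mul_Mop,
    patProj_mul_lift, ← mul_assoc, ← map_mul]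
  have : res p (symz T) * cen (fun α => if keff p α = j then 1 else 0) = 0 := by
    rw [← cen_comm, cen, sum_mul]
    refine sum_eq_zero fun α hα => ?_
    have hα := mem_Irr.1 hα
    split_ifs with h
    · have hpos : 0 ≤ res p (symz T) :=
        (isStarProjection_res_avgTw (suppGrp_le_patGrp hT) (isChar_one _)).nonneg
      rw [one_smul, eI_mul_eq_zero_iff hα hpos]
      by_contra h0
      have h1 : KeffLe p α (Fintype.card β - T.card) := ⟨T, hT, by omega, h0⟩
      have h2 := (keffLe_iff hα).1 h1
      have h3 := card_le_univ T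
      omega
    · rw [zero_smul, zero_mul]
  rw [this, map_zero, zero_mul]

theorem patProj_symz_rowT {p : Pat (κ × β)} {T : Finset (κ × β)} (hT : ∀ i ∈ T, p i = some false)
    {k : ℕ} (hk : Fintype.card (κ × β) ≤ T.card + k) {kk : κ → ℕ} (hkk : k < ∑ i, kk i) :
    patProj q p * lift (blockRep q p) (res p (symz T)) * rowT (fun i => PiEq β q (kk i)) = 0 := by
  obtain ⟨i, hi⟩ : ∃ i, Fintype.card β < (rowOf T i).card + kk i := by
    by_contra h
    push Not at h
    have h1 := sum_le_sum fun i (_ : i ∈ univ) => h i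
    rw [sum_add_distrib, sum_card_rowOf, sum_const, card_univ, smul_eq_mul] at h1
    rw [Fintype.card_prod] at hk
    omega
  have h2 : patProj q p * lift (permM (Col q)) (push (rowHom i) (symz (rowOf T i)))
      * rowT (fun i => PiEq β q (kk i)) = 0 := by
    rw [lift_permM_rowHom, patProj_eq_rowT, rowT_mul, rowT_mul]
    refine rowT_eq_zero (k := i) ?_
    rw [if_pos rfl]
    exact patProj_symz_PiEq (fun b hb => hT _ (mem_rowOf.1 hb)) hi
  have h3 : patProj q p * lift (permM (Col q)) (symz T)
      = lift (permM (Col q)) (symz T) * patProj q p := by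
    rw [← lift_blockRep_symz hT, patProj_mul_lift]
  rw [lift_blockRep_symz hT, ← symz_mul_push_rowHom T i, map_mul, ← mul_assoc, h3, mul_assoc,
    mul_assoc, ← mul_assoc (patProj q p), h2, mul_zero]

theorem patProj_eI_rowT {p : Pat (κ × β)} {α : patGrp p → ℂ} (hα : IsIrr α) {k : ℕ}
    (h : KeffLe p α k) {kk : κ → ℕ} (hkk : k < ∑ i, kk i) :
    patProj q p * lift (blockRep q p) (eI α) * rowT (fun i => PiEq β q (kk i)) = 0 := by
  obtain ⟨T, hT, hk, h0⟩ := h
  have h1 := eI_mul_sum_conj hα (res p (symz T))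
  have hc : (Fintype.card (patGrp p) : ℂ) * ev α (res p (symz T)) / α 1 ≠ 0 :=
    div_ne_zero (mul_ne_zero (by exact_mod_cast Fintype.card_ne_zero) h0) hα.one_ne_zero
  have h2 : ∀ g : patGrp p, dl g * res p (symz T) * dl g⁻¹
      = res p (symz (T.map (g : Perm (κ × β)).toEmbedding)) := by
    intro g
    rw [← relab_symz, relab_eq_conj]
    ext h
    simp [res, mul_dl_apply, dl_mul_apply]
  have h3 : patProj q p * lift (blockRep q p) (eI α * ∑ g, dl g * res p (symz T) * dl g⁻¹)
      * rowT (fun i => PiEq β q (kk i)) = 0 := by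
    rw [map_mul, ← mul_assoc, patProj_mul_lift, mul_assoc, mul_assoc, ← mul_assoc (patProj q p),
      map_sum, mul_sum, sum_mul, sum_eq_zero, mul_zero]
    intro g _
    rw [h2]
    refine patProj_symz_rowT (fun i hi => ?_) (by rwa [card_map]) hkk
    obtain ⟨j, hj, rfl⟩ := mem_map.1 hi
    exact ((g.2 j).1).trans (hT j hj)
  rw [h1, map_smul, mul_smul_comm, smul_mul_assoc] at h3
  exact (smul_eq_zero.1 h3).resolve_left hc

theorem Mop_mul_rowT_PiEq {f : ∀ p : Pat (κ × β), (patGrp p → ℂ) → ℂ} {k : ℕ}
    (hf : ∀ p α, IsIrr α → f p α ≠ 0 → KeffLe p α k) {kk : κ → ℕ} (hkk : k < ∑ i, kk i) :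
    Mop q f * rowT (fun i => PiEq β q (kk i)) = 0 := by
  rw [Mop, sum_mul]
  refine sum_eq_zero fun p _ => ?_
  rw [cen, map_sum, mul_sum, sum_mul]
  refine sum_eq_zero fun α hα => ?_
  by_cases h : f p α = 0
  · simp [h]
  · rw [map_smul, mul_smul_comm, smul_mul_assoc,
      patProj_eI_rowT (mem_Irr.1 hα) (hf p α (mem_Irr.1 hα) h) hkk, smul_zero]

/-- The admissible distributions of the level among the rows. -/
def goodKK (κ : Type) [Fintype κ] [DecidableEq κ] (m k : ℕ) : Finset (κ → Fin (m + 1)) :=
  univ.filter fun kk => ∑ i, (kk i : ℕ) ≤ k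

/-- The projection onto the admissible distributions of the level. -/
noncomputable def PiRows (κ β : Type) [Fintype κ] [DecidableEq κ] [Fintype β] [DecidableEq β]
    (q k : ℕ) : Matrix (κ × β → Col q) (κ × β → Col q) ℂ :=
  ∑ kk ∈ goodKK κ (Fintype.card β) k, rowT fun i => PiEq β q (kk i)

theorem star_PiRows (k : ℕ) : star (PiRows κ β q k) = PiRows κ β q k := by
  simp only [PiRows, star_sum, star_rowT, star_PiEq]

theorem Mop_mul_PiRows {f : ∀ p : Pat (κ × β), (patGrp p → ℂ) → ℂ} {k : ℕ}
    (hf : ∀ p α, IsIrr α → f p α ≠ 0 → KeffLe p α k) : Mop q f * PiRows κ β q k = Mop q f := by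
  have h1 : (1 : Matrix (κ × β → Col q) (κ × β → Col q) ℂ)
      = ∑ kk : κ → Fin (Fintype.card β + 1), rowT fun i => PiEq β q (kk i) := by
    rw [← rowT_sum (fun _ (j : Fin (Fintype.card β + 1)) => PiEq β q j), sum_PiEq, rowT_one]
  conv_rhs => rw [← mul_one (Mop q f), h1, mul_sum,
    ← sum_filter_add_sum_filter_not univ fun kk => ∑ i, (kk i : ℕ) ≤ k]
  rw [sum_eq_zero (s := univ.filter fun kk : κ → Fin (Fintype.card β + 1) => ¬ ∑ i, (kk i : ℕ) ≤ k),
    add_zero, PiRows, mul_sum, goodKK]
  intro kk hkk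
  exact Mop_mul_rowT_PiEq hf (not_le.1 (mem_filter.1 hkk).2)

/-- The weight of the children at the effective level `j`. -/
noncomputable def wEq (j : ℕ) (p : Pat β) (α : patGrp p → ℂ) : ℂ :=
  if keff p α = j then ((dtil p α ^ (1 / 16 : ℝ) : ℝ) : ℂ) else 0

theorem PiRows_conj (k : ℕ) : PiRows κ β q k * rowT (fun _ : κ => Zp β q (1 / 16)) * PiRows κ β q k
    = ∑ kk ∈ goodKK κ (Fintype.card β) k, rowT fun i => Mop q (wEq (kk i)) := by
  have h1 : ∀ i j : ℕ, PiEq β q i * Zp β q (1 / 16) * PiEq β q j
      = if i = j then Mop q (wEq i) else 0 := by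
    intro i j
    have h2 : PiEq β q i * Zp β q (1 / 16) = Zp β q (1 / 16) * PiEq β q i := by
      simp only [PiEq, Zp, Mop_mul, mul_comm]
    rw [h2, mul_assoc, PiEq_mul]
    split_ifs
    · rw [PiEq, Zp, Mop_mul]
      exact Mop_congr fun p α _ => by unfold wEq; split_ifs <;> simp
    · rw [mul_zero]
  rw [PiRows, sum_mul, sum_mul]
  refine sum_congr rfl fun kk hkk => ?_
  rw [mul_sum, Finset.sum_eq_single kk]
  · simp only [rowT_mul, h1, if_true]
  · intro kk' _ hne
    obtain ⟨i, hi⟩ := Function.ne_iff.1 hne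
    rw [rowT_mul, rowT_mul]
    refine rowT_eq_zero (k := i) ?_
    rw [h1, if_neg fun e => hi (Fin.ext e.symm)]
  · intro h
    exact absurd hkk h

end Crest.Agent.R155
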