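import Crest.Agent.R155.StepE

/-!
# The weighted trace of the parent for a fixed star set
-/

set_option linter.unusedSectionVars false

namespace Crest.Agent.R155

open scoped ComplexOrder MatrixOrder ComplexConjugate Matrix.Norms.L2Operator Matrix
open Finset GA Equiv

variable {ι β : Type} [Fintype ι] [DecidableEq ι] [Fintype β] [DecidableEq β] {q : ℕ}

theorem trace_mul_le {X : Type} [Fintype X] [DecidableEq X] {M A B : Matrix X X ℂ} (hM : 0 ≤ M)
    (h : A ≤ B) : (M * A).trace ≤ (M * B).trace := by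
  obtain ⟨b, rfl⟩ := CStarAlgebra.nonneg_iff_eq_star_mul_self.1 hM
  have h1 := star_right_conjugate_nonneg (sub_nonneg.2 h) b
  have h2 := (Matrix.nonneg_iff_posSemidef.1 h1).trace_nonneg
  rw [Matrix.trace_mul_comm, ← mul_assoc, mul_sub, Matrix.trace_sub] at h2
  exact sub_nonneg.1 h2

theorem tens_smul {κ H : Type} [Fintype κ] [Group H] [Fintype H] [DecidableEq H] (s : κ → ℂ)
    (z : κ → GA H) : tens (fun k => s k • z k) = (∏ k, s k) • tens z := by
  ext g
  simp [tens_apply, prod_mul_distrib]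

/-- The cost of a column with `v` stars. -/
noncomputable def cv (v : ℕ) : ℝ := if v = 0 then 1 else ((4 - v).factorial : ℝ) * (3 / 64)

theorem cv_nonneg (v : ℕ) : 0 ≤ cv v := by unfold cv; split_ifs <;> positivity

theorem mem_freeCols {S : Finset (K4 × β)} {b : β} : b ∈ freeCols S ↔ (colOf S b).card = 0 := by
  simp [freeCols, Finset.eq_empty_iff_forall_notMem]

theorem mem_fullCols {S : Finset (K4 × β)} {b : β} : b ∈ fullCols S ↔ (colOf S b).card = 4 := by
  have : Fintype.card K4 = 4 := by simp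
  rw [← this, card_eq_iff_eq_univ]
  simp [fullCols, Finset.eq_univ_iff_forall]

theorem fixPart_col_le {y : GA (Perm K4)} (hy : IsCol4 y) (S : Finset (K4 × β)) :
    fixPart S (blockLift (Equiv.prodComm K4 β) ((y * star y) ^ 2))
      ≤ ((∏ b, cv (colOf S b).card : ℝ) : ℂ)
        • (colOp (freeCols S) y * star (colOp (freeCols S) y)) := by
  have hY : 0 ≤ (y * star y) ^ 2 := by
    have := star_mul_self_nonneg (y * star y)
    rwa [star_mul, star_star, ← pow_two] at this
  rw [fixPart_blockLift, colOp_mul_star, colOp, ← map_smul]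
  push_cast
  rw [← tens_smul]
  refine push_mono _ (tens_mono (fun b => fixPart_nonneg _ hY) fun b => ?_)
  change fixPart (colOf S b) _ ≤ _
  by_cases hb : b ∈ freeCols S
  · have h0 := mem_freeCols.1 hb
    rw [if_pos hb, h0, card_eq_zero.1 h0, fixPart_empty, cv, if_pos rfl]
    simpa using hy.sq_le
  · have h0 : (colOf S b).card ≠ 0 := fun h => hb (mem_freeCols.2 h)
    rw [if_neg hb, cv, if_neg h0]
    have := fixPart_le (colOf S b) hY
    rw [hy.sq_apply_one] at this
    simpa using this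

theorem cost_le (S : Finset (K4 × β)) :
    (∏ b, cv (colOf S b).card) * (3 / 2) ^ nMixed S ≤ (233 / 500 : ℝ) ^ S.card := by
  have h1 : (3 / 2 : ℝ) ^ nMixed S = ∏ b, if b ∈ fullCols S ∪ freeCols S then 1 else 3 / 2 := by
    rw [prod_ite, prod_const_one, prod_const, one_mul, nMixed]
    congr 2
    ext b; simp
  rw [h1, ← prod_mul_distrib, ← sum_card_colOf, ← prod_pow_eq_pow_sum]
  refine prod_le_prod (fun b _ => mul_nonneg (cv_nonneg _) (by split_ifs <;> norm_num)) fun b _ => ?_
  have h4 : (colOf S b).card ≤ 4 := by simpa using card_le_univ (colOf S b)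
  simp only [mem_union, mem_fullCols, mem_freeCols]
  generalize (colOf S b).card = v at h4
  interval_cases v <;> norm_num [cv, Nat.factorial]

theorem trS_wEq_nonneg (S : Finset β) {a : GA (Perm β)} (ha : 0 ≤ a) (j : ℕ) :
    0 ≤ trS S a (Mop q (wEq j)) := by
  rw [trS_Mop]
  refine sum_nonneg fun p _ => ?_
  split_ifs
  · refine sum_nonneg fun α hα => ?_
    have hα := mem_Irr.1 hα
    obtain ⟨n, hn⟩ := exists_mlt_eq_nat (q := q) p hα
    refine mul_nonneg (mul_nonneg (by rw [hn]; positivity) ?_)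
      (hα.isTr.pos _ (pull_nonneg (patGrp p).subtype_injective ha))
    unfold wEq
    split_ifs
    · exact_mod_cast Real.rpow_nonneg (dtil_pos hα).le _
    · exact le_rfl
  · exact le_rfl

theorem trS_sum {J : Type} (s : Finset J) (S : Finset ι) (F : GA (Perm ι))
    (T : J → Matrix (ι → Col q) (ι → Col q) ℂ) : trS S F (∑ j ∈ s, T j) = ∑ j ∈ s, trS S F (T j) := by
  simp only [trS, dfun, Matrix.sum_apply, mul_sum]
  rw [sum_comm]
  refine sum_congr rfl fun c _ => ?_
  split_ifs
  · rw [sum_comm]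
    refine sum_congr rfl fun g _ => ?_
    split_ifs <;> simp
  · simp

theorem isBlock_sum {J : Type} (s : Finset J) {T : J → Matrix (ι → Col q) (ι → Col q) ℂ}
    (h : ∀ j, IsBlock (T j)) : IsBlock (∑ j ∈ s, T j) := fun c c' hc => by
  simp [Matrix.sum_apply, fun j => h j c c' hc]

theorem trS_parent_le (hq : 1 ≤ q) {y : GA (Perm K4)} (hy : IsCol4 y) {a : GA (Perm β)} (ha : 0 ≤ a)
    {k : ℕ} (P : ∀ p : Pat (K4 × β), (patGrp p → ℂ) → Prop) [∀ p α, Decidable (P p α)]
    (hP : Inv fun p α => if P p α then 1 else 0) (hPk : ∀ p α, P p α → KeffLe p α k)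
    (S : Finset (K4 × β)) :
    trS S (blockLift (Equiv.refl _) a * blockLift (Equiv.prodComm K4 β) ((y * star y) ^ 2))
        (Mop q fun p α => if P p α then ((dtil p α ^ (1 / 16 : ℝ) : ℝ) : ℂ) else 0)
      ≤ ((((Fintype.card β : ℝ) + 1) ^ (15 * q ^ 2) * (233 / 500) ^ S.card : ℝ) : ℂ)
        * ∑ kk ∈ goodKK K4 (Fintype.card β) k, ∏ i, trS (rowOf S i) a (Mop q (wEq (kk i))) := by
  set Pj : Matrix (K4 × β → Col q) (K4 × β → Col q) ℂ := Mop q fun p α => if P p α then 1 else 0
    with hPj
  set W : Matrix (K4 × β → Col q) (K4 × β → Col q) ℂ := Zp (K4 × β) q (1 / 32) * Pj with hW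
  set E := starProj q S with hE
  set A' := lift (twRep q) (fixPart S (blockLift (Equiv.refl (K4 × β)) a)) with hA'
  set B' := lift (twRep q) (fixPart S (blockLift (Equiv.prodComm K4 β) ((y * star y) ^ 2))) with hB'
  set N := lift (twRep q) (colOp (freeCols S) y) with hN
  set Pr := PiRows K4 β q k with hPr
  have hEp : IsStarProjection E := isStarProjection_starProj S
  have hEs : star E = E := hEp.isSelfAdjoint.star_eq
  have hEE : E * E = E := hEp.isIdempotentElem.eq
  have hPjs : star Pj = Pj := by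
    rw [hPj, star_Mop]; exact Mop_congr fun p α _ => by split_ifs <;> simp
  have hPjj : Pj * Pj = Pj := by
    rw [hPj, Mop_mul]; exact Mop_congr fun p α _ => by split_ifs <;> simp
  have hPjp : IsStarProjection Pj := ⟨hPjj, hPjs⟩
  have hPZ : ∀ s, Pj * Zp (K4 × β) q s = Zp (K4 × β) q s * Pj := fun s => by
    simp only [hPj, Zp, Mop_mul, mul_comm]
  have hZs : ∀ s, star (Zp (K4 × β) q s) = Zp (K4 × β) q s := fun s =>
    (Zp_nonneg s).isSelfAdjoint.star_eq
  have hWs : star W = W := by rw [hW, star_mul, hPjs, hZs, hPZ]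
  have hWW : W * W = Zp (K4 × β) q (1 / 16) * Pj := by
    rw [hW, mul_assoc, ← mul_assoc Pj, hPZ, mul_assoc, hPjj, ← mul_assoc, Zp_mul]
    norm_num
  have hf0 : (Mop q fun p α => if P p α then ((dtil p α ^ (1 / 16 : ℝ) : ℝ) : ℂ) else 0) = W * W := by
    rw [hWW, hPj, Zp, Mop_mul]
    exact Mop_congr fun p α _ => by split_ifs <;> simp
  have cPj : ∀ F, Commute Pj (lift (twRep q) F) := fun F => Mop_mul_lift hP F
  have cZ : ∀ s F, Commute (Zp (K4 × β) q s) (lift (twRep q) F) := fun s F =>
    Mop_mul_lift (inv_dtil_rpow s) F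
  have cW : ∀ F, Commute W (lift (twRep q) F) := fun F => (cZ _ F).mul_left (cPj F)
  have cEPj : Commute E Pj := (isBlock_Mop _).starProj_comm S
  have cEW : Commute E W := ((isBlock_Mop _).mul (isBlock_Mop _)).starProj_comm S
  have cEA : Commute E A' := starProj_mul_lift_fixPart S _
  have cEN : Commute E N := starProj_mul_lift_colOp hy _ fun _ hb => (mem_filter.1 hb).2
  have hA0 : 0 ≤ A' := lift_nonneg isU_twRep (fixPart_nonneg S (blockLift_nonneg _ ha))
  have hbW : IsBlock (W * W) := hf0 ▸ isBlock_Mop _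
  rw [hf0, ← trace_twRep S _ hbW, fixPart_mul
    (fun g hg i => blockLift_supp (Equiv.refl _) a hg i)
    (fun g hg i => blockLift_supp (Equiv.prodComm K4 β) _ hg i), map_mul, ← hA', ← hB', ← hE]
  -- move the weight to the first factor
  have e1 : (A' * B' * (W * W) * E).trace = (star (W * E) * A' * (W * E) * B').trace := by
    have h1 : star (W * E) * A' * (W * E) = (W * W * E) * A' := by
      rw [star_mul, hEs, hWs, cEW.eq, mul_assoc (W * E), ← ((cW _).mul_left cEA).eq, ← mul_assoc,
        mul_assoc W E, ← mul_assoc E W, cEW.eq, mul_assoc W E E, hEE, ← mul_assoc]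
    rw [h1, mul_assoc (A' * B'), Matrix.trace_mul_comm, mul_assoc (W * W * E)]
  have hB'le : B' ≤ ((∏ b, cv (colOf S b).card : ℝ) : ℂ) • (N * star N) := by
    have := lift_mono (isU_twRep (q := q)) (fixPart_col_le hy S)
    rwa [map_smul, map_mul, lift_star isU_twRep] at this
  have k1 := trace_mul_le (star_left_conjugate_nonneg hA0 (W * E)) hB'le
  have e2 : (star (W * E) * A' * (W * E) * (N * star N)).trace
      = (A' * (Nt q S y * (W * W) * star (Nt q S y))).trace := by
    have h1 : W * E * N = Nt q S y * W := by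
      rw [Nt, ← hN, ← hE, mul_assoc, cEN.eq, ← mul_assoc, (cW _).eq, mul_assoc, ← cEW.eq, mul_assoc]
    have h2 : star N * star (W * E) = W * star (Nt q S y) := by
      rw [← star_mul, h1, star_mul, hWs]
    rw [mul_assoc (star (W * E)), mul_assoc (star (W * E)), Matrix.trace_mul_comm, mul_assoc A',
      mul_assoc A', ← mul_assoc (W * E), h1, mul_assoc _ (star N), h2]
    simp only [mul_assoc]
  -- the operator inequality
  set M0 := Nt q S y * Zp (K4 × β) q (1 / 16) * star (Nt q S y) with hM0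
  have hM00 : 0 ≤ M0 := star_right_conjugate_nonneg (Zp_nonneg _) _
  have cPjNt : Commute Pj (Nt q S y) := (cPj _).mul_right cEPj.symm
  have cPjNt' : Commute Pj (star (Nt q S y)) := by
    have := congrArg star cPjNt.eq
    rw [star_mul, star_mul, hPjs] at this
    exact this.symm
  have cPjM0 : Commute Pj M0 := (cPjNt.mul_right (hPZ _)).mul_right cPjNt'
  have e3 : Nt q S y * (W * W) * star (Nt q S y) = Pj * M0 * Pj := by
    rw [cPjM0.eq, mul_assoc M0, hPjj, hM0, hWW, mul_assoc _ (star _), ← cPjNt'.eq]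
    simp only [mul_assoc]
  have hPPr : Pj * Pr = Pj := Mop_mul_PiRows fun p α _ h => hPk p α (by
    by_contra h'; exact h (if_neg h'))
  have hPrP : Pr * Pj = Pj := by
    have := congrArg star hPPr
    rwa [star_mul, hPjs, hPr, star_PiRows] at this
  have hEM : E * M0 * E = M0 := by
    have h1 : E * Nt q S y = Nt q S y := by rw [Nt_eq hy, ← mul_assoc, hEE]
    have h2 : star (Nt q S y) * E = star (Nt q S y) := by
      have := congrArg star h1
      rwa [star_mul, hEs] at this
    rw [hM0, ← mul_assoc, ← mul_assoc, h1, mul_assoc _ (star _), h2]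
  have e4 : Pj * M0 * Pj = star (Pr * E) * (Pj * M0 * Pj) * (Pr * E) := by
    rw [star_mul, hEs, hPr, star_PiRows, ← hPr]
    calc Pj * M0 * Pj = Pj * (E * M0 * E) * Pj := by rw [hEM]
      _ = (Pj * E) * M0 * (E * Pj) := by simp only [mul_assoc]
      _ = (E * (Pr * Pj)) * M0 * ((Pj * Pr) * E) := by rw [hPrP, hPPr, cEPj.eq]
      _ = _ := by simp only [mul_assoc]
  have k2 : Pj * M0 * Pj ≤ ((((Fintype.card β : ℝ) + 1) ^ (15 * q ^ 2) * (3 / 2) ^ nMixed S : ℝ) : ℂ)
      • (E * (Pr * rowT (fun _ : K4 => Zp β q (1 / 16)) * Pr) * E) := by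
    have h1 := star_left_conjugate_le_conjugate
      ((conj_le_of_comm hPjp hM00 cPjM0.eq).trans (Nt_conj_Zp_le hq hy S)) (Pr * E)
    rw [← e4, mul_smul_comm, smul_mul_assoc, star_mul, hEs, hPr, star_PiRows, ← hPr] at h1
    refine h1.trans (le_of_eq ?_)
    simp only [mul_assoc]
  have k3 := trace_mul_le hA0 k2
  have e5 : (A' * (E * (Pr * rowT (fun _ : K4 => Zp β q (1 / 16)) * Pr) * E)).trace
      = ∑ kk ∈ goodKK K4 (Fintype.card β) k, ∏ i, trS (rowOf S i) a (Mop q (wEq (kk i))) := by
    rw [← mul_assoc, ← mul_assoc, ← cEA.eq, mul_assoc E, mul_assoc E, Matrix.trace_mul_comm,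
      mul_assoc _ E E, hEE, hPr, PiRows_conj, hA', hE,
      trace_twRep S _ (isBlock_sum _ fun kk => isBlock_rowT fun i => isBlock_Mop _), trS_sum]
    simp only [trS_rowT]
  rw [mul_smul_comm, Matrix.trace_smul, e2, e3, smul_eq_mul] at k1
  rw [mul_smul_comm, Matrix.trace_smul, e5, smul_eq_mul] at k3
  have hc0 : (0 : ℂ) ≤ ((∏ b, cv (colOf S b).card : ℝ) : ℂ) := by
    exact_mod_cast prod_nonneg fun b _ => cv_nonneg _
  rw [e1]
  refine k1.trans ((mul_le_mul_of_nonneg_left k3 hc0).trans ?_)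
  rw [← mul_assoc]
  refine mul_le_mul_of_nonneg_right ?_
    (sum_nonneg fun kk _ => prod_nonneg fun i _ => trS_wEq_nonneg _ ha _)
  rw [← Complex.ofReal_mul, Complex.real_le_real, mul_left_comm]
  exact mul_le_mul_of_nonneg_left (cost_le S) (by positivity)

end Crest.Agent.R155
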