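import Crest.Agent.R155.Opn

/-!
# Symmetric groups: symmetrisers, levels, patterns and the induction hypothesis `Hyp`
-/

set_option linter.unusedSectionVars false

namespace Crest.Agent.R155

open scoped ComplexOrder MatrixOrder ComplexConjugate Matrix.Norms.L2Operator Matrix
open Finset GA Equiv

variable {ι : Type} [Fintype ι] [DecidableEq ι]

/-- Permutations supported in `T`. -/
def suppGrp (T : Finset ι) : Subgroup (Perm ι) where
  carrier := {g | ∀ i, i ∉ T → g i = i}
  one_mem' := fun _ _ => rfl
  mul_mem' := fun {a b} ha hb i hi => by simp [Perm.mul_apply, hb i hi, ha i hi]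
  inv_mem' := fun {a} ha i hi => by rw [Perm.inv_eq_iff_eq, ha i hi]

theorem mem_suppGrp {T : Finset ι} {g : Perm ι} : g ∈ suppGrp T ↔ ∀ i, i ∉ T → g i = i := Iff.rfl

/-- The sign as a complex number. -/
noncomputable def sgnC (g : Perm ι) : ℂ := ((Perm.sign g : ℤ) : ℂ)

theorem sgnC_mul (g h : Perm ι) : sgnC (g * h) = sgnC g * sgnC h := by simp [sgnC]

theorem sgnC_one : sgnC (1 : Perm ι) = 1 := by simp [sgnC]

theorem sgnC_inv (g : Perm ι) : sgnC g⁻¹ = sgnC g := by simp [sgnC]

theorem conj_sgnC (g : Perm ι) : conj (sgnC g) = sgnC g := by simp [sgnC]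

theorem sgnC_swap {i j : ι} (h : i ≠ j) : sgnC (swap i j) = -1 := by simp [sgnC, h]

theorem isChar_sgnC (S : Subgroup (Perm ι)) : IsChar S sgnC :=
  ⟨sgnC_one, fun g _ h _ => sgnC_mul g h, fun g _ => by rw [sgnC_inv, conj_sgnC]⟩

/-- The symmetriser over `T` (a projection). -/
noncomputable def symz (T : Finset ι) : GA (Perm ι) := avgSub (suppGrp T)

/-- The antisymmetriser over `T` (a projection). -/
noncomputable def altz (T : Finset ι) : GA (Perm ι) := avgTw (suppGrp T) sgnC

theorem isStarProjection_symz (T : Finset ι) : IsStarProjection (symz T) :=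
  isStarProjection_avgTw (isChar_one _)

theorem isStarProjection_altz (T : Finset ι) : IsStarProjection (altz T) :=
  isStarProjection_avgTw (isChar_sgnC _)

theorem card_suppGrp (T : Finset ι) : Nat.card (suppGrp T) = T.card.factorial := by
  have e : suppGrp T ≃ Perm T :=
    { toFun := fun g => g.1.subtypePerm fun i => by
        constructor
        · intro hi
          by_contra h
          have := g.2 i h
          rw [this] at hi
          exact h hi
        · intro hi
          by_contra h
          have := g.2 _ h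
          rw [g.1.injective this] at h
          exact h hi
      invFun := fun f => ⟨Perm.ofSubtype f, fun i hi => Perm.ofSubtype_apply_of_not_mem f hi⟩
      left_inv := fun g => Subtype.ext (Perm.ofSubtype_subtypePerm _ fun i hi => by
        by_contra h
        exact hi (g.2 i h))
      right_inv := fun f => Perm.subtypePerm_ofSubtype f }
  rw [Nat.card_congr e, Nat.card_eq_fintype_card, Fintype.card_perm, Fintype.card_coe]

open Classical in
/-- The level of a character: the number of points minus the largest size of a set whose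
symmetriser does not vanish (the number of boxes outside the first row). -/
noncomputable def lev (χ : Perm ι → ℂ) : ℕ :=
  Fintype.card ι - (univ.filter fun T : Finset ι => ev χ (symz T) ≠ 0).sup Finset.card

theorem lev_le_card (χ : Perm ι → ℂ) : lev χ ≤ Fintype.card ι := Nat.sub_le _ _

theorem symz_empty : symz (∅ : Finset ι) = 1 := by
  ext g
  by_cases hg : g = 1
  · subst hg
    rw [symz, avgSub, avgTw_of_mem _ (Subgroup.one_mem _), card_suppGrp]
    simp [one_apply]
  · rw [symz, avgSub, avgTw_of_notMem, one_apply, if_neg hg]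
    intro h
    exact hg (Equiv.ext fun i => h i (by simp))

theorem exists_lev {χ : Perm ι → ℂ} (hχ : IsIrr χ) :
    ∃ T : Finset ι, T.card + lev χ = Fintype.card ι ∧ ev χ (symz T) ≠ 0 := by
  classical
  obtain ⟨T, hT, h⟩ := Finset.exists_mem_eq_sup
    (univ.filter fun T : Finset ι => ev χ (symz T) ≠ 0)
    ⟨∅, by simp [symz_empty, hχ.one_ne_zero]⟩ Finset.card
  refine ⟨T, ?_, (mem_filter.1 hT).2⟩
  have := card_le_univ T
  unfold lev
  rw [h]
  omega

theorem card_add_lev_le {χ : Perm ι → ℂ} {T : Finset ι} (h : ev χ (symz T) ≠ 0) :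
    T.card + lev χ ≤ Fintype.card ι := by
  classical
  have h1 : T.card ≤ (univ.filter fun T : Finset ι => ev χ (symz T) ≠ 0).sup Finset.card :=
    Finset.le_sup (f := Finset.card) (mem_filter.2 ⟨mem_univ _, h⟩)
  have h2 : (univ.filter fun T : Finset ι => ev χ (symz T) ≠ 0).sup Finset.card
      ≤ Fintype.card ι := Finset.sup_le fun T _ => card_le_univ T
  unfold lev
  omega

/-! ### patterns -/

/-- A pattern marks every cell as even (`some false`), odd (`some true`) or starred (`none`). -/
abbrev Pat (ι : Type) := ι → Option Bool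

/-- Permutations that preserve the pattern and fix the starred cells. -/
def patGrp (p : Pat ι) : Subgroup (Perm ι) where
  carrier := {g | ∀ i, p (g i) = p i ∧ (p i = none → g i = i)}
  one_mem' := fun _ => ⟨rfl, fun _ => rfl⟩
  mul_mem' := fun {a b} ha hb i => ⟨by rw [Perm.mul_apply, (ha _).1, (hb _).1], fun hi => by
    rw [Perm.mul_apply, (hb i).2 hi, (ha i).2 hi]⟩
  inv_mem' := fun {a} ha i => ⟨by simpa using (ha (a⁻¹ i)).1.symm, fun hi => by
    rw [Perm.inv_eq_iff_eq, (ha i).2 hi]⟩

theorem mem_patGrp {p : Pat ι} {g : Perm ι} :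
    g ∈ patGrp p ↔ ∀ i, p (g i) = p i ∧ (p i = none → g i = i) := Iff.rfl

instance (p : Pat ι) : DecidablePred (· ∈ patGrp p) := fun g =>
  inferInstanceAs (Decidable (∀ i, p (g i) = p i ∧ (p i = none → g i = i)))

/-- The sign of the restriction of a permutation to the odd cells. -/
noncomputable def patSgn (p : Pat ι) (g : Perm ι) : ℂ :=
  if h : ∀ i, p (g i) = some true ↔ p i = some true then
    sgnC (g.subtypePerm (p := fun i => p i = some true) h) else 0

theorem patSgn_of_mem {p : Pat ι} {g : Perm ι} (hg : g ∈ patGrp p) :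
    patSgn p g = sgnC (g.subtypePerm (p := fun i => p i = some true) fun i => by
      simp only [(hg i).1]) := by
  unfold patSgn
  rw [dif_pos]

theorem isChar_patSgn (p : Pat ι) : IsChar (patGrp p) (patSgn p) where
  one := by rw [patSgn_of_mem (Subgroup.one_mem _)]; exact sgnC_one
  mul g hg h hh := by
    rw [patSgn_of_mem hg, patSgn_of_mem hh, patSgn_of_mem (Subgroup.mul_mem _ hg hh), ← sgnC_mul]
    rfl
  inv g hg := by
    rw [patSgn_of_mem hg, patSgn_of_mem (Subgroup.inv_mem _ hg), conj_sgnC, ← sgnC_inv]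
    rfl

/-- The number of starred cells. -/
def nStar (p : Pat ι) : ℕ := #{i | p i = none}

/-- The stabiliser of a colouring inside the pattern group. -/
def colGrp {q : ℕ} (p : Pat ι) (c : ι → Fin q) : Subgroup (Perm ι) where
  carrier := {g | g ∈ patGrp p ∧ ∀ i, c (g i) = c i}
  one_mem' := ⟨Subgroup.one_mem _, fun _ => rfl⟩
  mul_mem' := fun {a b} ha hb => ⟨Subgroup.mul_mem _ ha.1 hb.1, fun i => by
    rw [Perm.mul_apply, ha.2, hb.2]⟩
  inv_mem' := fun {a} ha => ⟨Subgroup.inv_mem _ ha.1, fun i => by simpa using (ha.2 (a⁻¹ i)).symm⟩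

theorem mem_colGrp {q : ℕ} {p : Pat ι} {c : ι → Fin q} {g : Perm ι} :
    g ∈ colGrp p c ↔ g ∈ patGrp p ∧ ∀ i, c (g i) = c i := Iff.rfl

theorem isChar_patSgn_colGrp {q : ℕ} (p : Pat ι) (c : ι → Fin q) :
    IsChar (colGrp p c) (patSgn p) :=
  ⟨(isChar_patSgn p).one, fun g hg h hh => (isChar_patSgn p).mul g hg.1 h hh.1,
    fun g hg => (isChar_patSgn p).inv g hg.1⟩

/-- Symmetrise over the even colour classes and antisymmetrise over the odd ones. -/
noncomputable def colz {q : ℕ} (p : Pat ι) (c : ι → Fin q) : GA (Perm ι) :=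
  avgTw (colGrp p c) (patSgn p)

/-- Restriction of a function to the pattern group. -/
noncomputable def res (p : Pat ι) : GA (Perm ι) →ₗ[ℂ] GA (patGrp p) := pull (patGrp p).subtype

/-- `α` occurs in the tensor space with `q` even and `q` odd colours. -/
def Adm (q : ℕ) (p : Pat ι) (α : patGrp p → ℂ) : Prop :=
  ∃ c : ι → Fin q, ev α (res p (colz p c)) ≠ 0

/-- All but at most `k` cells lie in a set of even cells whose symmetriser does not vanish. -/
def KeffLe (p : Pat ι) (α : patGrp p → ℂ) (k : ℕ) : Prop :=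
  ∃ T : Finset ι, (∀ i ∈ T, p i = some false) ∧ Fintype.card ι ≤ T.card + k ∧
    ev α (res p (symz T)) ≠ 0

/-- The number of patterns of the type of `p` times the degree of `α`. -/
noncomputable def dtil (p : Pat ι) (α : patGrp p → ℂ) : ℝ :=
  ((Fintype.card ι).factorial : ℝ) / ((Fintype.card (patGrp p) : ℝ) * ((nStar p).factorial : ℝ))
    * dim α

/-- The functional of the character induced from the pattern group. -/
noncomputable def indP (p : Pat ι) (α : patGrp p → ℂ) : GA (Perm ι) →ₗ[ℂ] ℂ :=
  ind (patGrp p).subtype (ev α)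

/-- The induction hypothesis of the weighted trace recursion. -/
def Hyp (q k : ℕ) (B : ℝ) (x : GA (Perm ι)) : Prop :=
  ∀ (p : Pat ι) (α : patGrp p → ℂ), IsIrr α → Adm q p α → KeffLe p α k →
    dtil p α ^ (1 / 16 : ℝ) * (indP p α ((star x * x) ^ 2)).re
      ≤ ((nStar p).factorial : ℝ) ^ (9 / 20 : ℝ) * B

theorem isTr_indP {p : Pat ι} {α : patGrp p → ℂ} (hα : IsIrr α) : IsTr (indP p α) :=
  isTr_ind (patGrp p).subtype_injective hα.isTr.pos

theorem dtil_pos {p : Pat ι} {α : patGrp p → ℂ} (hα : IsIrr α) : 0 < dtil p α := by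
  have := hα.dim_pos
  have h1 : 0 < Fintype.card (patGrp p) := Fintype.card_pos
  unfold dtil
  positivity

theorem KeffLe.mono {p : Pat ι} {α : patGrp p → ℂ} {k k' : ℕ} (h : KeffLe p α k) (hk : k ≤ k') :
    KeffLe p α k' := by
  obtain ⟨T, h1, h2, h3⟩ := h
  exact ⟨T, h1, by omega, h3⟩

theorem keffLe_card {p : Pat ι} {α : patGrp p → ℂ} (hα : IsIrr α) {k : ℕ}
    (hk : Fintype.card ι ≤ k) : KeffLe p α k := by
  refine ⟨∅, by simp, by simpa using hk, ?_⟩
  rw [symz_empty, res, pull_one (patGrp p).subtype_injective, ev_one]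
  exact hα.one_ne_zero

theorem Adm.mono {p : Pat ι} {α : patGrp p → ℂ} {q q' : ℕ} (h : Adm q p α) (hq : q ≤ q') :
    Adm q' p α := by
  obtain ⟨c, hc⟩ := h
  refine ⟨fun i => Fin.castLE hq (c i), ?_⟩
  have : colGrp p (fun i => Fin.castLE hq (c i)) = colGrp p c := by
    ext g
    simp [mem_colGrp]
  rwa [colz, this]

theorem Hyp.mono {q q' k k' : ℕ} {B B' : ℝ} {x : GA (Perm ι)} (h : Hyp q k B x) (hq : q' ≤ q)
    (hk : k' ≤ k) (hB : B ≤ B') : Hyp q' k' B' x := fun p α hα ha hke =>
  (h p α hα (ha.mono hq) (hke.mono hk)).trans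
    (mul_le_mul_of_nonneg_left hB (by positivity))

theorem Hyp.star' {q k : ℕ} {B : ℝ} {x : GA (Perm ι)} (h : Hyp q k B x) : Hyp q k B (star x) :=
  fun p α hα ha hke => by
    rw [(isTr_indP hα).star_sq]
    exact h p α hα ha hke

theorem Hyp.mul_unit {q k : ℕ} {B : ℝ} {x : GA (Perm ι)} (h : Hyp q k B x) {v : GA (Perm ι)}
    (hv : v * star v = 1) : Hyp q k B (x * v) := fun p α hα ha hke => by
  have e : (Star.star (x * v) * (x * v)) ^ 2
      = Star.star v * ((Star.star x * x) * (v * Star.star v) * (Star.star x * x) * v) := by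
    simp only [star_mul, pow_two, mul_assoc]
  rw [e, hv, (isTr_indP hα).comm, mul_one, mul_assoc, hv, mul_one, ← pow_two]
  exact h p α hα ha hke

theorem Hyp.unit_mul {q k : ℕ} {B : ℝ} {x : GA (Perm ι)} (h : Hyp q k B x) {u : GA (Perm ι)}
    (hu : star u * u = 1) : Hyp q k B (u * x) := fun p α hα ha hke => by
  have e : Star.star (u * x) * (u * x) = Star.star x * (Star.star u * u) * x := by
    simp only [star_mul, mul_assoc]
  rw [e, hu, mul_one]
  exact h p α hα ha hke

/-! ### blocks -/

/-- The embedding of a product of symmetric groups acting on the blocks `{k} × β`. -/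
def blockHom {κ β : Type} (e : ι ≃ κ × β) : (κ → Perm β) →* Perm ι where
  toFun g := e.symm.permCongr (Equiv.prodCongrRight g)
  map_one' := by ext i; simp [Equiv.prodCongrRight]
  map_mul' g h := by ext i; simp [Equiv.prodCongrRight]

theorem blockHom_apply {κ β : Type} (e : ι ≃ κ × β) (g : κ → Perm β) (i : ι) :
    blockHom e g i = e.symm ((e i).1, g (e i).1 (e i).2) := rfl

theorem blockHom_injective {κ β : Type} (e : ι ≃ κ × β) : Function.Injective (blockHom e) := by
  intro g h H
  ext k b
  have := congrArg (fun f : Perm ι => (e (f (e.symm (k, b)))).2) H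
  simpa [blockHom_apply] using this

/-- The same element acting independently on every block. -/
noncomputable def blockLift {κ β : Type} [Fintype κ] [DecidableEq κ] [Fintype β] [DecidableEq β]
    (e : ι ≃ κ × β) (x : GA (Perm β)) : GA (Perm ι) :=
  push (blockHom e) (tens fun _ => x)

section blockLift
variable {κ β : Type} [Fintype κ] [DecidableEq κ] [Fintype β] [DecidableEq β] (e : ι ≃ κ × β)

theorem blockLift_mul (x y : GA (Perm β)) : blockLift e (x * y) = blockLift e x * blockLift e y := by
  rw [blockLift, blockLift, blockLift, ← map_mul, ← tens_mul]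

theorem blockLift_one : blockLift e (1 : GA (Perm β)) = 1 := by
  rw [blockLift, tens_one, map_one]

theorem blockLift_star (x : GA (Perm β)) : blockLift e (star x) = star (blockLift e x) := by
  rw [blockLift, blockLift, ← push_star, ← tens_star]

theorem blockLift_pow (x : GA (Perm β)) (n : ℕ) : blockLift e (x ^ n) = blockLift e x ^ n := by
  induction n with
  | zero => simp [blockLift_one]
  | succ n ih => rw [pow_succ, pow_succ, blockLift_mul, ih]

theorem blockLift_nonneg {x : GA (Perm β)} (hx : 0 ≤ x) : 0 ≤ blockLift e x :=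
  push_nonneg _ (tens_nonneg fun _ => hx)

theorem blockLift_mono {x y : GA (Perm β)} (hx : 0 ≤ x) (h : x ≤ y) :
    blockLift e x ≤ blockLift e y :=
  push_mono _ (tens_mono (fun _ => hx) fun _ => h)

end blockLift

/-! ### the hypercube -/

/-- Permutations of the cube that only change the coordinate `i`. -/
def flipGrp {D : Type} (i : D) : Subgroup (Perm (D → Bool)) where
  carrier := {g | ∀ z j, j ≠ i → g z j = z j}
  one_mem' := fun _ _ _ => rfl
  mul_mem' := fun {a b} ha hb z j hj => by rw [Perm.mul_apply, ha _ j hj, hb _ j hj]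
  inv_mem' := fun {a} ha z j hj => by simpa using (ha (a⁻¹ z) j hj).symm

theorem mem_flipGrp {D : Type} {i : D} {g : Perm (D → Bool)} :
    g ∈ flipGrp i ↔ ∀ z j, j ≠ i → g z j = z j := Iff.rfl

/-- One round of the shuffle in direction `i`: every edge is swapped with probability `1/2`. -/
noncomputable def Pdir {D : Type} [Fintype D] [DecidableEq D] (i : D) : GA (Perm (D → Bool)) :=
  avgSub (flipGrp i)

theorem isStarProjection_Pdir {D : Type} [Fintype D] [DecidableEq D] (i : D) :
    IsStarProjection (Pdir i) := isStarProjection_avgTw (isChar_one _)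

/-- One pass through all directions. -/
noncomputable def Qd (d : ℕ) : GA (Perm (Fin d → Bool)) := ((List.finRange d).map Pdir).prod

theorem star_mul_le_one_mul {G : Type} [Group G] [Fintype G] [DecidableEq G] {a b : GA G}
    (ha : star a * a ≤ 1) (hb : star b * b ≤ 1) : star (a * b) * (a * b) ≤ 1 := by
  have := star_left_conjugate_le_conjugate ha b
  rw [mul_one] at this
  calc star (a * b) * (a * b) = star b * (star a * a) * b := by simp only [star_mul, mul_assoc]
    _ ≤ star b * b := this
    _ ≤ 1 := hb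

theorem star_mul_le_one_listProd {G : Type} [Group G] [Fintype G] [DecidableEq G]
    (l : List (GA G)) (h : ∀ a ∈ l, star a * a ≤ 1) : star l.prod * l.prod ≤ 1 := by
  induction l with
  | nil => simp
  | cons a l ih =>
    rw [List.prod_cons]
    exact star_mul_le_one_mul (h a (by simp)) (ih fun b hb => h b (by simp [hb]))

theorem star_Pdir_mul_le {D : Type} [Fintype D] [DecidableEq D] (i : D) :
    star (Pdir i) * Pdir i ≤ 1 := by
  rw [(isStarProjection_Pdir i).isSelfAdjoint.star_eq, (isStarProjection_Pdir i).isIdempotentElem.eq]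
  exact (isStarProjection_Pdir i).le_one

theorem star_Qd_mul_le (d : ℕ) : star (Qd d) * Qd d ≤ 1 :=
  star_mul_le_one_listProd _ fun a ha => by
    obtain ⟨i, -, rfl⟩ := List.mem_map.1 ha
    exact star_Pdir_mul_le i

/-- The two column operators on four cells. -/
def IsCol4 (y : GA (Perm (Fin 2 → Bool))) : Prop := y = Pdir 0 * Pdir 1 ∨ y = Pdir 1 * Pdir 0

/-- Operators obtained from `x₀` on the `ℓ`-cube by adding two directions at a time, on the right
or on the left, and by multiplying with unitary elements and relabelling. -/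
inductive Tree (ℓ : ℕ) (x₀ : GA (Perm (Fin ℓ → Bool))) :
    (d : ℕ) → GA (Perm (Fin d → Bool)) → Prop
  | base : Tree ℓ x₀ ℓ x₀
  | right {d : ℕ} {x : GA (Perm (Fin d → Bool))}
      (e : (Fin (d + 2) → Bool) ≃ (Fin 2 → Bool) × (Fin d → Bool)) {y : GA (Perm (Fin 2 → Bool))}
      (hy : IsCol4 y) (h : Tree ℓ x₀ d x) :
      Tree ℓ x₀ (d + 2) (blockLift e x * blockLift (e.trans (Equiv.prodComm _ _)) y)
  | left {d : ℕ} {x : GA (Perm (Fin d → Bool))}
      (e : (Fin (d + 2) → Bool) ≃ (Fin 2 → Bool) × (Fin d → Bool)) {y : GA (Perm (Fin 2 → Bool))}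
      (hy : IsCol4 y) (h : Tree ℓ x₀ d x) :
      Tree ℓ x₀ (d + 2) (blockLift (e.trans (Equiv.prodComm _ _)) y * blockLift e x)
  | unit {d : ℕ} {x u v : GA (Perm (Fin d → Bool))} (hu : star u * u = 1) (hv : v * star v = 1)
      (h : Tree ℓ x₀ d x) : Tree ℓ x₀ d (u * x * v)
  | relabel {d : ℕ} {x : GA (Perm (Fin d → Bool))} (e : (Fin d → Bool) ≃ (Fin d → Bool))
      (h : Tree ℓ x₀ d x) : Tree ℓ x₀ d (push e.permCongrHom.toMonoidHom x)

/-- The central weight `exp (z * level)`. -/
noncomputable def phi (z : ℂ) : GA (Perm ι) := cen fun χ => Complex.exp (z * lev χ)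

end Crest.Agent.R155
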