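import Mathlib
import Crest.Prelude.Def_Shuffle

/-!
# The shuffle on binary strings
-/

set_option autoImplicit false

namespace Crest.Agent.R155

open Finset Equiv Crest.ProbabilityR.Shuffle

lemma TV_bits_bij (n N : ℕ) (h : N = 2 ^ n) :
    Function.Bijective (fun (x : Fin N) (j : Fin n) => Nat.testBit x j) := by
  rw [Fintype.bijective_iff_injective_and_card]
  refine ⟨fun x y hxy => Fin.ext (Nat.eq_of_testBit_eq fun i => ?_), by simp [h]⟩
  by_cases hi : i < n
  · exact congrFun hxy ⟨i, hi⟩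
  · have h1 : 2 ^ n ≤ 2 ^ i := Nat.pow_le_pow_right (by norm_num) (by omega)
    have hx := x.2
    have hy := y.2
    rw [Nat.testBit_lt_two_pow (by omega), Nat.testBit_lt_two_pow (by omega)]

/-- Binary digits. -/
noncomputable def TV_bits (n N : ℕ) (h : N = 2 ^ n) : Fin N ≃ (Fin n → Bool) :=
  Equiv.ofBijective _ (TV_bits_bij n N h)

lemma TV_bits_apply (n N : ℕ) (h : N = 2 ^ n) (x : Fin N) (j : Fin n) :
    TV_bits n N h x j = Nat.testBit x j := rfl

/-- Positions as binary strings. -/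
noncomputable def TV_E (d : ℕ) : Fin (2 * 2 ^ d) ≃ (Fin (d + 1) → Bool) :=
  TV_bits (d + 1) _ (by ring)

/-- Flip the last coordinate according to the other coordinates. -/
def TV_fl {d : ℕ} (c : (Fin d → Bool) → Bool) : Perm (Fin (d + 1) → Bool) :=
  Function.Involutive.toPerm
    (fun z => Function.update z (Fin.last d) (xor (z (Fin.last d)) (c (Fin.init z))))
    (fun z => by
      simp only [Fin.init_update_last, Function.update_self, Function.update_idem]
      simp)

lemma TV_fl_apply {d : ℕ} (c : (Fin d → Bool) → Bool) (z : Fin (d + 1) → Bool) :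
    TV_fl c z = Function.update z (Fin.last d) (xor (z (Fin.last d)) (c (Fin.init z))) := rfl

/-- Permutations of the coordinates. -/
def TV_Rr (D : Type) : Perm D →* Perm (D → Bool) where
  toFun σ := Equiv.arrowCongr σ (Equiv.refl Bool)
  map_one' := rfl
  map_mul' _ _ := rfl

lemma TV_Rr_apply {D : Type} (σ : Perm D) (z : D → Bool) (j : D) :
    TV_Rr D σ z j = z (σ⁻¹ j) := rfl

/-- One shuffle on binary strings. -/
noncomputable def TV_step (d : ℕ) (c : Fin (2 ^ d) → Bool) : Perm (Fin (d + 1) → Bool) :=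
  TV_Rr _ (finRotate (d + 1)) * TV_fl (c ∘ (TV_bits d _ rfl).symm)

lemma TV_step_spec (d : ℕ) (c : Fin (2 ^ d) → Bool) (x : Fin (2 * 2 ^ d)) :
    TV_E d (stepPos (2 ^ d) c x) = TV_step d c (TV_E d x) := by
  have hx := x.2
  have hpos : 0 < 2 ^ d := by positivity
  have hinit : Fin.init (TV_E d x) = TV_bits d _ rfl ⟨x.val % 2 ^ d, Nat.mod_lt _ hpos⟩ := by
    funext j
    simp [Fin.init, TV_E, TV_bits_apply]
  have hlast : TV_E d x (Fin.last d) = decide (2 ^ d ≤ x.val) := by
    simp only [TV_E, TV_bits_apply, Fin.val_last]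
    by_cases h : 2 ^ d ≤ x.val
    · rw [Nat.testBit_of_two_pow_le_and_two_pow_add_one_gt h (by rw [pow_succ]; omega)]
      simp [h]
    · rw [Nat.testBit_lt_two_pow (by omega)]
      simp [h]
  funext j
  obtain ⟨i, rfl⟩ := (finRotate (d + 1)).surjective j
  simp only [TV_step, Perm.mul_apply, TV_Rr_apply, Perm.coe_inv, TV_fl_apply, hinit, hlast,
    Function.comp_apply, Equiv.symm_apply_apply]
  by_cases hi : i = Fin.last d
  · subst hi
    rw [finRotate_last, Function.update_self]
    simp only [TV_E, TV_bits_apply, stepPos, Fin.val_zero, Nat.testBit_zero]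
    generalize xor (decide (2 ^ d ≤ x.val)) (c ⟨x.val % 2 ^ d, Nat.mod_lt _ hpos⟩) = b
    cases b <;> simp [Nat.add_mod]
  · rw [Function.update_of_ne hi]
    simp only [TV_E, TV_bits_apply, coe_finRotate_of_ne_last hi, Nat.testBit_add_one, stepPos]
    have h1 : ∀ b : Bool, (2 * (x.val % 2 ^ d) + if b = true then 1 else 0) / 2 = x.val % 2 ^ d := by
      intro b; cases b <;> simp <;> omega
    rw [h1, Nat.testBit_mod_two_pow]
    simp [Fin.val_lt_last hi]

/-- Several shuffles on binary strings. -/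
noncomputable def TV_iter (d : ℕ) : (t : ℕ) → (Fin t → Fin (2 ^ d) → Bool) →
    Perm (Fin (d + 1) → Bool)
  | 0, _ => 1
  | t + 1, cs => TV_step d (cs (Fin.last t)) * TV_iter d t (fun i => cs i.castSucc)

lemma TV_iter_spec (d t : ℕ) (cs : Fin t → Fin (2 ^ d) → Bool) (x : Fin (2 * 2 ^ d)) :
    TV_E d (iterPos (2 ^ d) t cs x) = TV_iter d t cs (TV_E d x) := by
  induction t with
  | zero => rfl
  | succ t ih => rw [iterPos, TV_step_spec, ih]; rfl

open Classical in
/-- The law after `t` shuffles. -/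
noncomputable def TV_law (d t : ℕ) (g : Perm (Fin (d + 1) → Bool)) : ℝ :=
  (#{cs : Fin t → Fin (2 ^ d) → Bool | TV_iter d t cs = g} : ℝ) /
    Fintype.card (Fin t → Fin (2 ^ d) → Bool)

lemma TV_card (d : ℕ) : Fintype.card (Perm (Fin (d + 1) → Bool)) = (2 * 2 ^ d).factorial := by
  rw [Fintype.card_perm]; congr 1; simp; ring

lemma TV_eq (d t : ℕ) : tvFromUniform (2 ^ d) t = 1 / 2 * ∑ g : Perm (Fin (d + 1) → Bool),
    |TV_law d t g - 1 / (Fintype.card (Perm (Fin (d + 1) → Bool)) : ℝ)| := by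
  unfold tvFromUniform
  congr 1
  refine Fintype.sum_equiv (TV_E d).permCongr _ _ fun g => ?_
  rw [TV_card]
  congr 2
  unfold Crest.FinProb.uniformProb TV_law
  congr 3
  ext cs
  simp only [Finset.mem_filter, Finset.mem_univ, true_and, Set.mem_ofPred_eq]
  constructor
  · intro h
    ext z : 1
    obtain ⟨x, rfl⟩ := (TV_E d).surjective z
    rw [← TV_iter_spec, h]; simp
  · intro h
    funext x
    apply (TV_E d).injective
    rw [TV_iter_spec, h]; simp

lemma TV_law_sum (d t : ℕ) : ∑ g, TV_law d t g = 1 := by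
  classical
  unfold TV_law
  rw [← Finset.sum_div, div_eq_one_iff_eq (by exact_mod_cast Fintype.card_ne_zero)]
  have := Finset.card_eq_sum_card_fiberwise (f := TV_iter d t) (s := univ) (t := univ) (by simp)
  rw [Finset.card_univ] at this
  rw [this]
  push_cast
  rfl

theorem TV_lower (d t : ℕ) :
    1 - (2 : ℝ) ^ (2 ^ d * t) / ((2 * 2 ^ d).factorial : ℝ) ≤ tvFromUniform (2 ^ d) t := by
  classical
  rw [TV_eq, ← TV_card]
  set N : ℝ := (Fintype.card (Perm (Fin (d + 1) → Bool)) : ℝ) with hN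
  have hN0 : 0 < N := by rw [hN]; exact_mod_cast Fintype.card_pos
  set A := univ.image (TV_iter d t)
  have hA : (A.card : ℝ) ≤ 2 ^ (2 ^ d * t) := by
    have : A.card ≤ 2 ^ (2 ^ d * t) := by
      refine le_trans Finset.card_image_le (le_of_eq ?_)
      simp [pow_mul]
    exact_mod_cast this
  have h0 : ∀ g ∈ Aᶜ, TV_law d t g = 0 := by
    intro g hg
    unfold TV_law
    rw [Finset.filter_eq_empty_iff.mpr]
    · simp
    · intro cs _ h
      exact (Finset.mem_compl.mp hg) (Finset.mem_image.mpr ⟨cs, Finset.mem_univ _, h⟩)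
  have h1 : ∑ g ∈ A, TV_law d t g = 1 := by
    rw [← TV_law_sum d t, ← Finset.sum_add_sum_compl A, Finset.sum_eq_zero h0, add_zero]
  have h2 : ∑ g ∈ A, (TV_law d t g - 1 / N) ≤ ∑ g ∈ A, |TV_law d t g - 1 / N| :=
    Finset.sum_le_sum fun g _ => le_abs_self _
  have h3 : ∑ g ∈ Aᶜ, |TV_law d t g - 1 / N| = 1 - A.card / N := by
    rw [Finset.sum_congr rfl (g := fun _ => 1 / N) fun g hg => by
      rw [h0 g hg, zero_sub, abs_neg, abs_of_pos (by positivity)]]
    rw [Finset.sum_const, Finset.card_compl, nsmul_eq_mul, Nat.cast_sub (Finset.card_le_univ _), ← hN]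
    field_simp
  rw [Finset.sum_sub_distrib, h1, Finset.sum_const, nsmul_eq_mul, mul_one_div] at h2
  rw [← Finset.sum_add_sum_compl A, h3]
  have h4 : (A.card : ℝ) / N ≤ 2 ^ (2 ^ d * t) / N := by gcongr
  linarith

end Crest.Agent.R155
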