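import Crest.Agent.R155.Sym
import Crest.Agent.R155.TVAux
import Crest.Prelude.Def_Shuffle

/-!
# The upper bound lemma for the shuffle
-/

set_option linter.unusedSectionVars false

namespace Crest.Agent.R155

open scoped ComplexOrder MatrixOrder ComplexConjugate Matrix.Norms.L2Operator Matrix
open Finset GA Equiv

section general

variable {G : Type} [Group G] [Fintype G] [DecidableEq G]

lemma TV_ev_one_eq (a : GA G) : ev (fun _ => 1) a = lift (1 : G →* ℂ) a := by
  simp [ev_apply, lift_apply]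

/-- The upper bound lemma in a finite group. -/
theorem TV_upper (μ : GA G) (hμ : ev (fun _ => 1) μ = 1) :
    ∑ g, ‖μ g - 1 / (Fintype.card G : ℂ)‖
      ≤ √(∑ χ ∈ (Irr G).erase (fun _ => 1), dim χ ^ 2 * opn χ μ ^ 2) := by
  classical
  set a : GA G := μ - eI (fun _ => 1) with ha
  have hN : (Fintype.card G : ℂ) ≠ 0 := by exact_mod_cast Fintype.card_ne_zero
  have ha' : ∀ g, a g = μ g - 1 / (Fintype.card G : ℂ) := fun g => by simp [ha, eI]
  refine Real.le_sqrt_of_sq_le ?_
  simp only [← ha']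
  have h1 : (∑ g, ‖a g‖) ^ 2 ≤ Fintype.card G * ∑ g, ‖a g‖ ^ 2 := by
    simpa using sq_sum_le_card_mul_sum_sq (s := univ) (f := fun g => ‖a g‖)
  have h2 : (star a * a) 1 = ((∑ g, ‖a g‖ ^ 2 : ℝ) : ℂ) := by
    rw [mul_apply']
    push_cast
    refine Finset.sum_congr rfl fun g _ => ?_
    simp [Complex.conj_mul']
  have h3 := congrArg Complex.re (plancherel (star a * a))
  rw [h2, ← Complex.ofReal_natCast, ← Complex.ofReal_mul, Complex.ofReal_re, Complex.re_sum,
    ← Finset.add_sum_erase _ _ (mem_Irr.2 isIrr_one)] at h3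
  have h4 : ev (fun _ => 1) (star a * a) = 0 := by
    have : lift (1 : G →* ℂ) a = 0 := by
      rw [← TV_ev_one_eq, ha, map_sub, hμ]
      simp [ev_apply, eI, hN]
    rw [TV_ev_one_eq, map_mul, this, mul_zero]
  rw [h4, mul_zero, Complex.zero_re, zero_add] at h3
  refine h1.trans (h3.le.trans (Finset.sum_le_sum fun χ hχ => ?_))
  obtain ⟨hne, hχ⟩ := Finset.mem_erase.1 hχ
  have hχ' := mem_Irr.1 hχ
  have h5 : ev χ (star a * a) = ev χ (star μ * μ) := by
    obtain ⟨r, rfl⟩ := hχ'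
    have : lift r.ρ a = lift r.ρ μ := by
      rw [ha, map_sub, r.lift_eI isIrr_one, if_neg (Ne.symm hne), sub_zero]
    rw [r.ev_chr, r.ev_chr, map_mul, map_mul, lift_star r.unit, lift_star r.unit, this]
  rw [h5, ← hχ'.coe_dim, Complex.re_ofReal_mul, sq (dim χ), mul_assoc]
  exact mul_le_mul_of_nonneg_left (hχ'.ev_star_mul_le μ) hχ'.dim_pos.le

/-- The law of a random group element. -/
noncomputable def TV_lawOf {Ω : Type} [Fintype Ω] (X : Ω → G) : GA G :=
  (Fintype.card Ω : ℂ)⁻¹ • ∑ ω, dl (X ω)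

lemma TV_lawOf_apply {Ω : Type} [Fintype Ω] (X : Ω → G) (g : G) :
    TV_lawOf X g = (#{ω | X ω = g} : ℂ) / Fintype.card Ω := by
  simp only [TV_lawOf, smul_apply, GA.sum_apply, dl_apply, eq_comm (a := g), Finset.sum_boole]
  ring

lemma TV_lawOf_equiv {Ω Ω' : Type} [Fintype Ω] [Fintype Ω'] (e : Ω ≃ Ω') (X : Ω' → G) :
    TV_lawOf (fun ω => X (e ω)) = TV_lawOf X := by
  unfold TV_lawOf
  rw [Fintype.card_congr e, Equiv.sum_comp e (fun ω => dl (X ω))]

lemma TV_lawOf_mul {Ω Ω' : Type} [Fintype Ω] [Fintype Ω'] (X : Ω → G) (Y : Ω' → G) :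
    TV_lawOf (fun ω : Ω × Ω' => X ω.1 * Y ω.2) = TV_lawOf X * TV_lawOf Y := by
  unfold TV_lawOf
  rw [smul_mul_smul_comm, Finset.sum_mul_sum, Fintype.sum_prod_type, Fintype.card_prod]
  simp only [dl_mul_dl, Nat.cast_mul, mul_inv]

lemma TV_lawOf_const_mul {Ω : Type} [Fintype Ω] (g : G) (X : Ω → G) :
    TV_lawOf (fun ω => g * X ω) = dl g * TV_lawOf X := by
  unfold TV_lawOf
  rw [mul_smul_comm, Finset.mul_sum]
  simp only [dl_mul_dl]

lemma TV_lawOf_sub {Ω : Type} [Fintype Ω] (S : Subgroup G) (X : Ω → G)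
    (hX : Function.Injective X) (h : ∀ g, g ∈ S ↔ ∃ ω, X ω = g) : TV_lawOf X = avgSub S := by
  have hc : Nat.card S = Fintype.card Ω := by
    rw [← Nat.card_eq_fintype_card]
    refine (Nat.card_congr (Equiv.ofBijective (fun ω => (⟨X ω, (h _).2 ⟨ω, rfl⟩⟩ : S)) ⟨?_, ?_⟩)).symm
    · intro a b hab; exact hX (congrArg Subtype.val hab)
    · rintro ⟨g, hg⟩
      obtain ⟨ω, rfl⟩ := (h g).1 hg
      exact ⟨ω, rfl⟩
  ext g
  rw [TV_lawOf_apply, avgSub]
  by_cases hg : g ∈ S
  · rw [avgTw_of_mem _ hg, hc]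
    obtain ⟨ω, rfl⟩ := (h g).1 hg
    have : (univ.filter fun ω' => X ω' = X ω) = {ω} := by
      ext ω'; simp [hX.eq_iff]
    rw [this]; simp
  · rw [avgTw_of_notMem _ hg, Finset.filter_eq_empty_iff.2 fun ω _ e => hg ((h g).2 ⟨ω, e⟩)]
    simp

end general

lemma TV_fl_injective (d : ℕ) : Function.Injective (TV_fl (d := d)) := by
  intro c c' h
  funext y
  have := congrFun (DFunLike.congr_fun h (Fin.snoc y false)) (Fin.last d)
  simpa [TV_fl_apply] using this

lemma TV_mem_flipGrp (d : ℕ) (g : Perm (Fin (d + 1) → Bool)) :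
    g ∈ flipGrp (Fin.last d) ↔ ∃ c, TV_fl c = g := by
  constructor
  · intro hg
    refine ⟨fun y => g (Fin.snoc y false) (Fin.last d), ?_⟩
    ext z j
    rw [TV_fl_apply]
    by_cases hj : j = Fin.last d
    · subst hj
      rw [Function.update_self]
      cases hz : z (Fin.last d)
      · have : Fin.snoc (Fin.init z) false = z := by rw [← hz, Fin.snoc_init_self]
        rw [this]; simp
      · have hne : g (Fin.snoc (Fin.init z) false) (Fin.last d) ≠ g z (Fin.last d) := by
          intro e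
          have e2 : g (Fin.snoc (Fin.init z) false) = g z := by
            funext j
            by_cases hj : j = Fin.last d
            · rw [hj, e]
            · rw [hg _ j hj, hg _ j hj]
              obtain ⟨k, rfl⟩ := Fin.exists_castSucc_eq.2 hj
              simp [Fin.init]
          have e3 := congrFun (g.injective e2) (Fin.last d)
          rw [hz] at e3
          simp at e3
        revert hne
        cases g (Fin.snoc (Fin.init z) false) (Fin.last d) <;> cases g z (Fin.last d) <;> simp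
    · rw [Function.update_of_ne hj, hg z j hj]
  · rintro ⟨c, rfl⟩ z j hj
    rw [TV_fl_apply, Function.update_of_ne hj]

lemma TV_law_step (d : ℕ) :
    TV_lawOf (TV_step d) = dl (TV_Rr _ (finRotate (d + 1))) * Pdir (Fin.last d) := by
  unfold TV_step
  rw [TV_lawOf_const_mul]
  congr 1
  rw [Pdir, ← TV_lawOf_sub _ _ (TV_fl_injective d) (TV_mem_flipGrp d)]
  exact TV_lawOf_equiv (Equiv.arrowCongr (TV_bits d _ rfl) (Equiv.refl Bool)) TV_fl

lemma TV_law_iter (d t : ℕ) : TV_lawOf (TV_iter d t) = TV_lawOf (TV_step d) ^ t := by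
  induction t with
  | zero => simp [TV_lawOf, TV_iter, dl_one]
  | succ t ih =>
    rw [pow_succ', ← ih, ← TV_lawOf_mul]
    exact TV_lawOf_equiv (Fin.snocEquiv fun _ => Fin (2 ^ d) → Bool).symm
      (fun ω => TV_step d ω.1 * TV_iter d t ω.2)

lemma TV_conj_Pdir {D : Type} [Fintype D] [DecidableEq D] (σ : Perm D) (i : D) :
    dl (TV_Rr D σ) * Pdir i = Pdir (σ i) * dl (TV_Rr D σ) := by
  have h := conj_avgTw (flipGrp i) (fun _ => 1) (TV_Rr D σ)
  have h2 : (flipGrp i).map (MulAut.conj (TV_Rr D σ)).toMonoidHom = flipGrp (σ i) := by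
    ext g
    constructor
    · rintro ⟨s, hs, rfl⟩ z j hj
      have hj' : σ⁻¹ j ≠ i := fun e => hj (by rw [← e]; simp)
      simp only [MulEquiv.toMonoidHom_eq_coe, MonoidHom.coe_coe, MulAut.conj_apply, Perm.mul_apply,
        ← map_inv, TV_Rr_apply]
      rw [hs _ _ hj', TV_Rr_apply]
      simp
    · intro hg
      refine ⟨(TV_Rr D σ)⁻¹ * g * TV_Rr D σ, fun z j hj => ?_, by simp [mul_assoc]⟩
      have hj' : σ j ≠ σ i := σ.injective.ne hj
      simp only [Perm.mul_apply, ← map_inv, TV_Rr_apply, inv_inv]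
      rw [hg _ _ hj', TV_Rr_apply]
      simp
  rw [h2] at h
  rw [Pdir, Pdir, avgSub, avgSub, ← h, mul_assoc, dl_mul_dl, inv_mul_cancel, dl_one, mul_one]

lemma TV_rot_pow (d k : ℕ) (i : Fin (d + 1)) :
    (((finRotate (d + 1)) ^ k) i : ℕ) = (i + k) % (d + 1) := by
  induction k with
  | zero => simp [Nat.mod_eq_of_lt i.2]
  | succ k ih =>
    rw [pow_succ', Perm.mul_apply, finRotate_apply, Fin.val_add, ih, Fin.val_one', ← add_assoc]
    simp

lemma TV_step_pow (d k : ℕ) : TV_lawOf (TV_step d) ^ k =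
    ((List.range k).map fun j => Pdir (((finRotate (d + 1)) ^ (j + 1)) (Fin.last d))).prod *
      dl (TV_Rr _ ((finRotate (d + 1)) ^ k)) := by
  induction k with
  | zero => simp [dl_one]
  | succ k ih =>
    rw [pow_succ, ih, TV_law_step, List.range_succ, List.map_append, List.prod_append]
    simp only [List.map_cons, List.map_nil, List.prod_cons, List.prod_nil, mul_one, mul_assoc]
    rw [← TV_conj_Pdir, ← mul_assoc (dl _), dl_mul_dl, ← map_mul, ← pow_succ]

lemma TV_pass (d : ℕ) : TV_lawOf (TV_step d) ^ (d + 1) = Qd (d + 1) := by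
  have h1 : (finRotate (d + 1)) ^ (d + 1) = 1 := by
    ext i
    rw [TV_rot_pow]
    simp [Nat.mod_eq_of_lt i.2]
  rw [TV_step_pow, h1, map_one, dl_one, mul_one, Qd]
  congr 1
  refine List.ext_getElem (by simp) fun j h1 h2 => ?_
  have hj : j < d + 1 := by simpa using h1
  simp only [List.getElem_map, List.getElem_range, List.getElem_finRange]
  congr 1
  ext
  rw [TV_rot_pow, Fin.val_last, show d + (j + 1) = j + (d + 1) by ring, Nat.add_mod_right,
    Nat.mod_eq_of_lt hj]
  simp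

/-- The Diaconis-Shahshahani upper bound for the shuffle after `t` passes. -/
theorem tv_le (d t : ℕ) :
    Crest.ProbabilityR.Shuffle.tvFromUniform (2 ^ d) (t * (d + 1))
      ≤ 1 / 2 * √(∑ χ ∈ (Irr (Perm (Fin (d + 1) → Bool))).erase (fun _ => 1),
          dim χ ^ 2 * opn χ (Qd (d + 1)) ^ (2 * t)) := by
  have h1 : TV_lawOf (TV_iter d (t * (d + 1))) = Qd (d + 1) ^ t := by
    rw [TV_law_iter, mul_comm, pow_mul, TV_pass]
  have h2 : ∀ g, (Qd (d + 1) ^ t) g = (TV_law d (t * (d + 1)) g : ℂ) := by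
    intro g
    rw [← h1, TV_lawOf_apply, TV_law]
    push_cast
    congr
  have h3 : ev (fun _ => 1) (Qd (d + 1) ^ t) = 1 := by
    simp only [ev_apply, h2, mul_one]
    exact_mod_cast TV_law_sum d (t * (d + 1))
  have h4 := TV_upper _ h3
  rw [TV_eq]
  refine mul_le_mul_of_nonneg_left (le_trans (le_of_eq ?_) (h4.trans (Real.sqrt_le_sqrt ?_)))
    (by norm_num)
  · refine Finset.sum_congr rfl fun g _ => ?_
    rw [h2, ← Real.norm_eq_abs, ← Complex.norm_real]
    push_cast
    rfl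
  · refine Finset.sum_le_sum fun χ _ => mul_le_mul_of_nonneg_left ?_ (sq_nonneg _)
    rw [mul_comm 2 t, pow_mul]
    exact pow_le_pow_left₀ (opn_nonneg _ _) (opn_pow_le _ _ _) 2

end Crest.Agent.R155
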