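import Crest.Agent.R155.Lev
import Crest.Agent.R155.Kron

/-!
# The tensor space of colourings and the calculus of invariant block operators
-/

set_option linter.unusedSectionVars false

namespace Crest.Agent.R155

open scoped ComplexOrder MatrixOrder ComplexConjugate Matrix.Norms.L2Operator Matrix
open Finset GA Equiv

variable {ι : Type} [Fintype ι] [DecidableEq ι]

/-- The colours: the star, `q` even colours and `q` odd colours. -/
abbrev Col (q : ℕ) := Option (Bool × Fin q)

/-- The type of a colour. -/
def ctype {q : ℕ} (a : Col q) : Option Bool := a.map Prod.fst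

/-- The pattern of a colouring. -/
def patOf {q : ℕ} (c : ι → Col q) : Pat ι := fun i => ctype (c i)

theorem patOf_comp {q : ℕ} {ι' : Type} (c : ι → Col q) (f : ι' → ι) :
    patOf (c ∘ f) = patOf c ∘ f := rfl

/-- The permutation representation on colourings. -/
noncomputable def permM (X : Type) [Fintype X] [DecidableEq X] :
    Perm ι →* Matrix (ι → X) (ι → X) ℂ where
  toFun g := Matrix.of fun c c' => if c ∘ g = c' then 1 else 0
  map_one' := by ext c c'; simp [Matrix.one_apply]
  map_mul' g h := by
    ext c c'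
    simp only [Matrix.mul_apply, Matrix.of_apply, ite_mul, one_mul, zero_mul, sum_ite_eq,
      mem_univ, if_true, Perm.coe_mul, Function.comp_assoc]
    congr

section permM
variable {X : Type} [Fintype X] [DecidableEq X]

theorem permM_apply (g : Perm ι) (c c' : ι → X) : permM X g c c' = if c ∘ g = c' then 1 else 0 :=
  rfl

theorem permM_mul_apply (g : Perm ι) (A : Matrix (ι → X) (ι → X) ℂ) (c c' : ι → X) :
    (permM X g * A) c c' = A (c ∘ g) c' := by
  simp [Matrix.mul_apply, permM_apply]

theorem mul_permM_apply (g : Perm ι) (A : Matrix (ι → X) (ι → X) ℂ) (c c' : ι → X) :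
    (A * permM X g) c c' = A c (c' ∘ g.symm) := by
  have : ∀ x : ι → X, x ∘ g = c' ↔ x = c' ∘ g.symm := fun x => by
    constructor
    · rintro rfl; ext i; simp
    · rintro rfl; ext i; simp
  simp [Matrix.mul_apply, permM_apply, this]

theorem isU_permM : IsU (permM X : Perm ι →* _) := fun g => by
  ext c c'
  have : c ∘ ⇑g⁻¹ = c' ↔ c' ∘ g = c := by
    constructor
    · rintro rfl; ext i; simp
    · rintro rfl; ext i; simp
  simp only [permM_apply, Matrix.star_apply, this]
  split_ifs <;> simp

theorem permM_mul_kron (g : Perm ι) (A : ι → Matrix X X ℂ) :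
    permM X g * kron A = kron (A ∘ g.symm) * permM X g := by
  ext c c'
  rw [permM_mul_apply, mul_permM_apply, kron_apply, kron_apply]
  exact Fintype.prod_equiv g _ _ fun i => by simp

end permM

variable (q : ℕ)

/-- The projection onto the colourings with pattern `p`. -/
noncomputable def patProj (p : Pat ι) : Matrix (ι → Col q) (ι → Col q) ℂ :=
  Matrix.diagonal fun c => if patOf c = p then 1 else 0

/-- The signed action of a pattern group. -/
noncomputable def blockRep (p : Pat ι) : patGrp p →* Matrix (ι → Col q) (ι → Col q) ℂ where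
  toFun g := patSgn p g • permM (Col q) (g : Perm ι)
  map_one' := by simp [(isChar_patSgn p).one]
  map_mul' g h := by
    simp [(isChar_patSgn p).mul g g.2 h h.2, smul_smul, mul_comm]

theorem blockRep_apply (p : Pat ι) (g : patGrp p) :
    blockRep q p g = patSgn p g • permM (Col q) (g : Perm ι) := rfl

/-- The block operator that acts by `f p α` on the `α`-isotypic part of the block `p`. -/
noncomputable def Mop (f : ∀ p : Pat ι, (patGrp p → ℂ) → ℂ) : Matrix (ι → Col q) (ι → Col q) ℂ :=
  ∑ p, patProj q p * lift (blockRep q p) (cen (f p))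

/-- The multiplicity of `α` in the block `p`. -/
noncomputable def mlt (p : Pat ι) (α : patGrp p → ℂ) : ℂ :=
  (lift (blockRep q p) (eI α) * patProj q p).trace / α 1

/-- Powers of the dimension weight. -/
noncomputable def Zp (ι : Type) [Fintype ι] [DecidableEq ι] (q : ℕ) (s : ℝ) :
    Matrix (ι → Col q) (ι → Col q) ℂ :=
  Mop q fun p α => ((dtil p α ^ s : ℝ) : ℂ)

variable {q}

/-- A weight function that is invariant under relabelling. -/
def Inv (f : ∀ p : Pat ι, (patGrp p → ℂ) → ℂ) : Prop :=
  ∀ (h : Perm ι) (p : Pat ι) (α : patGrp p → ℂ), IsIrr α →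
    f (p ∘ h.symm) (α ∘ (patTr h p).symm) = f p α

/-- Matrices on the colours that preserve the type. -/
def IsEven (A : Matrix (Col q) (Col q) ℂ) : Prop := ∀ a b, ctype a ≠ ctype b → A a b = 0

/-- Matrices on the colourings that preserve the pattern. -/
def IsBlock (T : Matrix (ι → Col q) (ι → Col q) ℂ) : Prop :=
  ∀ c c', patOf c ≠ patOf c' → T c c' = 0

theorem isU_blockRep (p : Pat ι) : IsU (blockRep q p) := by
  intro g
  rw [blockRep_apply, blockRep_apply, star_smul, Subgroup.coe_inv, isU_permM,
    (isChar_patSgn p).inv g g.2]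
  rfl

theorem isStarProjection_patProj (p : Pat ι) : IsStarProjection (patProj q p) := by
  refine ⟨?_, ?_⟩
  · rw [IsIdempotentElem, patProj, Matrix.diagonal_mul_diagonal]
    congr 1
    funext c
    split_ifs <;> simp
  · rw [IsSelfAdjoint, patProj, Matrix.star_eq_conjTranspose, Matrix.diagonal_conjTranspose]
    congr 1
    funext c
    simp only [Pi.star_apply]
    split_ifs <;> simp

theorem patProj_mul_patProj {p p' : Pat ι} (h : p ≠ p') : patProj q p * patProj q p' = 0 := by
  rw [patProj, patProj, Matrix.diagonal_mul_diagonal, ← Matrix.diagonal_zero]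
  congr 1
  funext c
  by_cases h1 : patOf c = p
  · have : patOf c ≠ p' := fun h2 => h (h1.symm.trans h2)
    simp [this]
  · simp [h1]

theorem sum_patProj : ∑ p : Pat ι, patProj q p = 1 := by
  ext c c'
  rw [Matrix.sum_apply]
  by_cases h : c = c'
  · subst h
    simp [patProj]
  · simp [patProj, Matrix.diagonal_apply_ne _ h, Matrix.one_apply_ne h]

theorem permM_mul_patProj (g : Perm ι) (p : Pat ι) :
    permM (Col q) g * patProj q p = patProj q (p ∘ g.symm) * permM (Col q) g := by
  ext c c'
  have e : patOf c = p ∘ g.symm ↔ patOf (c ∘ g) = p := by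
    rw [patOf_comp]
    constructor
    · intro h; rw [h]; funext i; simp
    · rintro rfl; funext i; simp
  simp only [patProj, Matrix.mul_diagonal, Matrix.diagonal_mul, permM_apply, e]
  by_cases h : c ∘ g = c'
  · subst h; simp
  · simp [h]

theorem patProj_mul_blockRep (p : Pat ι) (g : patGrp p) :
    patProj q p * blockRep q p g = blockRep q p g * patProj q p := by
  have e : p ∘ (g : Perm ι).symm = p := by
    funext i
    simpa using (g.2 ((g : Perm ι).symm i)).1.symm
  rw [blockRep_apply, mul_smul_comm, smul_mul_assoc, permM_mul_patProj, e]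

theorem patProj_mul_lift (p : Pat ι) (a : GA (patGrp p)) :
    patProj q p * lift (blockRep q p) a = lift (blockRep q p) a * patProj q p :=
  commute_lift _ (patProj_mul_blockRep p) a

theorem isBlock_iff {T : Matrix (ι → Col q) (ι → Col q) ℂ} :
    IsBlock T ↔ ∀ p, patProj q p * T = T * patProj q p := by
  constructor
  · intro h p
    ext c c'
    simp only [patProj, Matrix.mul_diagonal, Matrix.diagonal_mul]
    by_cases h1 : patOf c = patOf c'
    · rw [h1, mul_comm]
    · simp [h c c' h1]
  · intro h c c' hne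
    have := congrFun (congrFun (h (patOf c)) c) c'
    simpa [patProj, Matrix.mul_diagonal, Matrix.diagonal_mul, hne.symm] using this

theorem IsBlock.mul {T T' : Matrix (ι → Col q) (ι → Col q) ℂ} (h : IsBlock T) (h' : IsBlock T') :
    IsBlock (T * T') := by
  rw [isBlock_iff] at h h' ⊢
  intro p
  rw [← mul_assoc, h p, mul_assoc, h' p, mul_assoc]

theorem IsBlock.diagonal_comm {T : Matrix (ι → Col q) (ι → Col q) ℂ} (h : IsBlock T)
    (η : Pat ι → ℂ) :
    Matrix.diagonal (fun c => η (patOf c)) * T = T * Matrix.diagonal fun c => η (patOf c) := by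
  ext c c'
  simp only [Matrix.mul_diagonal, Matrix.diagonal_mul]
  by_cases h1 : patOf c = patOf c'
  · rw [h1, mul_comm]
  · simp [h c c' h1]

theorem isBlock_kron {A : ι → Matrix (Col q) (Col q) ℂ} (h : ∀ i, IsEven (A i)) :
    IsBlock (kron A) := by
  intro c c' hne
  obtain ⟨i, hi⟩ := Function.ne_iff.1 hne
  exact prod_eq_zero (mem_univ i) (h i _ _ hi)

theorem IsEven.mul {A B : Matrix (Col q) (Col q) ℂ} (hA : IsEven A) (hB : IsEven B) :
    IsEven (A * B) := by
  intro a b hab
  rw [Matrix.mul_apply]
  refine sum_eq_zero fun c _ => ?_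
  by_cases h : ctype a = ctype c
  · rw [hB c b (h ▸ hab), mul_zero]
  · rw [hA a c h, zero_mul]

theorem IsEven.star' {A : Matrix (Col q) (Col q) ℂ} (hA : IsEven A) : IsEven (star A) := by
  intro a b hab
  rw [Matrix.star_apply, hA b a hab.symm, star_zero]

theorem IsEven.sqrt {A : Matrix (Col q) (Col q) ℂ} (hA : IsEven A) : IsEven (CFC.sqrt A) := by
  intro a b hab
  have h1 : Commute A (Matrix.diagonal fun c => if ctype c = ctype a then (1 : ℂ) else 0) := by
    ext u v
    simp only [Matrix.mul_diagonal, Matrix.diagonal_mul]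
    by_cases h1 : ctype u = ctype v
    · rw [h1, mul_comm]
    · simp [hA u v h1]
  have h2 : Commute (CFC.sqrt A)
      (Matrix.diagonal fun c => if ctype c = ctype a then (1 : ℂ) else 0) :=
    h1.cfcₙ_nnreal _
  have := congrFun (congrFun h2.eq a) b
  simpa [Matrix.mul_diagonal, Matrix.diagonal_mul, hab.symm] using this.symm

section Mop
variable {f f' : ∀ p : Pat ι, (patGrp p → ℂ) → ℂ}

theorem patProj_mul_Mop (f : ∀ p : Pat ι, (patGrp p → ℂ) → ℂ) (p : Pat ι) :
    patProj q p * Mop q f = patProj q p * lift (blockRep q p) (cen (f p)) := by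
  rw [Mop, mul_sum, sum_eq_single p]
  · rw [← mul_assoc, (isStarProjection_patProj p).isIdempotentElem.eq]
  · intro p' _ hne
    rw [← mul_assoc, patProj_mul_patProj hne.symm, zero_mul]
  · simp

theorem isBlock_Mop (f : ∀ p : Pat ι, (patGrp p → ℂ) → ℂ) : IsBlock (Mop q f) := by
  rw [isBlock_iff]
  intro p
  rw [patProj_mul_Mop, Mop, sum_mul, sum_eq_single p]
  · rw [mul_assoc, ← patProj_mul_lift, ← mul_assoc, (isStarProjection_patProj p).isIdempotentElem.eq]
  · intro p' _ hne
    rw [patProj_mul_lift, mul_assoc, patProj_mul_patProj hne, mul_zero]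
  · simp

theorem Mop_congr (h : ∀ p α, IsIrr α → f p α = f' p α) : Mop q f = Mop q f' := by
  exact sum_congr rfl fun p _ => by rw [cen_congr (h p)]

theorem Mop_mul (f f' : ∀ p : Pat ι, (patGrp p → ℂ) → ℂ) :
    Mop q f * Mop q f' = Mop q fun p α => f p α * f' p α := by
  rw [Mop, sum_mul]
  refine sum_congr rfl fun p _ => ?_
  rw [patProj_mul_lift, mul_assoc, patProj_mul_Mop, ← mul_assoc, ← patProj_mul_lift, mul_assoc,
    ← map_mul, cen_mul]

theorem Mop_one : Mop q (fun (_ : Pat ι) _ => 1) = 1 := by
  simp only [Mop, cen_one, map_one, mul_one, sum_patProj]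

theorem Mop_add (f f' : ∀ p : Pat ι, (patGrp p → ℂ) → ℂ) :
    Mop q f + Mop q f' = Mop q fun p α => f p α + f' p α := by
  simp only [Mop, ← sum_add_distrib, ← mul_add, ← map_add, cen_add]

theorem smul_Mop (c : ℂ) (f : ∀ p : Pat ι, (patGrp p → ℂ) → ℂ) :
    c • Mop q f = Mop q fun p α => c * f p α := by
  simp only [Mop, smul_sum, ← mul_smul_comm, ← map_smul, smul_cen]

theorem sum_Mop {J : Type} (s : Finset J) (F : J → ∀ p : Pat ι, (patGrp p → ℂ) → ℂ) :
    ∑ j ∈ s, Mop q (F j) = Mop q fun p α => ∑ j ∈ s, F j p α := by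
  simp only [Mop]
  rw [sum_comm]
  refine sum_congr rfl fun p _ => ?_
  rw [← mul_sum, ← map_sum, cen_sum]

theorem star_Mop (f : ∀ p : Pat ι, (patGrp p → ℂ) → ℂ) :
    star (Mop q f) = Mop q fun p α => conj (f p α) := by
  simp only [Mop, star_sum]
  refine sum_congr rfl fun p _ => ?_
  rw [star_mul, ← lift_star (isU_blockRep p), star_cen,
    (isStarProjection_patProj p).isSelfAdjoint.star_eq, patProj_mul_lift]

theorem Mop_nonneg (h : ∀ p α, IsIrr α → 0 ≤ f p α) : 0 ≤ Mop q f := by
  refine sum_nonneg fun p _ => ?_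
  have h1 := star_left_conjugate_nonneg
    (lift_nonneg (isU_blockRep (q := q) p) (cen_nonneg (h p))) (patProj q p)
  rwa [(isStarProjection_patProj p).isSelfAdjoint.star_eq, mul_assoc, ← patProj_mul_lift,
    ← mul_assoc, (isStarProjection_patProj p).isIdempotentElem.eq] at h1

theorem Mop_mono (h : ∀ p α, IsIrr α → f p α ≤ f' p α) : Mop q f ≤ Mop q f' := by
  have h1 : Mop q f' = Mop q f + Mop q fun p α => f' p α - f p α := by
    rw [Mop_add]
    exact Mop_congr fun p α _ => by ring
  rw [h1]
  exact le_add_of_nonneg_right (Mop_nonneg fun p α hα => sub_nonneg.2 (h p α hα))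

theorem te_permM_mul_lift (g : Perm ι) (p : Pat ι) (a : GA (patGrp p)) :
    permM (Col q) g * lift (blockRep q p) a
      = lift (blockRep q (p ∘ g.symm)) (push (patTr g p).toMonoidHom a) * permM (Col q) g := by
  rw [lift_push, lift_apply, lift_apply, mul_sum, sum_mul]
  refine sum_congr rfl fun k _ => ?_
  change _ = a k • blockRep q (p ∘ g.symm) (patTr g p k) * _
  rw [blockRep_apply, blockRep_apply, coe_patTr, patSgn_tr]
  simp only [mul_smul_comm, smul_mul_assoc, ← map_mul]
  congr 3
  ext i
  simp

/-- Equivariance: an invariant weight gives an operator commuting with all permutations. -/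
theorem permM_mul_Mop (hf : Inv f) (g : Perm ι) :
    permM (Col q) g * Mop q f = Mop q f * permM (Col q) g := by
  rw [Mop, mul_sum, sum_mul]
  refine Fintype.sum_equiv
    ⟨fun p => p ∘ g.symm, fun p => p ∘ g, fun p => by funext i; simp, fun p => by funext i; simp⟩
    _ _ fun p => ?_
  change _ = patProj q (p ∘ g.symm) * lift (blockRep q (p ∘ g.symm)) (cen (f (p ∘ g.symm))) * _
  rw [← mul_assoc, permM_mul_patProj, mul_assoc, te_permM_mul_lift, ← mul_assoc,
    ← push_cen_equiv (patTr g p) (f (p ∘ g.symm)), cen_congr fun α hα => hf g p α hα]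

end Mop

theorem inv_dtil_rpow (s : ℝ) : Inv fun (p : Pat ι) α => ((dtil p α ^ s : ℝ) : ℂ) :=
  fun h p α _ => by simp only [dtil_tr]

theorem Zp_mul (s t : ℝ) : Zp ι q s * Zp ι q t = Zp ι q (s + t) := by
  rw [Zp, Zp, Zp, Mop_mul]
  exact Mop_congr fun p α hα => by rw [Real.rpow_add (dtil_pos hα), Complex.ofReal_mul]

theorem Zp_zero : Zp ι q 0 = 1 := by
  rw [Zp, ← Mop_one]
  exact Mop_congr fun p α _ => by simp

theorem Zp_nonneg (s : ℝ) : 0 ≤ Zp ι q s := by
  exact Mop_nonneg fun p α hα => by
    exact_mod_cast Real.rpow_nonneg (dtil_pos hα).le s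

/-- The trace on a block in terms of the multiplicities. -/
theorem trace_block (p : Pat ι) (a : GA (patGrp p)) :
    (lift (blockRep q p) a * patProj q p).trace
      = ∑ α ∈ Irr (patGrp p), mlt q p α * ev α a := by
  have h := isTr_trace (isU_blockRep (q := q) p) (isStarProjection_patProj p).nonneg
    (patProj_mul_blockRep p)
  rw [trace_lift_mul, tr_expand h.comm a]
  refine sum_congr rfl fun α _ => ?_
  rw [mlt, trace_lift_mul]

theorem exists_mlt_eq_nat (p : Pat ι) {α : patGrp p → ℂ} (hα : IsIrr α) :
    ∃ n : ℕ, mlt q p α = n := by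
  obtain ⟨m, hm⟩ := exists_mult_nat (isU_blockRep (q := q) p) (isStarProjection_patProj p)
    (patProj_mul_blockRep p) hα
  exact ⟨m, by rw [mlt, hm, mul_div_cancel_right₀ _ hα.one_ne_zero]⟩

theorem te_comp_eq_iff {p : Pat ι} {c : ι → Col q} (hc : patOf c = p) {c' : ι → Fin q}
    (h : ∀ i b a, c i = some (b, a) → c' i = a) {g : Perm ι} (hg : g ∈ patGrp p) :
    c ∘ g = c ↔ g ∈ colGrp p c' := by
  subst hc
  rw [mem_colGrp, and_iff_right hg]
  constructor
  · intro h1 i
    have h2 : c (g i) = c i := congrFun h1 i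
    cases hi : c i with
    | none => rw [(hg i).2 (by simp [patOf, ctype, hi])]
    | some x => rw [h i x.1 x.2 hi, h (g i) x.1 x.2 (h2.trans hi)]
  · intro h1
    funext i
    have h2 : ctype (c (g i)) = ctype (c i) := (hg i).1
    change c (g i) = c i
    cases hi : c i with
    | none => rw [(hg i).2 (by simp [patOf, ctype, hi]), hi]
    | some x =>
      cases hj : c (g i) with
      | none => simp [hi, hj, ctype] at h2
      | some y =>
        have h3 := h i x.1 x.2 hi
        have h4 := h (g i) y.1 y.2 hj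
        simp only [hi, hj, ctype, Option.map_some, Option.some.injEq] at h2
        rw [Option.some.injEq]
        exact Prod.ext h2 (by rw [← h3, ← h4, h1 i])

theorem te_diag {p : Pat ι} (α : patGrp p → ℂ) {c : ι → Col q} (hc : patOf c = p)
    {c' : ι → Fin q} (h : ∀ i b a, c i = some (b, a) → c' i = a) :
    lift (blockRep q p) (eI α) c c
      = α 1 * (Nat.card (colGrp p c') : ℂ) / Fintype.card (patGrp p)
        * ev α (res p (colz p c')) := by
  have h0 : (Nat.card (colGrp p c') : ℂ) ≠ 0 := by
    exact_mod_cast (Nat.card_pos (α := colGrp p c')).ne'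
  rw [lift_apply, Matrix.sum_apply, ev_apply, mul_sum]
  refine Fintype.sum_equiv (Equiv.inv _) _ _ fun g => ?_
  simp only [Matrix.smul_apply, blockRep_apply, permM_apply, smul_eq_mul, Equiv.inv_apply, res,
    pull_apply, Subgroup.coe_subtype, Subgroup.coe_inv, colz, eI]
  by_cases hg : (g : Perm ι) ∈ colGrp p c'
  · have e : patSgn p (g : Perm ι)⁻¹ = patSgn p g := by
      rw [(isChar_patSgn p).inv g g.2, patSgn_of_mem g.2, conj_sgnC]
    rw [if_pos ((te_comp_eq_iff hc h g.2).2 hg), avgTw_of_mem _ (Subgroup.inv_mem _ hg), e]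
    field_simp
  · have : (g : Perm ι)⁻¹ ∉ colGrp p c' := fun h' => hg (by simpa using Subgroup.inv_mem _ h')
    rw [if_neg fun h' => hg ((te_comp_eq_iff hc h g.2).1 h'), avgTw_of_notMem _ this]
    simp

theorem mlt_ne_zero_iff (hq : 1 ≤ q) (p : Pat ι) {α : patGrp p → ℂ} (hα : IsIrr α) :
    mlt q p α ≠ 0 ↔ Adm q p α := by
  have hP := Matrix.nonneg_iff_posSemidef.1
    (lift_nonneg (isU_blockRep (q := q) p) (isStarProjection_eI hα).nonneg)
  have h1 : mlt q p α = 0 ↔ ∀ c, patOf c = p → lift (blockRep q p) (eI α) c c = 0 := by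
    rw [mlt, div_eq_zero_iff, or_iff_left hα.one_ne_zero, Matrix.trace,
      sum_eq_zero_iff_of_nonneg]
    · simp [patProj]
    · intro c _
      simp only [patProj, Matrix.diag_apply, Matrix.mul_diagonal]
      split_ifs
      · simpa using hP.diag_nonneg
      · simp
  have h2 : ∀ c' : ι → Fin q, α 1 * (Nat.card (colGrp p c') : ℂ) / Fintype.card (patGrp p) ≠ 0 :=
    fun c' => div_ne_zero (mul_ne_zero hα.one_ne_zero
      (by exact_mod_cast (Nat.card_pos (α := colGrp p c')).ne')) i2_card_ne
  rw [Ne, h1]
  constructor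
  · intro h
    push Not at h
    obtain ⟨c, hc, hne⟩ := h
    refine ⟨fun i => ((c i).map Prod.snd).getD ⟨0, hq⟩, fun h0 => hne ?_⟩
    rw [te_diag α hc (c' := fun i => ((c i).map Prod.snd).getD ⟨0, hq⟩)
      (fun i b a h => by simp [h]), h0, mul_zero]
  · rintro ⟨c', hc'⟩ h
    have h3 : patOf (fun i => (p i).map fun b => (b, c' i)) = p := by
      funext i
      simp only [patOf, ctype]
      cases p i <;> simp
    have h4 := h _ h3
    rw [te_diag α h3 (c' := c') (fun i b a h => by
      cases hp : p i with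
      | none => simp [hp] at h
      | some b' => simp only [hp, Option.map_some, Option.some.injEq, Prod.mk.injEq] at h; exact h.2)]
      at h4
    exact mul_ne_zero (h2 c') hc' h4

theorem mlt_tr (h : Perm ι) (p : Pat ι) (α : patGrp p → ℂ) :
    mlt q (p ∘ h.symm) (α ∘ (patTr h p).symm) = mlt q p α := by
  have h1 : eI (α ∘ (patTr h p).symm) = push (patTr h p).toMonoidHom (eI α) := by
    ext g
    obtain ⟨k, rfl⟩ := (patTr h p).surjective g
    have := push_apply_of_inj (φ := (patTr h p).toMonoidHom) (patTr h p).injective (eI α) k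
    refine Eq.trans ?_ this.symm
    simp only [eI, Function.comp_apply, map_one, map_inv, MulEquiv.symm_apply_apply,
      card_patGrp_tr]
  have h2 : lift (blockRep q (p ∘ h.symm)) (push (patTr h p).toMonoidHom (eI α))
      * patProj q (p ∘ h.symm)
      = permM (Col q) h * (lift (blockRep q p) (eI α) * patProj q p) * permM (Col q) h⁻¹ := by
    rw [← mul_assoc, te_permM_mul_lift, mul_assoc _ (permM (Col q) h), permM_mul_patProj,
      mul_assoc, mul_assoc, ← map_mul, mul_inv_cancel, map_one, mul_one]
  rw [mlt, mlt, h1, h2, Matrix.trace_mul_comm, ← mul_assoc, ← map_mul, inv_mul_cancel, map_one,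
    one_mul]
  simp

end Crest.Agent.R155
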