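import Crest.Agent.R155.Sym

/-!
# Transport of patterns along bijections, orbit counting
-/

set_option linter.unusedSectionVars false

namespace Crest.Agent.R155

open scoped ComplexOrder MatrixOrder ComplexConjugate Matrix.Norms.L2Operator Matrix
open Finset GA Equiv

variable {ι ι' : Type} [Fintype ι] [DecidableEq ι] [Fintype ι'] [DecidableEq ι']

/-- Relabelling of elements of the group algebra of a symmetric group. -/
noncomputable abbrev relab (e : ι ≃ ι') : GA (Perm ι) →ₐ[ℂ] GA (Perm ι') :=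
  push e.permCongrHom.toMonoidHom

/-- The isomorphism of pattern groups induced by a bijection of the cells. -/
def patTr (e : ι ≃ ι') (p : Pat ι) : patGrp p ≃* patGrp (p ∘ e.symm) where
  toFun g := ⟨e.permCongr g.1, fun i => ⟨by simp [(g.2 _).1], fun hi => by
    have := (g.2 (e.symm i)).2 hi
    simp [this]⟩⟩
  invFun g := ⟨e.symm.permCongr g.1, fun i => ⟨by simpa using (g.2 (e i)).1, fun hi => by
    have := (g.2 (e i)).2 (by simpa using hi)
    simp [this]⟩⟩
  left_inv g := by ext i; simp
  right_inv g := by ext i; simp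
  map_mul' g h := by ext i; simp

@[simp] theorem coe_patTr (e : ι ≃ ι') (p : Pat ι) (g : patGrp p) :
    (patTr e p g : Perm ι') = e.permCongr g := rfl

@[simp] theorem coe_patTr_symm (e : ι ≃ ι') (p : Pat ι) (g : patGrp (p ∘ e.symm)) :
    ((patTr e p).symm g : Perm ι) = e.symm.permCongr g := rfl

section helpers

variable {G K : Type} [Group G] [Fintype G] [DecidableEq G] [Group K] [Fintype K] [DecidableEq K]

theorem tr_push_equiv_apply (e : K ≃* G) (a : GA K) (g : G) :
    push e.toMonoidHom a g = a (e.symm g) := by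
  have := push_apply_of_inj (φ := e.toMonoidHom) e.injective a (e.symm g)
  simpa using this

theorem tr_push_equiv_avgTw (e : K ≃* G) {S : Subgroup K} {S' : Subgroup G} {σ : K → ℂ}
    {σ' : G → ℂ} (hS : ∀ g, e g ∈ S' ↔ g ∈ S) (hσ : ∀ g ∈ S, σ' (e g) = σ g) :
    push e.toMonoidHom (avgTw S σ) = avgTw S' σ' := by
  have hc : Nat.card S' = Nat.card S :=
    (Nat.card_congr (e.toEquiv.subtypeEquiv fun g => (hS g).symm)).symm
  ext g
  obtain ⟨k, rfl⟩ := e.surjective g
  rw [tr_push_equiv_apply, e.symm_apply_apply]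
  by_cases hk : k ∈ S
  · rw [avgTw_of_mem _ hk, avgTw_of_mem _ ((hS k).2 hk), hσ k hk, hc]
  · rw [avgTw_of_notMem _ hk, avgTw_of_notMem _ fun h => hk ((hS k).1 h)]

end helpers

theorem relab_apply (e : ι ≃ ι') (a : GA (Perm ι)) (g : Perm ι') :
    relab e a g = a (e.symm.permCongr g) := by
  exact tr_push_equiv_apply e.permCongrHom a g

theorem relab_eq_conj (h : Perm ι) (a : GA (Perm ι)) : relab h a = dl h * a * dl h⁻¹ := by
  ext g
  have := conj_apply h⁻¹ a g
  rw [inv_inv] at this
  rw [relab_apply, this]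
  rfl

theorem tr_relab_dl (e : ι ≃ ι') (g : Perm ι) : relab e (dl g) = dl (e.permCongr g) :=
  push_dl _ g

theorem tr_relab_star (e : ι ≃ ι') (a : GA (Perm ι)) : relab e (star a) = star (relab e a) :=
  push_star _ a

theorem tr_relab_symm_relab (e : ι ≃ ι') (a : GA (Perm ι)) : relab e.symm (relab e a) = a := by
  ext g
  rw [relab_apply, relab_apply]
  congr 1
  ext i
  simp

theorem tr_mem_suppGrp (e : ι ≃ ι') (T : Finset ι) (g : Perm ι) :
    e.permCongrHom g ∈ suppGrp (T.map e.toEmbedding) ↔ g ∈ suppGrp T := by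
  change e.permCongr g ∈ _ ↔ _
  simp only [mem_suppGrp]
  constructor
  · intro h i hi
    simpa using h (e i) (by simpa using hi)
  · intro h i hi
    have := h (e.symm i) (by simpa using hi)
    simp [this]

theorem tr_sgnC (e : ι ≃ ι') (g : Perm ι) : sgnC (e.permCongr g) = sgnC g := by
  simp [sgnC]

theorem relab_symz (e : ι ≃ ι') (T : Finset ι) : relab e (symz T) = symz (T.map e.toEmbedding) := by
  exact tr_push_equiv_avgTw e.permCongrHom (tr_mem_suppGrp e T) fun _ _ => rfl

theorem relab_altz (e : ι ≃ ι') (T : Finset ι) : relab e (altz T) = altz (T.map e.toEmbedding) := by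
  exact tr_push_equiv_avgTw e.permCongrHom (tr_mem_suppGrp e T) fun g _ => tr_sgnC e g

theorem patSgn_tr (e : ι ≃ ι') (p : Pat ι) (g : Perm ι) :
    patSgn (p ∘ e.symm) (e.permCongr g) = patSgn p g := by
  unfold patSgn
  have hiff : (∀ i, (p ∘ e.symm) ((e.permCongr g) i) = some true ↔ (p ∘ e.symm) i = some true) ↔
      ∀ i, p (g i) = some true ↔ p i = some true := by
    constructor
    · intro h i
      simpa using h (e i)
    · intro h i
      simpa using h (e.symm i)
  by_cases h : ∀ i, p (g i) = some true ↔ p i = some true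
  · rw [dif_pos h, dif_pos (hiff.2 h)]
    unfold sgnC
    congr 2
    refine (Perm.sign_eq_sign_of_equiv _ _
      (e.subtypeEquiv (p := fun i => p i = some true)
        (q := fun i => (p ∘ e.symm) i = some true) fun i => by simp) fun x => ?_).symm
    ext
    simp
  · rw [dif_neg h, dif_neg fun h' => h (hiff.1 h')]

theorem nStar_tr (e : ι ≃ ι') (p : Pat ι) : nStar (p ∘ e.symm) = nStar p := by
  unfold nStar
  exact (Finset.card_equiv e fun i => by simp).symm

theorem card_patGrp_tr (e : ι ≃ ι') (p : Pat ι) :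
    Fintype.card (patGrp (p ∘ e.symm)) = Fintype.card (patGrp p) := by
  exact (Fintype.card_congr (patTr e p).toEquiv).symm

theorem res_tr (e : ι ≃ ι') (p : Pat ι) (a : GA (Perm ι)) :
    res (p ∘ e.symm) (relab e a) = push (patTr e p).toMonoidHom (res p a) := by
  ext g
  rw [tr_push_equiv_apply]
  exact relab_apply e a g

theorem ev_res_tr (e : ι ≃ ι') (p : Pat ι) (α : patGrp p → ℂ) (a : GA (Perm ι)) :
    ev (α ∘ (patTr e p).symm) (res (p ∘ e.symm) (relab e a)) = ev α (res p a) := by
  rw [res_tr, ev_push]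
  congr 2
  funext g
  simp

theorem dtil_tr (e : ι ≃ ι') (p : Pat ι) (α : patGrp p → ℂ) :
    dtil (p ∘ e.symm) (α ∘ (patTr e p).symm) = dtil p α := by
  unfold dtil
  rw [card_patGrp_tr, nStar_tr, Fintype.card_congr e]
  simp [dim]

theorem tr_mem_patGrp (e : ι ≃ ι') (p : Pat ι) (g : Perm ι) :
    e.permCongr g ∈ patGrp (p ∘ e.symm) ↔ g ∈ patGrp p := by
  constructor
  · intro h
    have := ((patTr e p).symm ⟨_, h⟩).2
    rw [coe_patTr_symm] at this
    convert this
    ext i
    simp
  · intro h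
    exact (patTr e p ⟨g, h⟩).2

theorem tr_relab_colz (e : ι ≃ ι') {q : ℕ} (p : Pat ι) (c : ι → Fin q) :
    relab e (colz p c) = colz (p ∘ e.symm) (c ∘ e.symm) := by
  refine tr_push_equiv_avgTw e.permCongrHom (fun g => ?_) fun g _ => patSgn_tr e p g
  change e.permCongr g ∈ _ ↔ _
  rw [mem_colGrp, mem_colGrp, tr_mem_patGrp]
  refine and_congr Iff.rfl ⟨fun h i => ?_, fun h i => ?_⟩
  · simpa using h (e i)
  · simpa using h (e.symm i)

theorem adm_tr (e : ι ≃ ι') (q : ℕ) (p : Pat ι) (α : patGrp p → ℂ) :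
    Adm q (p ∘ e.symm) (α ∘ (patTr e p).symm) ↔ Adm q p α := by
  constructor
  · rintro ⟨c, hc⟩
    refine ⟨c ∘ e, ?_⟩
    rw [← ev_res_tr e, tr_relab_colz]
    have : (c ∘ e) ∘ e.symm = c := by funext i; simp
    rwa [this]
  · rintro ⟨c, hc⟩
    refine ⟨c ∘ e.symm, ?_⟩
    rwa [← tr_relab_colz, ev_res_tr]

theorem keffLe_tr (e : ι ≃ ι') (p : Pat ι) (α : patGrp p → ℂ) (k : ℕ) :
    KeffLe (p ∘ e.symm) (α ∘ (patTr e p).symm) k ↔ KeffLe p α k := by
  constructor
  · rintro ⟨T, h1, h2, h3⟩
    refine ⟨T.map e.symm.toEmbedding, fun i hi => ?_, ?_, ?_⟩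
    · simpa using h1 (e i) (by simpa using hi)
    · rwa [card_map, Fintype.card_congr e]
    · rw [← ev_res_tr e, relab_symz]
      have : (T.map e.symm.toEmbedding).map e.toEmbedding = T := by
        ext i; simp
      rwa [this]
  · rintro ⟨T, h1, h2, h3⟩
    refine ⟨T.map e.toEmbedding, fun i hi => ?_, ?_, ?_⟩
    · exact h1 (e.symm i) (by simpa using hi)
    · rwa [card_map, ← Fintype.card_congr e]
    · rwa [← relab_symz, ev_res_tr]

theorem indP_tr (e : ι ≃ ι') (p : Pat ι) (α : patGrp p → ℂ) (a : GA (Perm ι)) :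
    indP (p ∘ e.symm) (α ∘ (patTr e p).symm) (relab e a) = indP p α a := by
  unfold indP
  rw [ind_apply, ind_apply, card_patGrp_tr]
  congr 1
  refine (Fintype.sum_equiv e.permCongr _ _ fun h => ?_).symm
  have h1 : dl (e.permCongr h)⁻¹ * relab e a * dl (e.permCongr h)
      = relab e (dl h⁻¹ * a * dl h) := by
    rw [map_mul, map_mul, tr_relab_dl, tr_relab_dl]
    rfl
  rw [h1]
  exact (ev_res_tr e p α _).symm

theorem Hyp.relab {q k : ℕ} {B : ℝ} {x : GA (Perm ι)} (h : Hyp q k B x) (e : ι ≃ ι') :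
    Hyp q k B (relab e x) := by
  intro p α hα ha hk
  have h1 := h (p ∘ e.symm.symm) (α ∘ (patTr e.symm p).symm) (hα.comp_equiv _)
    ((adm_tr e.symm q p α).2 ha) ((keffLe_tr e.symm p α k).2 hk)
  rw [dtil_tr, nStar_tr] at h1
  rw [← indP_tr e.symm p α, map_pow, map_mul, tr_relab_star, tr_relab_symm_relab]
  exact h1

theorem lev_tr (e : ι ≃ ι') (χ : Perm ι' → ℂ) : lev (χ ∘ e.permCongrHom) = lev χ := by
  classical
  have key : ∀ T : Finset ι,
      ev (χ ∘ e.permCongrHom) (symz T) = ev χ (symz (T.map e.toEmbedding)) := fun T => by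
    rw [← relab_symz, ev_push]
    rfl
  unfold lev
  rw [Fintype.card_congr e]
  congr 1
  refine le_antisymm (Finset.sup_le fun T hT => ?_) (Finset.sup_le fun T hT => ?_)
  · rw [← card_map e.toEmbedding]
    exact Finset.le_sup (f := Finset.card)
      (mem_filter.2 ⟨mem_univ _, key T ▸ (mem_filter.1 hT).2⟩)
  · rw [← card_map e.symm.toEmbedding]
    refine Finset.le_sup (f := Finset.card) (mem_filter.2 ⟨mem_univ _, ?_⟩)
    have : (T.map e.symm.toEmbedding).map e.toEmbedding = T := by
      ext i; simp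
    rw [key, this]
    exact (mem_filter.1 hT).2

theorem relab_phi (e : ι ≃ ι') (z : ℂ) : relab e (phi z : GA (Perm ι)) = phi z := by
  unfold phi
  rw [← push_cen_equiv e.permCongrHom]
  congr 1
  refine cen_congr fun χ _ => ?_
  rw [← lev_tr e.symm χ]
  rfl

theorem relab_blockLift {κ β : Type} [Fintype κ] [DecidableEq κ] [Fintype β] [DecidableEq β]
    (e : ι ≃ ι') (f : ι ≃ κ × β) (x : GA (Perm β)) :
    relab e (blockLift f x) = blockLift (e.symm.trans f) x := by
  unfold blockLift
  rw [push_push]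
  congr 2

/-- The induced functional as a sum over the relabelled patterns. -/
theorem indP_eq_sum (p : Pat ι) (α : patGrp p → ℂ) (a : GA (Perm ι)) :
    (Fintype.card (patGrp p) : ℂ) * indP p α a
      = ∑ h : Perm ι, ev (α ∘ (patTr h p).symm) (res (p ∘ h.symm) a) := by
  have h0 : (Fintype.card (patGrp p) : ℂ) ≠ 0 := by exact_mod_cast Fintype.card_ne_zero
  unfold indP
  rw [ind_apply, ← mul_assoc, mul_inv_cancel₀ h0, one_mul]
  refine sum_congr rfl fun h _ => ?_
  have h1 : relab h (dl h⁻¹ * a * dl h) = a := by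
    rw [relab_eq_conj]
    simp only [← mul_assoc, dl_mul_dl, mul_inv_cancel, dl_one, one_mul]
    rw [mul_assoc, dl_mul_dl, mul_inv_cancel, dl_one, mul_one]
  conv_rhs => rw [← h1]
  exact (ev_res_tr h p α _).symm

open Classical in
/-- The patterns of the same type as `p`. -/
noncomputable def patOrb (p : Pat ι) : Finset (Pat ι) :=
  univ.filter fun p' => ∃ h : Perm ι, p' = p ∘ h.symm

theorem mem_patOrb {p p' : Pat ι} : p' ∈ patOrb p ↔ ∃ h : Perm ι, p' = p ∘ h.symm := by
  simp [patOrb]

theorem self_mem_patOrb (p : Pat ι) : p ∈ patOrb p := mem_patOrb.2 ⟨1, rfl⟩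

theorem mem_patOrb_comp {p p' : Pat ι} (h : Perm ι) : p' ∘ h.symm ∈ patOrb p ↔ p' ∈ patOrb p := by
  rw [mem_patOrb, mem_patOrb]
  constructor
  · rintro ⟨k, hk⟩
    refine ⟨h⁻¹ * k, funext fun i => ?_⟩
    have := congrFun hk (h i)
    simp only [Function.comp_apply, symm_apply_apply] at this
    exact this
  · rintro ⟨k, rfl⟩
    exact ⟨h * k, rfl⟩

theorem nStar_of_mem_patOrb {p p' : Pat ι} (h : p' ∈ patOrb p) : nStar p' = nStar p := by
  obtain ⟨k, rfl⟩ := mem_patOrb.1 h
  exact nStar_tr k p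

theorem tr_card_patGrp (p : Pat ι) : Fintype.card (patGrp p)
    = (#{i | p i = some false}).factorial * (#{i | p i = some true}).factorial := by
  classical
  let f : ι → ι ⊕ Bool := fun i => (p i).elim (Sum.inl i) Sum.inr
  have hl : ∀ i j, f i = Sum.inl j ↔ p i = none ∧ i = j := fun i j => by
    simp only [f]
    cases p i <;> simp
  have hr : ∀ i b, f i = Sum.inr b ↔ p i = some b := fun i b => by
    simp only [f]
    cases p i <;> simp
  have h1 : Fintype.card (patGrp p) = Fintype.card {g : Perm ι // f ∘ g = f} := by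
    refine Fintype.card_congr (Equiv.subtypeEquivRight fun g => ?_)
    rw [mem_patGrp]
    constructor
    · intro h
      funext i
      rcases hi : p i with _ | b
      · simp [(h i).2 hi]
      · rw [Function.comp_apply, (hr i b).2 hi, hr, (h i).1, hi]
    · intro h i
      have hi' : f (g i) = f i := congrFun h i
      rcases hi : p i with _ | b
      · rw [(hl i i).2 ⟨hi, rfl⟩, hl] at hi'
        exact ⟨hi'.1, fun _ => hi'.2⟩
      · rw [(hr i b).2 hi, hr] at hi'
        exact ⟨hi', fun h => by simp at h⟩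
  rw [h1, DomMulAct.stabilizer_card, Fintype.prod_sum_type, Fintype.prod_bool, prod_eq_one, one_mul,
    mul_comm]
  · simp only [hr, Fintype.card_subtype]
  · intro j _
    rw [Nat.factorial_eq_one, Fintype.card_le_one_iff]
    rintro ⟨a, ha⟩ ⟨b, hb⟩
    exact Subtype.ext (((hl a j).1 ha).2.trans ((hl b j).1 hb).2.symm)

theorem tr_card_stab (p : Pat ι) : Fintype.card {g : Perm ι // p ∘ g = p}
    = Fintype.card (patGrp p) * (nStar p).factorial := by
  rw [DomMulAct.stabilizer_card, Fintype.prod_option, Fintype.prod_bool, tr_card_patGrp, nStar]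
  simp only [Fintype.card_subtype]
  ring

/-- Orbit-stabiliser: the stabiliser of a pattern is the pattern group times the permutations of
the starred cells. -/
theorem sum_perm_pat (p : Pat ι) (φ : Pat ι → ℂ) :
    ∑ h : Perm ι, φ (p ∘ h.symm)
      = ((Fintype.card (patGrp p) * (nStar p).factorial : ℕ) : ℂ) * ∑ p' ∈ patOrb p, φ p' := by
  classical
  rw [← sum_fiberwise_of_maps_to (s := univ) (t := patOrb p) (g := fun h : Perm ι => p ∘ h.symm)
    (fun h _ => mem_patOrb.2 ⟨h, rfl⟩), mul_sum]
  refine sum_congr rfl fun p' hp' => ?_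
  obtain ⟨k, rfl⟩ := mem_patOrb.1 hp'
  rw [sum_congr rfl (g := fun _ => φ (p ∘ k.symm)) fun h hh => by rw [(mem_filter.1 hh).2],
    sum_const, nsmul_eq_mul, ← tr_card_stab, Fintype.card_subtype]
  congr 2
  refine Finset.card_equiv ((Equiv.inv _).trans (Equiv.mulRight k)) fun h => ?_
  simp only [mem_filter, mem_univ, true_and]
  constructor
  · intro hh
    funext i
    simpa using congrFun hh (k i)
  · intro hh
    funext i
    simpa using congrFun hh (k.symm i)

theorem card_patOrb_mul (p : Pat ι) :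
    (patOrb p).card * (Fintype.card (patGrp p) * (nStar p).factorial)
      = (Fintype.card ι).factorial := by
  have := sum_perm_pat p fun _ => 1
  rw [sum_const, sum_const, card_univ, Fintype.card_perm, nsmul_eq_mul, nsmul_eq_mul, mul_one,
    mul_one, mul_comm] at this
  exact_mod_cast this.symm

theorem dtil_eq (p : Pat ι) (α : patGrp p → ℂ) : dtil p α = (patOrb p).card * dim α := by
  unfold dtil
  have h1 : (0 : ℝ) < Fintype.card (patGrp p) := by exact_mod_cast Fintype.card_pos
  have h2 : (0 : ℝ) < (nStar p).factorial := by exact_mod_cast Nat.factorial_pos _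
  rw [← card_patOrb_mul p]
  push_cast
  field_simp

theorem one_le_dtil {p : Pat ι} {α : patGrp p → ℂ} (hα : IsIrr α) : 1 ≤ dtil p α := by
  rw [dtil_eq]
  have h1 : (1 : ℝ) ≤ (patOrb p).card := by
    exact_mod_cast card_pos.2 ⟨p, self_mem_patOrb p⟩
  exact one_le_mul_of_one_le_of_one_le h1 hα.one_le_dim

/-- The number of types of patterns. -/
theorem sum_inv_card_patOrb_le :
    ∑ p : Pat ι, ((patOrb p).card : ℝ)⁻¹ ≤ ((Fintype.card ι : ℝ) + 1) ^ 3 := by
  classical
  let τ : Pat ι → (Option Bool → Fin (Fintype.card ι + 1)) := fun p o =>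
    ⟨#{i | p i = o}, Nat.lt_succ_of_le (card_le_univ _)⟩
  have hτ : ∀ p p' : Pat ι, τ p' = τ p → p' ∈ patOrb p := fun p p' h => by
    have hc : ∀ o, Fintype.card {i // p i = o} = Fintype.card {i // p' i = o} := fun o => by
      rw [Fintype.card_subtype, Fintype.card_subtype]
      exact (congrArg Fin.val (congrFun h o)).symm
    refine mem_patOrb.2 ⟨Equiv.ofFiberEquiv fun o => Fintype.equivOfCardEq (hc o), ?_⟩
    funext i
    have := Equiv.ofFiberEquiv_map (fun o => Fintype.equivOfCardEq (hc o))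
      ((Equiv.ofFiberEquiv fun o => Fintype.equivOfCardEq (hc o)).symm i)
    rwa [Equiv.apply_symm_apply] at this
  rw [← sum_fiberwise_of_maps_to (s := univ) (t := univ) (g := τ) fun _ _ => mem_univ _]
  calc ∑ t, ∑ p ∈ univ.filter (fun p => τ p = t), ((patOrb p).card : ℝ)⁻¹
      ≤ ∑ _t : Option Bool → Fin (Fintype.card ι + 1), (1 : ℝ) := by
        refine sum_le_sum fun t _ => ?_
        calc ∑ p ∈ univ.filter (fun p => τ p = t), ((patOrb p).card : ℝ)⁻¹
            ≤ ∑ _p ∈ univ.filter (fun p => τ p = t), ((#{p | τ p = t} : ℕ) : ℝ)⁻¹ := by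
              refine sum_le_sum fun p hp => ?_
              refine inv_anti₀ (by exact_mod_cast card_pos.2 ⟨p, hp⟩) ?_
              have hsub : univ.filter (fun p => τ p = t) ⊆ patOrb p := fun p' hp' =>
                hτ p p' ((mem_filter.1 hp').2.trans (mem_filter.1 hp).2.symm)
              exact_mod_cast card_le_card hsub
          _ ≤ 1 := by
              rw [sum_const, nsmul_eq_mul]
              exact mul_inv_le_one
    _ = _ := by simp

theorem card_patGrp (p : Pat ι) : Fintype.card (patGrp p)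
    = (#{i | p i = some false}).factorial * (#{i | p i = some true}).factorial := by
  exact tr_card_patGrp p

theorem tr_patOrb_comp (p : Pat ι) (h : Perm ι) : patOrb (p ∘ h.symm) = patOrb p := by
  ext p'
  rw [mem_patOrb, mem_patOrb]
  constructor
  · rintro ⟨k, rfl⟩
    exact ⟨k * h, rfl⟩
  · rintro ⟨k, rfl⟩
    refine ⟨k * h⁻¹, funext fun i => ?_⟩
    change p (k.symm i) = p (h.symm (h (k.symm i)))
    rw [symm_apply_apply]

theorem tr_patSgn_of_stab {p : Pat ι} {g : Perm ι} (hg : ∀ i, p (g i) = p i) :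
    patSgn p g = sgnC (g.subtypePerm (p := fun i => p i = some true) fun i => by
      simp only [hg i]) := by
  unfold patSgn
  rw [dif_pos]

theorem tr_patSgn_mul {p : Pat ι} {g h : Perm ι} (hg : ∀ i, p (g i) = p i)
    (hh : ∀ i, p (h i) = p i) : patSgn p (g * h) = patSgn p g * patSgn p h := by
  rw [tr_patSgn_of_stab hg, tr_patSgn_of_stab hh,
    tr_patSgn_of_stab (g := g * h) fun i => by rw [Perm.mul_apply, hg, hh], ← sgnC_mul]
  rfl

theorem tr_patSgn_pm {p : Pat ι} {g : Perm ι} (hg : ∀ i, p (g i) = p i) :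
    patSgn p g = 1 ∨ patSgn p g = -1 := by
  rw [tr_patSgn_of_stab hg, sgnC]
  rcases Int.units_eq_one_or (Perm.sign (g.subtypePerm (p := fun i => p i = some true) fun i => by
      simp only [hg i])) with h | h <;> simp [h]

/-- The sign cocycle: it extends the signs of the pattern stabilisers to the action groupoid. -/
theorem exists_cocycle : ∃ ε : Perm ι → Pat ι → ℂ,
    (∀ g h p, ε (g * h) p = ε g (p ∘ h.symm) * ε h p) ∧ (∀ g p, ε g p = 1 ∨ ε g p = -1) ∧
      ∀ g p, p ∘ g.symm = p → ε g p = patSgn p g := by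
  classical
  let R : Finset (Pat ι) → Pat ι := fun s => if h : s.Nonempty then h.choose else fun _ => none
  have hR : ∀ p : Pat ι, R (patOrb p) ∈ patOrb p := fun p => by
    have h : (patOrb p).Nonempty := ⟨p, self_mem_patOrb p⟩
    simp only [R, dif_pos h]
    exact h.choose_spec
  have hs : ∀ p : Pat ι, ∃ s : Perm ι, R (patOrb p) ∘ s.symm = p := fun p => by
    obtain ⟨k, hk⟩ := mem_patOrb.1 (hR p)
    refine ⟨k⁻¹, ?_⟩
    rw [hk]
    funext i
    change p (k.symm (k i)) = p i
    rw [symm_apply_apply]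
  choose s hs using hs
  have hst : ∀ (g : Perm ι) (p : Pat ι) (i : ι),
      R (patOrb p) (((s (p ∘ g.symm))⁻¹ * g * s p) i) = R (patOrb p) i := fun g p i => by
    have h1 := congrFun (hs (p ∘ g.symm)) (g (s p i))
    have h2 := congrFun (hs p) (s p i)
    rw [tr_patOrb_comp] at h1
    simp only [Function.comp_apply, symm_apply_apply] at h1 h2
    rw [h2, ← h1]
    rfl
  refine ⟨fun g p => patSgn (R (patOrb p)) ((s (p ∘ g.symm))⁻¹ * g * s p), fun g h p => ?_,
    fun g p => tr_patSgn_pm (hst g p), fun g p hp => ?_⟩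
  · have h1 := hst g (p ∘ h.symm)
    rw [tr_patOrb_comp] at h1
    beta_reduce
    rw [tr_patOrb_comp, ← tr_patSgn_mul h1 (hst h p)]
    congr 1
    have : (p ∘ (g * h).symm) = (p ∘ h.symm) ∘ g.symm := rfl
    rw [this]
    group
  · beta_reduce
    rw [hp, ← patSgn_tr (s p), hs p]
    congr 1
    ext i
    simp

end Crest.Agent.R155
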