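import Crest.Agent.R155.Sym

/-!
# Young tableaux and Young symmetrisers (auxiliary file for `Young.lean`)
-/

set_option linter.unusedSectionVars false

namespace Crest.Agent.R155

open scoped ComplexOrder MatrixOrder ComplexConjugate Matrix.Norms.L2Operator Matrix
open Finset GA Equiv

variable {ι : Type} [Fintype ι] [DecidableEq ι]

/-- Permutations preserving a function. -/
def yStab (f : ι → ℕ) : Subgroup (Perm ι) where
  carrier := {g | ∀ x, f (g x) = f x}
  one_mem' := fun _ => rfl
  mul_mem' := fun {a b} ha hb x => by rw [Perm.mul_apply, ha, hb]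
  inv_mem' := fun {a} ha x => by simpa using (ha (a⁻¹ x)).symm

theorem mem_yStab {f : ι → ℕ} {g : Perm ι} : g ∈ yStab f ↔ ∀ x, f (g x) = f x := Iff.rfl

theorem swap_mem_yStab {f : ι → ℕ} {x y : ι} (h : f x = f y) : swap x y ∈ yStab f := by
  intro z
  rw [swap_apply_def]
  split_ifs with h1 h2
  · rw [h1, h]
  · rw [h2, h]
  · rfl

theorem suppGrp_le_yStab {f : ι → ℕ} {U : Finset ι} {v : ℕ} (h : ∀ x ∈ U, f x = v) :
    suppGrp U ≤ yStab f := by
  intro g hg x
  by_cases hx : x ∈ U
  · have : g x ∈ U := by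
      by_contra h'
      have := hg _ h'
      rw [g.injective this] at h'
      exact h' hx
    rw [h _ hx, h _ this]
  · rw [hg x hx]

theorem swap_mem_suppGrp {U : Finset ι} {x y : ι} (hx : x ∈ U) (hy : y ∈ U) :
    swap x y ∈ suppGrp U := fun _ hz =>
  swap_apply_of_ne_of_ne (fun h => hz (h ▸ hx)) (fun h => hz (h ▸ hy))

/-- A Young tableau filled with the points of `ι`. -/
structure YTab (ι : Type) where
  row : ι → ℕ
  col : ι → ℕ
  inj : ∀ x y, row x = row y → col x = col y → x = y
  lower : ∀ x i j, i ≤ row x → j ≤ col x → ∃ y, row y = i ∧ col y = j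

/-- The row symmetriser. -/
noncomputable def YTab.a (T : YTab ι) : GA (Perm ι) := avgSub (yStab T.row)

/-- The column antisymmetriser. -/
noncomputable def YTab.b (T : YTab ι) : GA (Perm ι) := avgTw (yStab T.col) sgnC

theorem YTab.a_nonneg (T : YTab ι) : 0 ≤ T.a := avgTw_nonneg (isChar_one _)

theorem YTab.b_nonneg (T : YTab ι) : 0 ≤ T.b := avgTw_nonneg (isChar_sgnC _)

theorem y_kill {S : Subgroup (Perm ι)} {c : ι → ℕ} {g : Perm ι} {x y : ι} (hxy : x ≠ y)
    (hs : swap x y ∈ S) (hc : c (g⁻¹ x) = c (g⁻¹ y)) :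
    avgSub S * dl g * avgTw (yStab c) sgnC = 0 := by
  have h1 : avgSub S * dl (swap x y) = avgSub S := by
    rw [avgSub, avgTw_mul_dl (isChar_one S) hs]; simp
  have hne : g⁻¹ x ≠ g⁻¹ y := fun h => hxy (g⁻¹.injective h)
  have h2 : dl (swap (g⁻¹ x) (g⁻¹ y)) * avgTw (yStab c) sgnC = -avgTw (yStab c) sgnC := by
    rw [dl_mul_avgTw (isChar_sgnC _) (swap_mem_yStab hc), sgnC_swap hne]; simp
  have h3 : swap x y * g = g * swap (g⁻¹ x) (g⁻¹ y) := by
    rw [Equiv.mul_swap_eq_swap_mul]; simp
  have h4 : avgSub S * dl g * avgTw (yStab c) sgnC = -(avgSub S * dl g * avgTw (yStab c) sgnC) := by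
    calc avgSub S * dl g * avgTw (yStab c) sgnC
        = avgSub S * dl (swap x y) * dl g * avgTw (yStab c) sgnC := by rw [h1]
      _ = avgSub S * dl g * (dl (swap (g⁻¹ x) (g⁻¹ y)) * avgTw (yStab c) sgnC) := by
          rw [mul_assoc (avgSub S), dl_mul_dl, h3, ← dl_mul_dl]; simp only [mul_assoc]
      _ = _ := by rw [h2, mul_neg]
  have h5 : (2 : ℂ) • (avgSub S * dl g * avgTw (yStab c) sgnC) = 0 := by
    rw [two_smul]; nth_rewrite 1 [h4]; exact neg_add_cancel _
  exact (smul_eq_zero.1 h5).resolve_left two_ne_zero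

theorem YTab.a_mul_b_ne_zero (T : YTab ι) : T.a * T.b ≠ 0 := by
  intro h
  have h1 := congrArg (fun z : GA (Perm ι) => z 1) h
  simp only [mul_apply, zero_apply, mul_one] at h1
  rw [Finset.sum_eq_single 1] at h1
  · rw [inv_one, YTab.a, YTab.b, avgSub, avgTw_of_mem _ (Subgroup.one_mem _),
      avgTw_of_mem _ (Subgroup.one_mem _), sgnC_one] at h1
    have h2 : (Nat.card (yStab T.row) : ℂ) ≠ 0 := by
      exact_mod_cast (Nat.card_pos (α := yStab T.row)).ne'
    have h3 : (Nat.card (yStab T.col) : ℂ) ≠ 0 := by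
      exact_mod_cast (Nat.card_pos (α := yStab T.col)).ne'
    exact mul_ne_zero (one_div_ne_zero h2) (one_div_ne_zero h3) h1
  · intro g _ hg
    by_cases h2 : g ∈ yStab T.row
    · have : g⁻¹ ∉ yStab T.col := fun h3 =>
        hg (Equiv.ext fun x => T.inj _ _ (h2 x) ((by simpa using (yStab T.col).inv_mem h3 :
          g ∈ yStab T.col) x))
      rw [YTab.b, avgTw_of_notMem _ this, mul_zero]
    · rw [YTab.a, avgSub, avgTw_of_notMem _ h2, zero_mul]
  · simp

/-- Connecting a symmetriser with a column antisymmetriser inside an irreducible character. -/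
theorem y_connect {χ : Perm ι → ℂ} (hχ : IsIrr χ) {S : Subgroup (Perm ι)} {c : ι → ℕ}
    (h1 : ev χ (avgSub S) ≠ 0) (h2 : ev χ (avgTw (yStab c) sgnC) ≠ 0) :
    ∃ k : Perm ι, ∀ x y, swap x y ∈ S → c (k x) = c (k y) → x = y := by
  obtain ⟨r, rfl⟩ := hχ
  rw [avgSub, r.ev_ne_zero_iff (avgTw_nonneg (isChar_one _))] at h1
  rw [r.ev_ne_zero_iff (avgTw_nonneg (isChar_sgnC _))] at h2
  obtain ⟨g, hg⟩ := r.exists_mul_ne_zero h1 h2
  refine ⟨g⁻¹, fun x y hs hc => ?_⟩
  by_contra hxy
  apply hg
  rw [← lift_dl r.ρ g, ← map_mul, ← map_mul]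
  erw [y_kill hxy hs hc]
  exact map_zero _

theorem y_symz_ne_zero {χ : Perm ι → ℂ} (hχ : IsIrr χ) {T : YTab ι} (h : ev χ T.a ≠ 0)
    {U : Finset ι} {v : ℕ} (hU : ∀ x ∈ U, T.row x = v) : ev χ (symz U) ≠ 0 := by
  obtain ⟨r, rfl⟩ := hχ
  rw [r.ev_ne_zero_iff T.a_nonneg] at h
  rw [r.ev_ne_zero_iff (isStarProjection_symz U).nonneg]
  intro h0
  apply h
  have : symz U * T.a = T.a :=
    avgTw_mul_avgTw_of_le (isChar_one _) (suppGrp_le_yStab hU) fun _ _ => rfl
  rw [← this, map_mul, h0, zero_mul]

theorem y_altz_ne_zero {χ : Perm ι → ℂ} (hχ : IsIrr χ) {T : YTab ι} (h : ev χ T.b ≠ 0)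
    {U : Finset ι} {v : ℕ} (hU : ∀ x ∈ U, T.col x = v) : ev χ (altz U) ≠ 0 := by
  obtain ⟨r, rfl⟩ := hχ
  rw [r.ev_ne_zero_iff T.b_nonneg] at h
  rw [r.ev_ne_zero_iff (isStarProjection_altz U).nonneg]
  intro h0
  apply h
  have : altz U * T.b = T.b :=
    avgTw_mul_avgTw_of_le (isChar_sgnC _) (suppGrp_le_yStab hU) fun _ _ => rfl
  rw [← this, map_mul, h0, zero_mul]

/-- The dominance lemma. -/
theorem y_dominance (T : YTab ι) (f : ι → ℕ) (k : Perm ι)
    (h : ∀ x y, f x = f y → T.col (k x) = T.col (k y) → x = y) (i : ℕ) :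
    #{x | f x < i} ≤ #{x | T.row x < i} := by
  classical
  have e1 : #{x | f x < i} = #{z | f (k⁻¹ z) < i} := by
    refine Finset.card_bij (fun x _ => k x) (by simp) (fun _ _ _ _ h => k.injective h)
      fun z hz => ⟨k⁻¹ z, by simpa using hz, by simp⟩
  rw [e1, Finset.card_eq_sum_card_fiberwise (f := T.col) (t := univ.image T.col)
      (fun x _ => by simp),
    Finset.card_eq_sum_card_fiberwise (f := T.col) (t := univ.image T.col)
      (s := {x | T.row x < i}) (fun x _ => by simp)]
  refine Finset.sum_le_sum fun j _ => ?_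
  by_cases hj : ∀ z, T.col z = j → T.row z < i
  · refine Finset.card_le_card fun z hz => ?_
    simp only [mem_filter, mem_univ, true_and] at hz ⊢
    exact ⟨hj z hz.2, hz.2⟩
  · push Not at hj
    obtain ⟨z₀, hz₀, hi⟩ := hj
    calc _ ≤ #(range i) := by
          refine Finset.card_le_card_of_injOn (fun z => f (k⁻¹ z)) (fun z hz => ?_)
            fun z hz z' hz' hzz => ?_
          · simp only [coe_filter, mem_filter, mem_univ, true_and, Set.mem_ofPred_eq] at hz
            simpa using hz.1
          · simp only [coe_filter, mem_filter, mem_univ, true_and, Set.mem_ofPred_eq] at hz hz'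
            have := h _ _ hzz (by simp [hz.2, hz'.2])
            exact k⁻¹.injective this
      _ ≤ _ := by
          refine Finset.card_le_card_of_surjOn T.row fun m hm => ?_
          have hm' : m < i := by simpa using hm
          obtain ⟨y, hy1, hy2⟩ := T.lower z₀ m j (by omega) hz₀.ge
          exact ⟨y, by simp [hy1, hy2, hm'], hy1⟩

theorem y_rows_eq {χ : Perm ι → ℂ} (hχ : IsIrr χ) {T T' : YTab ι} (ha : ev χ T.a ≠ 0)
    (hb : ev χ T.b ≠ 0) (ha' : ev χ T'.a ≠ 0) (hb' : ev χ T'.b ≠ 0) (i : ℕ) :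
    #{x | T.row x = i} = #{x | T'.row x = i} := by
  have key : ∀ i, #{x | T.row x < i} = #{x | T'.row x < i} := fun i => by
    obtain ⟨k, hk⟩ := y_connect hχ ha hb'
    obtain ⟨k', hk'⟩ := y_connect hχ ha' hb
    exact le_antisymm
      (y_dominance T' T.row k (fun x y h1 h2 => hk x y (swap_mem_yStab h1) h2) i)
      (y_dominance T T'.row k' (fun x y h1 h2 => hk' x y (swap_mem_yStab h1) h2) i)
  have split : ∀ f : ι → ℕ, #{x | f x < i + 1} = #{x | f x < i} + #{x | f x = i} := fun f => by
    rw [← Finset.card_union_of_disjoint]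
    · congr 1
      ext x
      simp only [mem_filter, mem_univ, true_and, mem_union]
      omega
    · rw [Finset.disjoint_filter]
      intro x _ h1 h2
      omega
  have h1 := key (i + 1)
  rw [split, split, key i] at h1
  omega

theorem y_lev_eq {χ : Perm ι → ℂ} (hχ : IsIrr χ) {T : YTab ι} (ha : ev χ T.a ≠ 0)
    (hb : ev χ T.b ≠ 0) : #{x | T.row x = 0} + lev χ = Fintype.card ι := by
  refine le_antisymm (card_add_lev_le (y_symz_ne_zero hχ ha (v := 0) (by simp))) ?_
  obtain ⟨U, hU, h0⟩ := exists_lev hχ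
  obtain ⟨k, hk⟩ := y_connect hχ h0 hb
  choose p hp using fun x => T.lower x 0 (T.col x) (Nat.zero_le _) le_rfl
  have : #U ≤ #{x | T.row x = 0} := by
    refine Finset.card_le_card_of_injOn (fun x => p (k x)) (fun x _ => by simp [(hp _).1])
      fun x hx y hy hxy => hk x y (swap_mem_suppGrp hx hy) ?_
    rw [← (hp (k x)).2, ← (hp (k y)).2]
    exact congrArg T.col hxy
  omega

/-! ### tableaux of partitions -/

theorem y_exists_tab (w : List ℕ) (hw : w.SortedGE) (hs : w.sum = Fintype.card ι) :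
    ∃ T : YTab ι, ∀ i, #{x | T.row x = i} = w.getD i 0 := by
  classical
  have hc : Fintype.card ι = Fintype.card (Σ i : Fin w.length, Fin w[i]) := by
    rw [Fintype.card_sigma, ← hs]
    simp
  let e := Fintype.equivOfCardEq hc
  refine ⟨⟨fun x => (e x).1, fun x => (e x).2, fun x y h1 h2 => e.injective ?_,
    fun x i j hi hj => ?_⟩, fun i => ?_⟩
  · generalize e x = u at h1 h2
    generalize e y = v at h1 h2
    obtain ⟨u1, u2⟩ := u
    obtain ⟨v1, v2⟩ := v
    obtain rfl : u1 = v1 := Fin.ext h1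
    obtain rfl : u2 = v2 := Fin.ext h2
    rfl
  · have hi' : i < w.length := hi.trans_lt (e x).1.2
    have hj' : j < w[i] := (hj.trans_lt (e x).2.2).trans_le (hw.getElem_ge_getElem_of_le hi)
    exact ⟨e.symm ⟨⟨i, hi'⟩, ⟨j, hj'⟩⟩, by simp, by rw [e.apply_symm_apply]⟩
  · by_cases hi : i < w.length
    · rw [List.getD_eq_getElem _ _ hi]
      symm
      refine (Finset.card_fin w[i]).symm.trans ?_
      refine Finset.card_bij (fun j _ => e.symm ⟨⟨i, hi⟩, j⟩) (by simp) (fun j _ j' _ h => ?_)
        fun x hx => ?_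
      · simpa using h
      · have hx' : ((e x).1 : ℕ) = i := by simpa using hx
        subst hx'
        exact ⟨(e x).2, mem_univ _, by simp⟩
    · rw [List.getD_eq_default _ _ (by omega), Finset.card_eq_zero, Finset.filter_eq_empty_iff]
      intro x _ h
      exact hi (h ▸ (e x).1.2)

/-- The decreasing list of parts. -/
noncomputable def yList {n : ℕ} (p : n.Partition) : List ℕ := p.parts.sort (· ≥ ·)

theorem yList_sorted {n : ℕ} (p : n.Partition) : (yList p).SortedGE :=
  (Multiset.pairwise_sort _ _).sortedGE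

theorem yList_sum {n : ℕ} (p : n.Partition) : (yList p).sum = n := by
  rw [← Multiset.sum_coe, yList, Multiset.sort_eq, p.parts_sum]

theorem yList_pos {n : ℕ} (p : n.Partition) {x : ℕ} (hx : x ∈ yList p) : 0 < x :=
  p.parts_pos (by simpa [yList] using hx)

theorem yList_injective {n : ℕ} {p q : n.Partition} (h : yList p = yList q) : p = q := by
  ext1
  rw [← Multiset.sort_eq p.parts (· ≥ ·), ← Multiset.sort_eq q.parts (· ≥ ·)]
  exact congrArg _ h

theorem yList_ext {n : ℕ} {p q : n.Partition} (h : ∀ i, (yList p).getD i 0 = (yList q).getD i 0) :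
    p = q := by
  apply yList_injective
  have key : ∀ {p q : n.Partition}, (∀ i, (yList p).getD i 0 = (yList q).getD i 0) →
      (yList p).length ≤ (yList q).length := by
    intro p q h
    by_contra hlt
    push Not at hlt
    have := h (yList q).length
    rw [List.getD_eq_getElem _ _ hlt, List.getD_eq_default _ _ le_rfl] at this
    exact (yList_pos p (List.getElem_mem hlt)).ne' this
  refine List.ext_getElem (le_antisymm (key h) (key fun i => (h i).symm)) fun i h1 h2 => ?_
  have := h i
  rwa [List.getD_eq_getElem _ _ h1, List.getD_eq_getElem _ _ h2] at this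

theorem y_card_conjClasses_le :
    Nat.card (ConjClasses (Perm ι)) ≤ Fintype.card (Fintype.card ι).Partition := by
  rw [← Nat.card_eq_fintype_card]
  refine Nat.card_le_card_of_injective (fun c => (Quotient.out c : Perm ι).partition)
    fun c c' h => ?_
  have := Perm.partition_eq_of_isConj.2 h
  rw [← Quotient.out_eq c, ← Quotient.out_eq c']
  exact Quotient.sound this

/-- Classification: every irreducible character comes from a partition. -/
theorem y_classify : ∃ T : (Fintype.card ι).Partition → YTab ι,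
    (∀ p i, #{x | (T p).row x = i} = (yList p).getD i 0) ∧
    ∃ r : (Fintype.card ι).Partition → IrrRep (Perm ι),
      (∀ p, lift (r p).ρ ((T p).a * (T p).b) ≠ 0) ∧ ∀ χ, IsIrr χ → ∃ p, (r p).chr = χ := by
  classical
  choose T hT using fun p : (Fintype.card ι).Partition =>
    y_exists_tab (ι := ι) (yList p) (yList_sorted p) (yList_sum p)
  have hr : ∀ p, ∃ r : IrrRep (Perm ι), lift r.ρ ((T p).a * (T p).b) ≠ 0 := fun p => by
    by_contra h
    push Not at h
    exact (T p).a_mul_b_ne_zero (eq_of_forall_irr fun r => by rw [h r, map_zero])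
  choose r hr using hr
  have ha : ∀ p, ev (r p).chr (T p).a ≠ 0 := fun p => by
    rw [(r p).ev_ne_zero_iff (T p).a_nonneg]
    intro h
    exact hr p (by rw [map_mul, h, zero_mul])
  have hb : ∀ p, ev (r p).chr (T p).b ≠ 0 := fun p => by
    rw [(r p).ev_ne_zero_iff (T p).b_nonneg]
    intro h
    exact hr p (by rw [map_mul, h, mul_zero])
  refine ⟨T, hT, r, hr, fun χ hχ => ?_⟩
  have hinj : Function.Injective fun p => (r p).chr := fun p q h => by
    have h' : (r p).chr = (r q).chr := h
    refine yList_ext fun i => ?_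
    rw [← hT, ← hT]
    exact y_rows_eq (r p).isIrr (ha p) (hb p) (h' ▸ ha q) (h' ▸ hb q) i
  have hsub : (univ.image fun p => (r p).chr) ⊆ Irr (Perm ι) := fun ψ hψ => by
    obtain ⟨p, -, rfl⟩ := mem_image.1 hψ
    exact mem_Irr.2 (r p).isIrr
  have heq := Finset.eq_of_subset_of_card_le hsub (by
    rw [Finset.card_image_of_injective _ hinj, card_univ]
    exact card_Irr_le.trans y_card_conjClasses_le)
  have : χ ∈ univ.image fun p => (r p).chr := heq ▸ mem_Irr.2 hχ
  obtain ⟨p, -, hp⟩ := mem_image.1 this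
  exact ⟨p, hp⟩

theorem y_ev_ne_zero {T : YTab ι} {r : IrrRep (Perm ι)} (h : lift r.ρ (T.a * T.b) ≠ 0) :
    ev r.chr T.a ≠ 0 ∧ ev r.chr T.b ≠ 0 := by
  rw [r.ev_ne_zero_iff T.a_nonneg, r.ev_ne_zero_iff T.b_nonneg]
  exact ⟨fun h' => h (by rw [map_mul, h', zero_mul]), fun h' => h (by rw [map_mul, h', mul_zero])⟩

/-! ### the dimension bound -/

theorem YTab.eq_one (T : YTab ι) {k : Perm ι} (hk : k ∈ yStab fun x => T.row x + T.col x)
    (h : ∀ x y, T.row x = T.row y → T.col (k x) = T.col (k y) → x = y) : k = 1 := by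
  have key : ∀ i j y, T.row y = i → T.col y = j → k y = y := by
    intro i
    induction i using Nat.strong_induction_on with
    | _ i ihi =>
    intro j
    induction j using Nat.strong_induction_on with
    | _ j ihj =>
    intro y hi hj
    have h1 : T.row (k y) + T.col (k y) = T.row y + T.col y := hk y
    have h2 : i ≤ T.row (k y) := by
      by_contra hlt
      push Not at hlt
      have := k.injective (ihi _ hlt _ (k y) rfl rfl)
      rw [this] at hlt
      omega
    have h3 : j ≤ T.col (k y) := by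
      by_contra hlt
      push Not at hlt
      obtain ⟨y', hy1, hy2⟩ := T.lower y i (T.col (k y)) hi.ge (by omega)
      have h4 := ihj _ hlt y' hy1 hy2
      have h5 := h y' y (by omega) (by rw [h4, hy2])
      rw [h5] at hy2
      omega
    exact T.inj _ _ (by omega) (by omega)
  exact Equiv.ext fun y => key _ _ y rfl rfl

theorem y_card_le_dim {T : YTab ι} {r : IrrRep (Perm ι)} (h : lift r.ρ (T.a * T.b) ≠ 0) :
    Nat.card (yStab fun x => T.row x + T.col x) ≤ r.n := by
  classical
  set D := yStab fun x => T.row x + T.col x with hD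
  have hkill : ∀ g ∈ D, g ≠ 1 → T.a * dl g * T.b = 0 := by
    intro g hg hg1
    by_contra hne
    refine hg1 (inv_eq_one.1 (T.eq_one (D.inv_mem hg) fun x y h1 h2 => ?_))
    by_contra hxy
    exact hne (y_kill hxy (swap_mem_yStab h1) h2)
  obtain ⟨u, hu⟩ : ∃ u, lift r.ρ (T.a * T.b) *ᵥ u ≠ 0 := by
    by_contra h'
    push Not at h'
    exact h (Matrix.ext_of_mulVec_single fun i => by rw [h', Matrix.zero_mulVec])
  have hli : LinearIndependent ℂ fun g : D => lift r.ρ (dl (g : Perm ι) * T.b) *ᵥ u := by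
    rw [Fintype.linearIndependent_iff]
    intro c hc g₀
    have h1 := congrArg (fun v => lift r.ρ (T.a * dl (g₀ : Perm ι)⁻¹) *ᵥ v) hc
    simp only [Matrix.mulVec_zero, Matrix.mulVec_sum, Matrix.mulVec_smul, Matrix.mulVec_mulVec,
      ← map_mul] at h1
    rw [Finset.sum_eq_single g₀] at h1
    · rw [mul_assoc, ← mul_assoc (dl _), dl_mul_dl, inv_mul_cancel, dl_one, one_mul] at h1
      exact (smul_eq_zero.1 h1).resolve_right hu
    · intro g _ hg
      rw [mul_assoc, ← mul_assoc (dl _), dl_mul_dl, ← mul_assoc,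
        hkill _ (D.mul_mem (D.inv_mem g₀.2) g.2) fun h => hg (Subtype.ext (inv_mul_eq_one.1 h).symm),
        map_zero, Matrix.zero_mulVec, smul_zero]
    · simp
  have := hli.fintype_card_le_finrank
  rw [Nat.card_eq_fintype_card]
  simpa using this

theorem y_factorial_le {f : ι → ℕ} {m : ℕ} (hf : ∀ x, f x < m) :
    (Fintype.card ι).factorial ≤ Nat.card (yStab f) * m ^ Fintype.card ι := by
  classical
  have h1 : #(Fintype.piFinset fun _ : ι => range m) = m ^ Fintype.card ι := by simp
  rw [← h1, ← Fintype.card_perm, ← card_univ]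
  refine Finset.card_le_mul_card_image_of_maps_to (f := fun g : Perm ι => fun x => f (g x))
    (fun g _ => by simp [hf]) _ fun φ _ => ?_
  rcases (univ.filter fun g : Perm ι => (fun x => f (g x)) = φ).eq_empty_or_nonempty with h | h
  · simp [h]
  · obtain ⟨g₀, hg₀⟩ := h
    rw [Nat.card_eq_fintype_card, Fintype.card_subtype]
    refine Finset.card_le_card_of_injOn (fun g => g * g₀⁻¹) (fun g hg => ?_)
      fun g _ g' _ h => mul_right_cancel h
    simp only [coe_filter, mem_filter, mem_univ, true_and, Set.mem_ofPred_eq] at hg hg₀ ⊢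
    intro x
    have := congrFun (hg.trans hg₀.symm) (g₀⁻¹ x)
    simpa using this

theorem y_two_pow_le_factorial (m : ℕ) : 2 ^ (m - 1) ≤ m.factorial := by
  rcases m with _ | m
  · simp
  · induction m with
    | zero => simp
    | succ m ih =>
      rw [Nat.factorial_succ]
      simp only [add_tsub_cancel_right] at ih ⊢
      rw [pow_succ, mul_comm]
      exact Nat.mul_le_mul (by omega) ih

theorem y_two_pow_le {f : ι → ℕ} {s : ℕ} (hf : ∀ x, f x < s) :
    2 ^ (Fintype.card ι - s) ≤ Nat.card (yStab f) := by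
  classical
  have h1 : Nat.card (yStab f) = Fintype.card {g : Perm ι // f ∘ g = f} := by
    rw [← Nat.card_eq_fintype_card]
    exact Nat.card_congr (Equiv.subtypeEquivRight fun g => by simp [mem_yStab, funext_iff])
  rw [h1, DomMulAct.stabilizer_card']
  refine le_trans ?_ (Finset.prod_le_prod' fun i _ => y_two_pow_le_factorial _)
  rw [Finset.prod_pow_eq_pow_sum]
  refine Nat.pow_le_pow_right two_pos ?_
  have h2 : Fintype.card ι = ∑ i ∈ univ.image f, Fintype.card {a // f a = i} := by
    rw [← card_univ, Finset.card_eq_sum_card_fiberwise (f := f) (t := univ.image f) (by simp)]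
    exact sum_congr rfl fun i _ => by rw [Fintype.card_subtype]
  have h3 : #(univ.image f) ≤ s := by
    rw [← Finset.card_range s]
    exact Finset.card_le_card fun i hi => by
      obtain ⟨x, -, rfl⟩ := mem_image.1 hi
      simpa using hf x
  have h4 : ∑ i ∈ univ.image f, Fintype.card {a // f a = i}
      ≤ ∑ i ∈ univ.image f, (Fintype.card {a // f a = i} - 1 + 1) :=
    sum_le_sum fun i _ => by omega
  rw [sum_add_distrib, sum_const, smul_eq_mul, mul_one] at h4
  omega

theorem YTab.col_lt (T : YTab ι) (x : ι) : T.col x < #{y | T.row y = T.row x} := by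
  rw [← Nat.succ_le_iff, ← Finset.card_range (T.col x).succ]
  refine Finset.card_le_card_of_surjOn T.col fun m hm => ?_
  have hm' : m < T.col x + 1 := by simpa using hm
  obtain ⟨y, hy1, hy2⟩ := T.lower x (T.row x) m le_rfl (by omega)
  exact ⟨y, by simp [hy1], hy2⟩

theorem YTab.row_lt (T : YTab ι) (x : ι) : T.row x < #{y | T.col y = T.col x} := by
  rw [← Nat.succ_le_iff, ← Finset.card_range (T.row x).succ]
  refine Finset.card_le_card_of_surjOn T.row fun m hm => ?_
  have hm' : m < T.row x + 1 := by simpa using hm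
  obtain ⟨y, hy1, hy2⟩ := T.lower x m (T.col x) (by omega) le_rfl
  exact ⟨y, by simp [hy2], hy1⟩

theorem YTab.rect_le (T : YTab ι) (x : ι) : (T.row x + 1) * (T.col x + 1) ≤ Fintype.card ι := by
  rw [← Finset.card_range (T.row x + 1), ← Finset.card_range (T.col x + 1), ← Finset.card_product,
    ← card_univ]
  refine Finset.card_le_card_of_surjOn (fun y => (T.row y, T.col y)) fun m hm => ?_
  have hm' : m.1 < T.row x + 1 ∧ m.2 < T.col x + 1 := by simpa using hm
  obtain ⟨y, hy1, hy2⟩ := T.lower x m.1 m.2 (by omega) (by omega)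
  exact ⟨y, by simp, Prod.ext hy1 hy2⟩

end Crest.Agent.R155
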