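import Crest.Agent.R155.Lev
import Crest.Agent.R155.YoungAux

/-!
# Young symmetrisers: dimension bounds and the number of characters of a given level
-/

set_option linter.unusedSectionVars false

namespace Crest.Agent.R155

open scoped ComplexOrder MatrixOrder ComplexConjugate Matrix.Norms.L2Operator Matrix
open Finset GA Equiv

variable {ι : Type} [Fintype ι] [DecidableEq ι]

/-- A shape with all rows and columns of length at most `t` has large dimension. -/
theorem IsIrr.dim_ge_of_small {γ : Perm ι → ℂ} (hγ : IsIrr γ) {t : ℕ}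
    (hs : ∀ T : Finset ι, t < T.card → ev γ (symz T) = 0)
    (ha : ∀ T : Finset ι, t < T.card → ev γ (altz T) = 0) :
    ((Fintype.card ι).factorial : ℝ) / (2 * t : ℝ) ^ Fintype.card ι ≤ dim γ := by
  obtain ⟨T, -, r, hr, hall⟩ := y_classify (ι := ι)
  obtain ⟨p, rfl⟩ := hall γ hγ
  obtain ⟨h1, h2⟩ := y_ev_ne_zero (hr p)
  have hlt : ∀ x, (T p).row x + (T p).col x < 2 * t := fun x => by
    have e1 : #{y | (T p).row y = (T p).row x} ≤ t := by
      by_contra h
      exact y_symz_ne_zero hγ h1 (v := (T p).row x) (by simp) (hs _ (not_le.1 h))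
    have e2 : #{y | (T p).col y = (T p).col x} ≤ t := by
      by_contra h
      exact y_altz_ne_zero hγ h2 (v := (T p).col x) (by simp) (ha _ (not_le.1 h))
    have e3 := (T p).col_lt x
    have e4 := (T p).row_lt x
    omega
  have h3 := (y_factorial_le hlt).trans (Nat.mul_le_mul_right _ (y_card_le_dim (hr p)))
  rw [IrrRep.dim_chr]
  refine div_le_of_le_mul₀ (by positivity) (by positivity) ?_
  exact_mod_cast h3

/-- A shape whose first column is at most half of the boxes has exponentially large dimension. -/
theorem IsIrr.two_pow_le_dim {χ : Perm ι → ℂ} (hχ : IsIrr χ)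
    (ha : ∀ T : Finset ι, Fintype.card ι < 2 * T.card → ev χ (altz T) = 0) :
    (2 : ℝ) ^ min (lev χ) (Fintype.card ι / 2 - 1) ≤ dim χ := by
  obtain ⟨T, -, r, hr, hall⟩ := y_classify (ι := ι)
  obtain ⟨p, rfl⟩ := hall χ hχ
  obtain ⟨h1, h2⟩ := y_ev_ne_zero (hr p)
  rcases isEmpty_or_nonempty ι with hι | hι
  · simpa using hχ.one_le_dim
  obtain ⟨x, -, hx⟩ := Finset.exists_max_image univ (fun x => (T p).row x + (T p).col x)
    univ_nonempty
  have h3 := (y_two_pow_le (f := fun x => (T p).row x + (T p).col x)
    (s := (T p).row x + (T p).col x + 1) fun y => Nat.lt_succ_of_le (hx y (mem_univ _))).trans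
    (y_card_le_dim (hr p))
  have h4 : min (lev (r p).chr) (Fintype.card ι / 2 - 1)
      ≤ Fintype.card ι - ((T p).row x + (T p).col x + 1) := by
    have e1 := card_add_lev_le (y_symz_ne_zero hχ h1 (v := (T p).row x)
      (U := {y | (T p).row y = (T p).row x}) (by simp))
    have e2 : 2 * #{y | (T p).col y = (T p).col x} ≤ Fintype.card ι := by
      by_contra h
      exact y_altz_ne_zero hχ h2 (v := (T p).col x) (by simp) (ha _ (not_le.1 h))
    have e3 := (T p).col_lt x
    have e4 := (T p).row_lt x
    have e5 := (T p).rect_le x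
    rcases Nat.eq_zero_or_pos ((T p).row x) with h | h
    · omega
    rcases Nat.eq_zero_or_pos ((T p).col x) with h' | h'
    · omega
    have e6 : 2 * ((T p).row x + (T p).col x) ≤ ((T p).row x + 1) * ((T p).col x + 1) := by
      obtain ⟨a, ha⟩ : ∃ a, (T p).row x = a + 1 := ⟨_, (Nat.succ_pred_eq_of_pos h).symm⟩
      obtain ⟨b, hb⟩ : ∃ b, (T p).col x = b + 1 := ⟨_, (Nat.succ_pred_eq_of_pos h').symm⟩
      rw [ha, hb]
      nlinarith [Nat.zero_le (a * b)]
    omega
  rw [IrrRep.dim_chr]
  exact_mod_cast (Nat.pow_le_pow_right two_pos h4).trans h3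

/-- The number of irreducible characters of level `k`. -/
theorem card_lev_le (k : ℕ) :
    ((Irr (Perm ι)).filter fun χ => lev χ = k).card ≤ 2 ^ (2 * k + 1) := by
  classical
  obtain ⟨T, hT, r, hr, hall⟩ := y_classify (ι := ι)
  have hlev : ∀ p, (yList p).getD 0 0 + lev (r p).chr = Fintype.card ι := fun p => by
    obtain ⟨h1, h2⟩ := y_ev_ne_zero (hr p)
    rw [← hT]
    exact y_lev_eq (r p).isIrr h1 h2
  have hsum : ∀ p : (Fintype.card ι).Partition,
      (yList p).getD 0 0 + (yList p).tail.sum = Fintype.card ι := fun p => by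
    have := yList_sum p
    cases h : yList p with
    | nil => rw [h] at this; simpa using this
    | cons a l => rw [h] at this; simpa using this
  have h1 : ((Irr (Perm ι)).filter fun χ => lev χ = k).card
      ≤ #{p : (Fintype.card ι).Partition | (yList p).tail.sum = k} := by
    refine Finset.card_le_card_of_surjOn (fun p => (r p).chr) fun χ hχ => ?_
    have hχ' : IsIrr χ ∧ lev χ = k := by simpa using hχ
    obtain ⟨p, rfl⟩ := hall χ hχ'.1
    refine ⟨p, ?_, rfl⟩
    have e1 := hlev p
    have e2 := hsum p
    simp only [coe_filter, mem_univ, true_and, Set.mem_ofPred_eq]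
    omega
  have h2 : #{p : (Fintype.card ι).Partition | (yList p).tail.sum = k}
      ≤ Fintype.card (Composition k) := by
    rw [← Fintype.card_subtype]
    refine Fintype.card_le_of_injective (fun p => ⟨(yList p.1).tail,
      fun hi => yList_pos p.1 (List.mem_of_mem_tail hi), p.2⟩) fun p q h => ?_
    have e : (yList p.1).tail = (yList q.1).tail := congrArg Composition.blocks h
    refine Subtype.ext (yList_ext fun i => ?_)
    rcases i with _ | i
    · have e1 := hsum p.1
      have e2 := hsum q.1
      rw [e] at e1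
      omega
    · have key : ∀ l : List ℕ, l.getD (i + 1) 0 = l.tail.getD i 0 := fun l => by
        cases l <;> simp
      rw [key, key, e]
  refine h1.trans (h2.trans ?_)
  rw [composition_card]
  exact Nat.pow_le_pow_right two_pos (by omega)

end Crest.Agent.R155
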