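import Crest.Agent.R155.Tensor

/-!
# Product states are dominated by the inverse dimension weight; the trace of that weight
-/

set_option linter.unusedSectionVars false

namespace Crest.Agent.R155

open scoped ComplexOrder MatrixOrder ComplexConjugate Matrix.Norms.L2Operator Matrix
open Finset GA Equiv

variable {ι : Type} [Fintype ι] [DecidableEq ι] {q : ℕ}

lemma zii_exists_perm {E : Type} [DecidableEq E] (z₁ z₂ : ι → E)
    (h : ∀ e, #{i | z₁ i = e} = #{i | z₂ i = e}) (P : E → Prop)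
    (h0 : ∀ e, P e → ∀ i, z₁ i = e ↔ z₂ i = e) :
    ∃ g : Perm ι, z₁ ∘ g = z₂ ∧ ∀ i, P (z₂ i) → g i = i := by
  have key : ∀ e, ∃ f : {i // z₂ i = e} ≃ {i // z₁ i = e}, P e → ∀ a, (f a).1 = a.1 := by
    intro e
    by_cases he : P e
    · exact ⟨Equiv.subtypeEquivRight fun i => (h0 e he i).symm, fun _ _ => rfl⟩
    · refine ⟨Fintype.equivOfCardEq ?_, fun h' => absurd h' he⟩
      rw [Fintype.card_subtype, Fintype.card_subtype, h e]
  choose f hf using key
  exact ⟨Equiv.ofFiberEquiv f, funext fun i => Equiv.ofFiberEquiv_map f i,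
    fun i hi => hf (z₂ i) hi ⟨i, rfl⟩⟩

lemma zii_apply_comp {X : Type} [Fintype X] [DecidableEq X] {A : Matrix (ι → X) (ι → X) ℂ}
    {g : Perm ι} (h : permM X g * A = A * permM X g) (c c' : ι → X) :
    A (c ∘ g) (c' ∘ g) = A c c' := by
  have := congrFun (congrFun h c) (c' ∘ g)
  rw [permM_mul_apply, mul_permM_apply] at this
  rw [this]
  congr 1
  ext i; simp

lemma zii_patSgn_ne_zero {p : Pat ι} (g : patGrp p) : patSgn p g ≠ 0 := by
  intro h
  have h1 := (isChar_patSgn p).mul g g.2 (g⁻¹ : patGrp p) (g⁻¹).2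
  rw [h, zero_mul, Subgroup.coe_inv, mul_inv_cancel, (isChar_patSgn p).one] at h1
  exact one_ne_zero h1

lemma zii_ev_cen {G : Type} [Group G] [Fintype G] [DecidableEq G] {α : G → ℂ} (hα : IsIrr α)
    (f : (G → ℂ) → ℂ) : ev α (cen f) = f α * α 1 := by
  have := hα.ev_cen_mul f 1
  rwa [mul_one, ev_one] at this

lemma zii_card_pos (p : Pat ι) : 0 < (patOrb p).card := card_pos.2 ⟨p, self_mem_patOrb p⟩

lemma zii_dtil_inv (p : Pat ι) {α : patGrp p → ℂ} (hα : IsIrr α) :
    ((dtil p α ^ (-1 : ℝ) : ℝ) : ℂ) = ((patOrb p).card : ℂ)⁻¹ * (α 1)⁻¹ := by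
  rw [Real.rpow_neg_one, dtil_eq, ← hα.coe_dim]
  push_cast
  rw [mul_inv]

lemma zii_compress {P T : Matrix (ι → Col q) (ι → Col q) ℂ} (hP : IsStarProjection P)
    (h : P * T = T * P) : star P * T * P = P * T := by
  rw [hP.isSelfAdjoint.star_eq, mul_assoc, ← h, ← mul_assoc, hP.isIdempotentElem.eq]

/-- A positive block matrix commuting with all permutations is bounded by its trace divided by the
dimension weight. -/
theorem le_trace_smul_Zp {T : Matrix (ι → Col q) (ι → Col q) ℂ} (hT : 0 ≤ T) (hb : IsBlock T)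
    (hc : ∀ g : Perm ι, permM (Col q) g * T = T * permM (Col q) g) :
    T ≤ T.trace • Zp ι q (-1) := by
  have hb' := isBlock_iff.1 hb
  have hP := fun p : Pat ι => isStarProjection_patProj (q := q) p
  have h0 : ∀ p : Pat ι, 0 ≤ patProj q p * T := fun p => by
    rw [← zii_compress (hP p) (hb' p)]
    exact star_left_conjugate_nonneg hT _
  have htr0 : ∀ p : Pat ι, 0 ≤ (patProj q p * T).trace := fun p =>
    (Matrix.nonneg_iff_posSemidef.1 (h0 p)).trace_nonneg
  have hsum : ∑ p : Pat ι, patProj q p * T = T := by rw [← sum_mul, sum_patProj, one_mul]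
  have horb : ∀ (p : Pat ι), ∀ p' ∈ patOrb p,
      (patProj q p' * T).trace = (patProj q p * T).trace := by
    intro p p' hp'
    obtain ⟨g, rfl⟩ := mem_patOrb.1 hp'
    have e : patProj q (p ∘ g.symm) * T
        = permM (Col q) g * (patProj q p * T * permM (Col q) g⁻¹) := by
      rw [← mul_assoc, ← mul_assoc, permM_mul_patProj, mul_assoc _ _ T, hc, mul_assoc,
        mul_assoc, ← map_mul, mul_inv_cancel, map_one, mul_one]
    rw [e, Matrix.trace_mul_comm, mul_assoc, ← map_mul, inv_mul_cancel, map_one, mul_one]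
  have hle : ∀ p : Pat ι, (patProj q p * T).trace ≤ T.trace * ((patOrb p).card : ℂ)⁻¹ := by
    intro p
    have h1 : ((patOrb p).card : ℂ) * (patProj q p * T).trace ≤ T.trace := by
      conv_rhs => rw [← hsum, Matrix.trace_sum]
      rw [← nsmul_eq_mul, ← sum_const, ← sum_congr rfl (horb p)]
      exact sum_le_sum_of_subset_of_nonneg (subset_univ _) fun p' _ _ => htr0 p'
    have h2 : ((patOrb p).card : ℂ) ≠ 0 := by exact_mod_cast (zii_card_pos p).ne'
    have h3 := mul_le_mul_of_nonneg_right h1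
      (show (0 : ℂ) ≤ ((patOrb p).card : ℂ)⁻¹ by positivity)
    rwa [mul_comm, ← mul_assoc, inv_mul_cancel₀ h2, one_mul] at h3
  conv_lhs => rw [← hsum]
  rw [Zp, Mop, smul_sum]
  refine sum_le_sum fun p _ => ?_
  set L := lift (blockRep q p) (cen fun χ => (χ 1)⁻¹) with hL
  have hL0 : 0 ≤ L := lift_nonneg (isU_blockRep p) (cen_nonneg fun χ hχ => i2_inv_nonneg hχ)
  have hPL : star (patProj q p) * L * patProj q p = patProj q p * L :=
    zii_compress (hP p) (patProj_mul_lift p _)
  have h1 := le_trace_smul_cen (isU_blockRep (q := q) p) (h0 p) fun g => by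
    rw [mul_assoc, blockRep_apply, mul_smul_comm, ← hc, ← smul_mul_assoc, ← blockRep_apply,
      ← mul_assoc, patProj_mul_blockRep, mul_assoc]
  have h2 := star_left_conjugate_le_conjugate h1 (patProj q p)
  rw [zii_compress (hP p) (by rw [mul_assoc, ← hb' p]), ← mul_assoc, (hP p).isIdempotentElem.eq,
    mul_smul_comm, smul_mul_assoc, ← hL, hPL] at h2
  refine h2.trans ?_
  rw [cen_congr fun α hα => zii_dtil_inv p hα, ← smul_cen, map_smul, ← hL, mul_smul_comm,
    smul_smul, ← sub_nonneg, ← sub_smul]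
  refine smul_nonneg (sub_nonneg.2 (hle p)) ?_
  rw [← hPL]
  exact star_left_conjugate_nonneg hL0 _

theorem kron_le_Zp_neg_half {C : Matrix (Col q) (Col q) ℂ} (hC : 0 ≤ C) (he : IsEven C)
    (ht : (C * C).trace ≤ 1) : kron (fun _ : ι => C) ≤ Zp ι q (-(1 / 2)) := by
  have hCs : star C = C := hC.isSelfAdjoint
  have hCC : 0 ≤ C * C := by
    have := star_mul_self_nonneg C
    rwa [hCs] at this
  refine le_of_mul_self_le (by rw [star_kron, hCs]) (Zp_nonneg _) ?_
  rw [kron_mul, Zp_mul, show (-(1 / 2) + -(1 / 2) : ℝ) = -1 by norm_num]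
  refine (le_trace_smul_Zp (kron_nonneg fun _ => hCC) (isBlock_kron fun _ => he.mul he)
    fun g => permM_mul_kron g _).trans ?_
  rw [← sub_nonneg]
  nth_rewrite 1 [← one_smul ℂ (Zp ι q (-1))]
  rw [← sub_smul]
  refine smul_nonneg (sub_nonneg.2 ?_) (Zp_nonneg _)
  rw [trace_kron, prod_const]
  exact pow_le_one₀ (Matrix.nonneg_iff_posSemidef.1 hCC).trace_nonneg ht

theorem trace_Zp_neg_one_eq : (Zp ι q (-1)).trace
    = ∑ p : Pat ι, ∑ α ∈ Irr (patGrp p), mlt q p α / ((patOrb p).card : ℂ) := by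
  rw [Zp, Mop, Matrix.trace_sum]
  refine sum_congr rfl fun p _ => ?_
  rw [Matrix.trace_mul_comm, trace_block]
  refine sum_congr rfl fun α hα => ?_
  have hα' := mem_Irr.1 hα
  rw [zii_ev_cen hα', zii_dtil_inv p hα', mul_assoc, inv_mul_cancel₀ hα'.one_ne_zero, mul_one,
    div_eq_mul_inv]

lemma zii_card_col : Fintype.card (Col q × Col q) = (2 * q + 1) ^ 2 := by
  simp [sq]

lemma zii_card_col_le (hq : 1 ≤ q) : Fintype.card (Col q × Col q) ≤ 9 * q ^ 2 := by
  rw [zii_card_col]; nlinarith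

lemma zii_sum_mlt_le (p : Pat ι) : (∑ α ∈ Irr (patGrp p), mlt q p α).re
    ≤ ((Fintype.card ι : ℝ) + 1) ^ Fintype.card (Col q × Col q) := by
  classical
  let ty : (ι → Col q) × (ι → Col q) → (Col q × Col q → Fin (Fintype.card ι + 1)) :=
    fun x e => ⟨#{i | (x.1 i, x.2 i) = e}, Nat.lt_succ_of_le (card_le_univ _)⟩
  have hrep : ∀ τ, ∃ x : (ι → Col q) × (ι → Col q),
      (∃ y : (ι → Col q) × (ι → Col q), patOf y.1 = p ∧ patOf y.2 = p ∧ ty y = τ) →
        patOf x.1 = p ∧ patOf x.2 = p ∧ ty x = τ := by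
    intro τ
    by_cases h : ∃ y : (ι → Col q) × (ι → Col q), patOf y.1 = p ∧ patOf y.2 = p ∧ ty y = τ
    · obtain ⟨y, hy⟩ := h
      exact ⟨y, fun _ => hy⟩
    · exact ⟨(fun _ => none, fun _ => none), fun h' => absurd h' h⟩
  choose x hx using hrep
  have h1 := trace_cen_inv_le (isU_blockRep (q := q) p) (isStarProjection_patProj p)
    (patProj_mul_blockRep p) (fun τ => (x τ).1) (fun τ => (x τ).2) (by
      intro A hA hPA h0
      ext c c'
      by_cases hc : patOf c = p ∧ patOf c' = p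
      · obtain ⟨a1, a2, a3⟩ := hx (ty (c, c')) ⟨(c, c'), hc.1, hc.2, rfl⟩
        set y := x (ty (c, c')) with hy
        have hnone : ∀ (d : ι → Col q), patOf d = p → ∀ i, d i = none ↔ p i = none := by
          intro d hd i
          rw [← hd]
          simp [patOf, ctype]
        obtain ⟨g, hg, hg'⟩ := zii_exists_perm (fun i => (y.1 i, y.2 i)) (fun i => (c i, c' i))
          (fun e => congrArg Fin.val (congrFun a3 e)) (fun e => e = (none, none)) (by
            rintro e rfl i
            simp only [Prod.mk.injEq, hnone _ a1, hnone _ a2, hnone _ hc.1, hnone _ hc.2])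
        have e1 : y.1 ∘ g = c := funext fun i => congrArg Prod.fst (congrFun hg i)
        have e2 : y.2 ∘ g = c' := funext fun i => congrArg Prod.snd (congrFun hg i)
        have hgm : g ∈ patGrp p := fun i => ⟨by
            have := congrFun (congrArg patOf e1) i
            rwa [patOf_comp, a1, hc.1] at this,
          fun hi => hg' i (by rw [(hnone _ hc.1 i).2 hi, (hnone _ hc.2 i).2 hi])⟩
        have h2 := hA ⟨g, hgm⟩
        rw [blockRep_apply, mul_smul_comm, smul_mul_assoc] at h2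
        have h3 := smul_right_injective _ (zii_patSgn_ne_zero ⟨g, hgm⟩) h2
        have h4 := zii_apply_comp h3.symm y.1 y.2
        rw [e1, e2] at h4
        rw [h4]
        exact h0 _
      · rw [← hPA, patProj, Matrix.mul_diagonal, Matrix.diagonal_mul]
        rcases not_and_or.1 hc with h | h <;> simp [h])
  rw [trace_block, sum_congr rfl fun α hα => by
    rw [zii_ev_cen (mem_Irr.1 hα), inv_mul_cancel₀ (mem_Irr.1 hα).one_ne_zero, mul_one]] at h1
  refine h1.trans (le_of_eq ?_)
  rw [Fintype.card_fun, Fintype.card_fin]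
  push_cast
  rfl

theorem trace_Zp_neg_one_le (hq : 1 ≤ q) :
    (Zp ι q (-1)).trace.re ≤ ((Fintype.card ι : ℝ) + 1) ^ (12 * q ^ 2) := by
  rw [trace_Zp_neg_one_eq, Complex.re_sum]
  set N : ℝ := (Fintype.card ι : ℝ) + 1 with hN
  have hN1 : 1 ≤ N := by rw [hN]; linarith [Nat.cast_nonneg (α := ℝ) (Fintype.card ι)]
  have h1 : ∀ p : Pat ι, (∑ α ∈ Irr (patGrp p), mlt q p α / ((patOrb p).card : ℂ)).re
      ≤ N ^ (9 * q ^ 2) * ((patOrb p).card : ℝ)⁻¹ := by
    intro p
    rw [← sum_div, Complex.div_natCast_re, div_eq_mul_inv]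
    exact mul_le_mul_of_nonneg_right ((zii_sum_mlt_le p).trans
      (pow_le_pow_right₀ hN1 (zii_card_col_le hq))) (by positivity)
  refine (sum_le_sum fun p _ => h1 p).trans ?_
  rw [← mul_sum]
  refine (mul_le_mul_of_nonneg_left sum_inv_card_patOrb_le (by positivity)).trans ?_
  rw [← pow_add]
  exact pow_le_pow_right₀ hN1 (by nlinarith)

end Crest.Agent.R155
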